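import Vale.Agent.P146.Gap.Comp
import Vale.Agent.P146.Pw2.T1Nest

/-!
# P367, classical half: common lemmas for the variation of one level (FVar-up, FVar-down)
-/

open MeasureTheory ProbabilityTheory Filter Topology Set

namespace Vale.Agent.P367.Cl

open Vale.Agent.P157.Par
open Vale.Agent.P146.Gap
open Vale.Agent.P146.Pw2

/-! ### (L1), (L2): change of the function in the averages -/

lemma var0_exp_gstep {g : ℝ} (hg : 0 < g) {F M D : ℝ → ℝ} (h : Ec F M D) (v x : ℝ) :
    Real.exp (g * gstep g v F x) = ∫ z, Real.exp (g * F (x + √v * z)) ∂(gaussianReal 0 1) := by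
  unfold gstep
  rw [← mul_assoc, mul_one_div_cancel hg.ne', one_mul, Real.exp_log (h.sm.int_exp_pos g v x)]

lemma var0_tlt_exp {g : ℝ} (hg : 0 < g) {F M D : ℝ → ℝ} (h : Ec F M D) (v x : ℝ) (φ : ℝ → ℝ) :
    tlt g v F φ x * Real.exp (g * gstep g v F x) =
      ∫ z, φ (x + √v * z) * Real.exp (g * F (x + √v * z)) ∂(gaussianReal 0 1) := by
  rw [var0_exp_gstep hg h]
  unfold tlt
  exact div_mul_cancel₀ _ (h.sm.int_exp_pos g v x).ne'

/-- the nested average in terms of the weighted observables -/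
lemma var0_chn_aux {m r : ℕ → ℝ} (h0 : m 0 = 0) {η : ℝ} : ∀ (l : ℕ), Sp7Exp m l →
    (∀ i < l, m i ≤ m (i + 1)) → ∀ {K : ℝ} {F₁ M₁ D₁ F₂ M₂ D₂ φ₁ φ₂ : ℝ → ℝ},
    Ec F₁ M₁ D₁ → Ec F₂ M₂ D₂ → 0 ≤ K → Sp7Cb φ₁ → Sp7Cb φ₂ → (∀ x, 0 ≤ φ₂ x) →
    (∀ x, F₂ x ≤ F₁ x + η) →
    (∀ x, φ₁ x * Real.exp (m l * F₁ x) ≤ K * (φ₂ x * Real.exp (m l * F₂ x))) →
    chn m r l F₁ φ₁ ≤ K * Real.exp (m l * η) * chn m r l F₂ φ₂ := by
  intro l
  induction l with
  | zero =>
    intro _ _ K F₁ M₁ D₁ F₂ M₂ D₂ φ₁ φ₂ _ _ hK h1 h2 hpos _ hle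
    rw [chn_zero_def, chn_zero_def, h0, zero_mul, Real.exp_zero, mul_one, ← integral_const_mul]
    refine integral_mono (sp7_cb_int h1 _) ((sp7_cb_int h2 _).const_mul K) fun z => ?_
    have := hle (√(r 0) * z)
    simpa [h0] using this
  | succ l ih =>
    intro hm hmm K F₁ M₁ D₁ F₂ M₂ D₂ φ₁ φ₂ hE1 hE2 hK h1 h2 hpos hF hle
    obtain ⟨g0, g1⟩ := hm l (Nat.lt_succ_self l)
    have hml := hmm l (Nat.lt_succ_self l)
    set g := m (l + 1) with hg
    set v := r (l + 1) - r l with hv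
    rw [chn_succ_def, chn_succ_def, ← hg, ← hv]
    have hF' : ∀ x, gstep g v F₂ x ≤ gstep g v F₁ x + η := fun x =>
      ex_nonexp_aux hE2 hE1 g0 v hF x
    have hnn : ∀ x, 0 ≤ tlt g v F₂ φ₂ x := fun x => by
      obtain ⟨hc, B, hB⟩ := h2
      have := hE2.sm.tlt_mono (g := fun _ => (0 : ℝ)) (g' := φ₂) continuous_const (K := 0)
        (fun _ => by simp) hc hB hpos g v x
      rwa [hE2.sm.tlt_const] at this
    have key : ∀ x, tlt g v F₁ φ₁ x * Real.exp (m l * gstep g v F₁ x) ≤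
        K * Real.exp ((g - m l) * η) *
          (tlt g v F₂ φ₂ x * Real.exp (m l * gstep g v F₂ x)) := by
      intro x
      have e1 := var0_tlt_exp g0 hE1 v x φ₁
      have e2 := var0_tlt_exp g0 hE2 v x φ₂
      have h3 : ∫ z, φ₁ (x + √v * z) * Real.exp (g * F₁ (x + √v * z)) ∂(gaussianReal 0 1) ≤
          K * ∫ z, φ₂ (x + √v * z) * Real.exp (g * F₂ (x + √v * z)) ∂(gaussianReal 0 1) := by
        rw [← integral_const_mul]
        obtain ⟨hc1, B1, hB1⟩ := h1
        obtain ⟨hc2, B2, hB2⟩ := h2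
        exact integral_mono (hE1.sm.integrable hc1 hB1 g v x)
          ((hE2.sm.integrable hc2 hB2 g v x).const_mul K) fun z => hle _
      rw [← e1, ← e2] at h3
      have s1 : tlt g v F₁ φ₁ x * Real.exp (m l * gstep g v F₁ x) =
          Real.exp (-((g - m l) * gstep g v F₁ x)) *
            (tlt g v F₁ φ₁ x * Real.exp (g * gstep g v F₁ x)) := by
        have : Real.exp (m l * gstep g v F₁ x) = Real.exp (-((g - m l) * gstep g v F₁ x)) *
            Real.exp (g * gstep g v F₁ x) := by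
          rw [← Real.exp_add]; congr 1; ring
        rw [this]; ring
      have s2 : K * Real.exp ((g - m l) * η) *
          (tlt g v F₂ φ₂ x * Real.exp (m l * gstep g v F₂ x)) =
          Real.exp ((g - m l) * η - (g - m l) * gstep g v F₂ x) *
            (K * (tlt g v F₂ φ₂ x * Real.exp (g * gstep g v F₂ x))) := by
        have : Real.exp ((g - m l) * η - (g - m l) * gstep g v F₂ x) *
            Real.exp (g * gstep g v F₂ x) =
            Real.exp ((g - m l) * η) * Real.exp (m l * gstep g v F₂ x) := by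
          rw [← Real.exp_add, ← Real.exp_add]; congr 1; ring
        calc K * Real.exp ((g - m l) * η) * (tlt g v F₂ φ₂ x * Real.exp (m l * gstep g v F₂ x))
            = K * tlt g v F₂ φ₂ x *
              (Real.exp ((g - m l) * η) * Real.exp (m l * gstep g v F₂ x)) := by ring
          _ = _ := by rw [← this]; ring
      rw [s1, s2]
      have hnn2 : 0 ≤ K * (tlt g v F₂ φ₂ x * Real.exp (g * gstep g v F₂ x)) :=
        mul_nonneg hK (mul_nonneg (hnn x) (Real.exp_pos _).le)
      have h4 : Real.exp (-((g - m l) * gstep g v F₁ x)) ≤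
          Real.exp ((g - m l) * η - (g - m l) * gstep g v F₂ x) := by
        apply Real.exp_le_exp.2
        have h5 := mul_le_mul_of_nonneg_left (hF' x) (sub_nonneg.2 hml)
        linarith
      calc Real.exp (-((g - m l) * gstep g v F₁ x)) *
            (tlt g v F₁ φ₁ x * Real.exp (g * gstep g v F₁ x))
          ≤ Real.exp (-((g - m l) * gstep g v F₁ x)) *
            (K * (tlt g v F₂ φ₂ x * Real.exp (g * gstep g v F₂ x))) :=
            mul_le_mul_of_nonneg_left h3 (Real.exp_pos _).le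
        _ ≤ _ := mul_le_mul_of_nonneg_right h4 hnn2
    have h6 := ih (fun i hi => hm i (by omega)) (fun i hi => hmm i (by omega))
      (hE1.step g0 g1 v) (hE2.step g0 g1 v) (mul_nonneg hK (Real.exp_pos _).le)
      (sp7_cb_tlt hE1 h1 g v) (sp7_cb_tlt hE2 h2 g v) hnn hF' key
    refine h6.trans (le_of_eq ?_)
    have : Real.exp (g * η) = Real.exp ((g - m l) * η) * Real.exp (m l * η) := by
      rw [← Real.exp_add]; congr 1; ring
    rw [this]
    ring

/-- (L1) change of the function in a nested average -/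
theorem chn_change {m r : ℕ → ℝ} (h0 : m 0 = 0) {η : ℝ} {l : ℕ} (hm : Sp7Exp m l)
    (hmm : ∀ i < l, m i ≤ m (i + 1)) (hml : 0 ≤ m l) {F₁ M₁ D₁ F₂ M₂ D₂ φ : ℝ → ℝ}
    (hE1 : Ec F₁ M₁ D₁) (hE2 : Ec F₂ M₂ D₂) (hφ : Sp7Cb φ) (hpos : ∀ x, 0 ≤ φ x)
    (hF : ∀ x, |F₁ x - F₂ x| ≤ η) :
    chn m r l F₁ φ ≤ Real.exp (2 * m l * η) * chn m r l F₂ φ := by
  have h1 := var0_chn_aux (r := r) h0 l hm hmm (K := Real.exp (m l * η)) hE1 hE2
    (Real.exp_pos _).le hφ hφ hpos (η := η) (fun x => by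
      have := (abs_le.1 (hF x)).1
      linarith) (fun x => by
      have h2 : Real.exp (m l * F₁ x) ≤ Real.exp (m l * η) * Real.exp (m l * F₂ x) := by
        rw [← Real.exp_add]
        apply Real.exp_le_exp.2
        have := mul_le_mul_of_nonneg_left (show F₁ x ≤ η + F₂ x by
          have := (abs_le.1 (hF x)).2
          linarith) hml
        linarith
      have := mul_le_mul_of_nonneg_left h2 (hpos x)
      refine this.trans (le_of_eq (by ring)))
  refine h1.trans (le_of_eq ?_)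
  rw [← Real.exp_add]
  congr 2
  ring

/-- (L2) change of the function in one average -/
theorem tlt_change {g η : ℝ} (hg : 0 ≤ g) {F₁ M₁ D₁ F₂ M₂ D₂ φ : ℝ → ℝ}
    (hE1 : Ec F₁ M₁ D₁) (hE2 : Ec F₂ M₂ D₂) (hφ : Sp7Cb φ) (hpos : ∀ x, 0 ≤ φ x)
    (hF : ∀ x, |F₁ x - F₂ x| ≤ η) (v x : ℝ) :
    tlt g v F₁ φ x ≤ Real.exp (2 * g * η) * tlt g v F₂ φ x := by
  obtain ⟨hc, B, hB⟩ := hφ
  have hp1 := hE1.sm.int_exp_pos g v x
  have hp2 := hE2.sm.int_exp_pos g v x
  have key : ∀ {G M D H M' D' : ℝ → ℝ}, Ec G M D → Ec H M' D' → (∀ y, |G y - H y| ≤ η) →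
      ∀ y, Real.exp (g * G y) ≤ Real.exp (g * η) * Real.exp (g * H y) := by
    intro G M D H M' D' _ _ h y
    rw [← Real.exp_add]
    apply Real.exp_le_exp.2
    have := mul_le_mul_of_nonneg_left (show G y ≤ η + H y by
      have := (abs_le.1 (h y)).2
      linarith) hg
    linarith
  have h1 : ∫ z, φ (x + √v * z) * Real.exp (g * F₁ (x + √v * z)) ∂(gaussianReal 0 1) ≤
      Real.exp (g * η) *
        ∫ z, φ (x + √v * z) * Real.exp (g * F₂ (x + √v * z)) ∂(gaussianReal 0 1) := by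
    rw [← integral_const_mul]
    refine integral_mono (hE1.sm.integrable hc hB g v x)
      ((hE2.sm.integrable hc hB g v x).const_mul _) fun z => ?_
    have := mul_le_mul_of_nonneg_left (key hE1 hE2 hF (x + √v * z)) (hpos (x + √v * z))
    refine this.trans (le_of_eq (by ring))
  have h2 : ∫ z, Real.exp (g * F₂ (x + √v * z)) ∂(gaussianReal 0 1) ≤
      Real.exp (g * η) * ∫ z, Real.exp (g * F₁ (x + √v * z)) ∂(gaussianReal 0 1) := by
    rw [← integral_const_mul]
    refine integral_mono (hE2.sm.integrable_exp g v x)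
      ((hE1.sm.integrable_exp g v x).const_mul _) fun z => ?_
    exact key hE2 hE1 (fun y => by rw [abs_sub_comm]; exact hF y) (x + √v * z)
  have hn : 0 ≤ ∫ z, φ (x + √v * z) * Real.exp (g * F₂ (x + √v * z)) ∂(gaussianReal 0 1) :=
    integral_nonneg fun z => mul_nonneg (hpos _) (Real.exp_pos _).le
  unfold tlt
  rw [div_le_iff₀ hp1]
  set A := ∫ z, φ (x + √v * z) * Real.exp (g * F₂ (x + √v * z)) ∂(gaussianReal 0 1)
  set Z₁ := ∫ z, Real.exp (g * F₁ (x + √v * z)) ∂(gaussianReal 0 1)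
  set Z₂ := ∫ z, Real.exp (g * F₂ (x + √v * z)) ∂(gaussianReal 0 1)
  have h3 : Real.exp (2 * g * η) = Real.exp (g * η) * Real.exp (g * η) := by
    rw [← Real.exp_add]; congr 1; ring
  have h4 : Real.exp (g * η) * A ≤ Real.exp (2 * g * η) * (A / Z₂) * Z₁ := by
    rw [h3]
    have h5 : A = A / Z₂ * Z₂ := by field_simp
    have h6 : A / Z₂ * Z₂ ≤ A / Z₂ * (Real.exp (g * η) * Z₁) :=
      mul_le_mul_of_nonneg_left h2 (div_nonneg hn hp2.le)
    calc Real.exp (g * η) * A ≤ Real.exp (g * η) * (A / Z₂ * (Real.exp (g * η) * Z₁)) := by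
          refine mul_le_mul_of_nonneg_left ?_ (Real.exp_pos _).le
          rw [← h5] at h6
          exact h6
      _ = _ := by ring
  exact h1.trans h4

/-- (L1) the form with a subtraction: for `0 ≤ φ ≤ B` -/
theorem chn_change_sub {m r : ℕ → ℝ} (h0 : m 0 = 0) {η B : ℝ} {l : ℕ} (hm : Sp7Exp m l)
    (hmm : ∀ i < l, m i ≤ m (i + 1)) (hml : 0 ≤ m l) (hml1 : m l ≤ 1) {F₁ M₁ D₁ F₂ M₂ D₂ φ : ℝ → ℝ}
    (hE1 : Ec F₁ M₁ D₁) (hE2 : Ec F₂ M₂ D₂) (hφ : Sp7Cb φ) (hpos : ∀ x, 0 ≤ φ x)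
    (hB : ∀ x, φ x ≤ B) (hF : ∀ x, |F₁ x - F₂ x| ≤ η) :
    chn m r l F₁ φ - 2 * η * B ≤ chn m r l F₂ φ := by
  have hη : 0 ≤ η := (abs_nonneg _).trans (hF 0)
  have hB0 : 0 ≤ B := (hpos 0).trans (hB 0)
  have h1 := chn_change (r := r) h0 hm hmm hml hE1 hE2 hφ hpos hF
  have h2 : chn m r l F₁ φ ≤ B := by
    have := sp7_chn_mono m r l hm hE1 hφ (sp7_cb_const B) hB
    rwa [sp7_chn_const m r l hm hE1] at this
  have h20 : 0 ≤ chn m r l F₁ φ := by
    have := sp7_chn_mono m r l hm hE1 (sp7_cb_const 0) hφ hpos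
    rwa [sp7_chn_const m r l hm hE1] at this
  have h3 : Real.exp (-(2 * m l * η)) * chn m r l F₁ φ ≤ chn m r l F₂ φ := by
    have := mul_le_mul_of_nonneg_left h1 (Real.exp_pos (-(2 * m l * η))).le
    rwa [← mul_assoc, ← Real.exp_add, neg_add_cancel, Real.exp_zero, one_mul] at this
  have h4 : 1 - 2 * m l * η ≤ Real.exp (-(2 * m l * η)) := by
    have := Real.add_one_le_exp (-(2 * m l * η))
    linarith
  have h5 := mul_le_mul_of_nonneg_right h4 h20
  have h6 : 2 * m l * η * chn m r l F₁ φ ≤ 2 * η * B := by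
    have h7 : 2 * m l * η ≤ 2 * η := by nlinarith
    exact mul_le_mul h7 h2 h20 (by positivity)
  have h8 : (1 - 2 * m l * η) * chn m r l F₁ φ =
      chn m r l F₁ φ - 2 * m l * η * chn m r l F₁ φ := by ring
  linarith

/-- (L2) the form with a subtraction -/
theorem tlt_change_sub {g η B : ℝ} (hg : 0 ≤ g) (hg1 : g ≤ 1) {F₁ M₁ D₁ F₂ M₂ D₂ φ : ℝ → ℝ}
    (hE1 : Ec F₁ M₁ D₁) (hE2 : Ec F₂ M₂ D₂) (hφ : Sp7Cb φ) (hpos : ∀ x, 0 ≤ φ x)
    (hB : ∀ x, φ x ≤ B) (hF : ∀ x, |F₁ x - F₂ x| ≤ η) (v x : ℝ) :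
    tlt g v F₁ φ x - 2 * η * B ≤ tlt g v F₂ φ x := by
  have hη : 0 ≤ η := (abs_nonneg _).trans (hF 0)
  have hB0 : 0 ≤ B := (hpos 0).trans (hB 0)
  have h1 := tlt_change hg hE1 hE2 hφ hpos hF v x
  obtain ⟨hc, K, hK⟩ := hφ
  have h2 : tlt g v F₁ φ x ≤ B := by
    have := hE1.sm.tlt_mono hc hK continuous_const (K' := |B|) (fun _ => le_rfl) hB g v x
    rwa [hE1.sm.tlt_const] at this
  have h20 : 0 ≤ tlt g v F₁ φ x := by
    have := hE1.sm.tlt_mono (g := fun _ => (0 : ℝ)) (g' := φ) continuous_const (K := 0)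
      (fun _ => by simp) hc hK hpos g v x
    rwa [hE1.sm.tlt_const] at this
  have h3 : Real.exp (-(2 * g * η)) * tlt g v F₁ φ x ≤ tlt g v F₂ φ x := by
    have := mul_le_mul_of_nonneg_left h1 (Real.exp_pos (-(2 * g * η))).le
    rwa [← mul_assoc, ← Real.exp_add, neg_add_cancel, Real.exp_zero, one_mul] at this
  have h4 : 1 - 2 * g * η ≤ Real.exp (-(2 * g * η)) := by
    have := Real.add_one_le_exp (-(2 * g * η))
    linarith
  have h5 := mul_le_mul_of_nonneg_right h4 h20
  have h6 : 2 * g * η * tlt g v F₁ φ x ≤ 2 * η * B := by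
    have h7 : 2 * g * η ≤ 2 * η := by nlinarith
    exact mul_le_mul h7 h2 h20 (by positivity)
  have h8 : (1 - 2 * g * η) * tlt g v F₁ φ x =
      tlt g v F₁ φ x - 2 * g * η * tlt g v F₁ φ x := by ring
  linarith

/-! ### (L3): change of the exponent of the tilt -/

lemma var0_int_abs (c : ℝ) : Integrable (fun z : ℝ => Real.exp (c * |z|)) (gaussianReal 0 1) :=
  sp2_integrable_exp_abs c

/-- (L3) -/
theorem tlt_exp_lip (S : ℝ) : ∃ C : ℝ, 0 ≤ C ∧ ∀ {g g' s L : ℝ} {F M D ψ : ℝ → ℝ}, Ec F M D →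
    0 ≤ g → g ≤ 1 → 0 ≤ g' → g' ≤ 1 → 0 ≤ s → s ≤ S → 0 ≤ L → Sp7Cb ψ →
    (∀ x y, |ψ x - ψ y| ≤ L * |x - y|) → ∀ x,
      |tlt g' s F ψ x - tlt g s F ψ x| ≤ C * L * |g' - g| * s := by
  set I : ℝ := ∫ z, Real.exp ((1 + √S) * |z|) ∂(gaussianReal 0 1) with hI
  set c : ℝ := ∫ z, Real.exp (-√S * |z|) ∂(gaussianReal 0 1) with hc
  have hIp : 0 ≤ I := integral_nonneg fun z => (Real.exp_pos _).le
  have hcp : 0 < c := integral_exp_pos (var0_int_abs (-√S))
  refine ⟨2 * I / c + I ^ 2 / c ^ 2, by positivity, ?_⟩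
  intro g g' s L F M D ψ hE hg hg1 hg' hg'1 hs hsS hL hψ hlip x
  set w : ℝ → ℝ := fun z => F (x + √s * z) - F x with hw
  set p : ℝ → ℝ := fun z => ψ (x + √s * z) - ψ x with hp
  have hss : √s ≤ √S := Real.sqrt_le_sqrt hsS
  have hs0 : 0 ≤ √s := Real.sqrt_nonneg s
  have hwb : ∀ z, |w z| ≤ √s * |z| := fun z => by
    have := hE.sm.lip (x + √s * z) x
    have e : x + √s * z - x = √s * z := by ring
    rw [e, one_mul, abs_mul, abs_of_nonneg hs0] at this
    exact this
  have hpb : ∀ z, |p z| ≤ L * (√s * |z|) := fun z => by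
    have := hlip (x + √s * z) x
    have e : x + √s * z - x = √s * z := by ring
    rw [e, abs_mul, abs_of_nonneg hs0] at this
    exact this
  have hwS : ∀ z, |w z| ≤ √S * |z| := fun z =>
    (hwb z).trans (mul_le_mul_of_nonneg_right hss (abs_nonneg z))
  have hFc := hE.sm.cont
  have hψc := hψ.1
  have hcw : Continuous w := by simp only [hw]; fun_prop
  have hcp' : Continuous p := by simp only [hp]; fun_prop
  -- pointwise bounds
  have hup : ∀ t, 0 ≤ t → t ≤ 1 → ∀ z, Real.exp (t * w z) ≤ Real.exp (√S * |z|) := by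
    intro t ht ht1 z
    apply Real.exp_le_exp.2
    calc t * w z ≤ t * |w z| := mul_le_mul_of_nonneg_left (le_abs_self _) ht
      _ ≤ 1 * |w z| := mul_le_mul_of_nonneg_right ht1 (abs_nonneg _)
      _ ≤ √S * |z| := by rw [one_mul]; exact hwS z
  have hlow : ∀ t, 0 ≤ t → t ≤ 1 → ∀ z, Real.exp (-√S * |z|) ≤ Real.exp (t * w z) := by
    intro t ht ht1 z
    apply Real.exp_le_exp.2
    have h1 : -(t * w z) ≤ √S * |z| := by
      calc -(t * w z) = t * (-w z) := by ring
        _ ≤ t * |w z| := mul_le_mul_of_nonneg_left (neg_le_abs _) ht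
        _ ≤ 1 * |w z| := mul_le_mul_of_nonneg_right ht1 (abs_nonneg _)
        _ ≤ √S * |z| := by rw [one_mul]; exact hwS z
    linarith
  have hz1 : ∀ z : ℝ, |z| ≤ Real.exp |z| := fun z => sp2_abs_le_exp z
  have hz2 : ∀ z : ℝ, |z| * |z| ≤ 2 * Real.exp |z| := fun z => by
    have h1 := Real.pow_div_factorial_le_exp |z| (abs_nonneg z) 2
    have h2 : ((Nat.factorial 2 : ℕ) : ℝ) = 2 := by norm_num [Nat.factorial]
    rw [h2, div_le_iff₀ (by norm_num)] at h1
    nlinarith
  have hsplit : ∀ z : ℝ, Real.exp ((1 + √S) * |z|) = Real.exp |z| * Real.exp (√S * |z|) :=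
    fun z => by rw [← Real.exp_add]; congr 1; ring
  have hie : ∀ t, 0 ≤ t → t ≤ 1 → Integrable (fun z => Real.exp (t * w z)) (gaussianReal 0 1) := by
    intro t ht ht1
    refine (var0_int_abs (√S)).mono' (by fun_prop) (Eventually.of_forall fun z => ?_)
    rw [Real.norm_eq_abs, abs_of_pos (Real.exp_pos _)]
    exact hup t ht ht1 z
  have hipb : ∀ t, 0 ≤ t → t ≤ 1 → ∀ z, |p z * Real.exp (t * w z)| ≤
      L * √s * Real.exp ((1 + √S) * |z|) := by
    intro t ht ht1 z
    rw [abs_mul, abs_of_pos (Real.exp_pos _), hsplit]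
    calc |p z| * Real.exp (t * w z) ≤ (L * (√s * |z|)) * Real.exp (√S * |z|) :=
          mul_le_mul (hpb z) (hup t ht ht1 z) (Real.exp_pos _).le (by positivity)
      _ ≤ (L * (√s * Real.exp |z|)) * Real.exp (√S * |z|) := by
          gcongr
          exact hz1 z
      _ = _ := by ring
  have hip : ∀ t, 0 ≤ t → t ≤ 1 → Integrable (fun z => p z * Real.exp (t * w z))
      (gaussianReal 0 1) := by
    intro t ht ht1
    refine ((var0_int_abs (1 + √S)).const_mul (L * √s)).mono' (by fun_prop)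
      (Eventually.of_forall fun z => ?_)
    rw [Real.norm_eq_abs]
    exact hipb t ht ht1 z
  -- the difference of the exponentials
  have hdiff : ∀ z, |Real.exp (g' * w z) - Real.exp (g * w z)| ≤
      |g' - g| * (√s * |z|) * Real.exp (√S * |z|) := by
    intro z
    have key : ∀ a b : ℝ, 0 ≤ a → a ≤ 1 → 0 ≤ b → b ≤ 1 →
        Real.exp (a * w z) - Real.exp (b * w z) ≤ |a - b| * (√s * |z|) * Real.exp (√S * |z|) := by
      intro a b ha ha1 hb hb1
      have h1 : Real.exp (b * w z) = Real.exp (a * w z) * Real.exp (-((a - b) * w z)) := by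
        rw [← Real.exp_add]; congr 1; ring
      have h2 := Real.add_one_le_exp (-((a - b) * w z))
      have h3 : Real.exp (a * w z) - Real.exp (b * w z) ≤ Real.exp (a * w z) * ((a - b) * w z) := by
        rw [h1]
        have := mul_le_mul_of_nonneg_left h2 (Real.exp_pos (a * w z)).le
        linarith
      have h4 : (a - b) * w z ≤ |a - b| * (√s * |z|) := by
        calc (a - b) * w z ≤ |(a - b) * w z| := le_abs_self _
          _ = |a - b| * |w z| := abs_mul _ _
          _ ≤ _ := mul_le_mul_of_nonneg_left (hwb z) (abs_nonneg _)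
      calc Real.exp (a * w z) - Real.exp (b * w z) ≤ Real.exp (a * w z) * ((a - b) * w z) := h3
        _ ≤ Real.exp (a * w z) * (|a - b| * (√s * |z|)) :=
            mul_le_mul_of_nonneg_left h4 (Real.exp_pos _).le
        _ ≤ Real.exp (√S * |z|) * (|a - b| * (√s * |z|)) :=
            mul_le_mul_of_nonneg_right (hup a ha ha1 z) (by positivity)
        _ = _ := by ring
    rw [abs_le]
    constructor
    · have := key g g' hg hg1 hg' hg'1
      rw [abs_sub_comm g g'] at this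
      linarith
    · exact key g' g hg' hg'1 hg hg1
  set N : ℝ → ℝ := fun t => ∫ z, p z * Real.exp (t * w z) ∂(gaussianReal 0 1) with hN
  set Z : ℝ → ℝ := fun t => ∫ z, Real.exp (t * w z) ∂(gaussianReal 0 1) with hZ
  have hZc : ∀ t, 0 ≤ t → t ≤ 1 → c ≤ Z t := fun t ht ht1 =>
    integral_mono (var0_int_abs (-√S)) (hie t ht ht1) fun z => hlow t ht ht1 z
  have hNb : ∀ t, 0 ≤ t → t ≤ 1 → |N t| ≤ L * √s * I := by
    intro t ht ht1
    calc |N t| ≤ ∫ z, |p z * Real.exp (t * w z)| ∂(gaussianReal 0 1) := abs_integral_le_integral_abs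
      _ ≤ ∫ z, L * √s * Real.exp ((1 + √S) * |z|) ∂(gaussianReal 0 1) :=
          integral_mono (hip t ht ht1).abs ((var0_int_abs (1 + √S)).const_mul _) fun z =>
            hipb t ht ht1 z
      _ = _ := by rw [integral_const_mul]
  have hZd : |Z g' - Z g| ≤ |g' - g| * √s * I := by
    simp only [hZ]
    rw [← integral_sub (hie g' hg' hg'1) (hie g hg hg1)]
    calc _ ≤ ∫ z, |Real.exp (g' * w z) - Real.exp (g * w z)| ∂(gaussianReal 0 1) :=
          abs_integral_le_integral_abs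
      _ ≤ ∫ z, |g' - g| * √s * Real.exp ((1 + √S) * |z|) ∂(gaussianReal 0 1) := by
          refine integral_mono ((hie g' hg' hg'1).sub (hie g hg hg1)).abs
            ((var0_int_abs (1 + √S)).const_mul _) fun z => ?_
          refine (hdiff z).trans ?_
          rw [hsplit]
          calc |g' - g| * (√s * |z|) * Real.exp (√S * |z|)
              ≤ |g' - g| * (√s * Real.exp |z|) * Real.exp (√S * |z|) := by
                gcongr
                exact hz1 z
            _ = _ := by ring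
      _ = _ := by rw [integral_const_mul]
  have hNd : |N g' - N g| ≤ 2 * L * s * |g' - g| * I := by
    simp only [hN]
    rw [← integral_sub (hip g' hg' hg'1) (hip g hg hg1)]
    calc _ ≤ ∫ z, |p z * Real.exp (g' * w z) - p z * Real.exp (g * w z)| ∂(gaussianReal 0 1) :=
          abs_integral_le_integral_abs
      _ ≤ ∫ z, 2 * L * s * |g' - g| * Real.exp ((1 + √S) * |z|) ∂(gaussianReal 0 1) := by
          refine integral_mono ((hip g' hg' hg'1).sub (hip g hg hg1)).abs
            ((var0_int_abs (1 + √S)).const_mul _) fun z => ?_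
          simp only []
          rw [← mul_sub, abs_mul, hsplit]
          calc |p z| * |Real.exp (g' * w z) - Real.exp (g * w z)|
              ≤ (L * (√s * |z|)) * (|g' - g| * (√s * |z|) * Real.exp (√S * |z|)) :=
                mul_le_mul (hpb z) (hdiff z) (abs_nonneg _) (by positivity)
            _ = (L * (√s * √s) * |g' - g|) * (|z| * |z|) * Real.exp (√S * |z|) := by ring
            _ = (L * s * |g' - g|) * (|z| * |z|) * Real.exp (√S * |z|) := by
                rw [Real.mul_self_sqrt hs]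
            _ ≤ (L * s * |g' - g|) * (2 * Real.exp |z|) * Real.exp (√S * |z|) :=
                mul_le_mul_of_nonneg_right (mul_le_mul_of_nonneg_left (hz2 z) (by positivity))
                  (Real.exp_pos _).le
            _ = _ := by ring
      _ = _ := by rw [integral_const_mul]
  have hrep : ∀ t, 0 ≤ t → t ≤ 1 → tlt t s F ψ x = ψ x + N t / Z t := by
    intro t ht ht1
    have hZp : 0 < Z t := hcp.trans_le (hZc t ht ht1)
    have e1 : ∫ z, Real.exp (t * F (x + √s * z)) ∂(gaussianReal 0 1) =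
        Real.exp (t * F x) * Z t := by
      simp only [hZ]
      rw [← integral_const_mul]
      refine integral_congr_ae (Eventually.of_forall fun z => ?_)
      simp only [hw]
      rw [← Real.exp_add]; congr 1; ring
    have e2 : ∫ z, ψ (x + √s * z) * Real.exp (t * F (x + √s * z)) ∂(gaussianReal 0 1) =
        Real.exp (t * F x) * (ψ x * Z t + N t) := by
      simp only [hZ, hN]
      rw [← integral_const_mul, ← integral_add ((hie t ht ht1).const_mul _) (hip t ht ht1),
        ← integral_const_mul]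
      refine integral_congr_ae (Eventually.of_forall fun z => ?_)
      simp only [hw, hp]
      have : Real.exp (t * F (x + √s * z)) =
          Real.exp (t * F x) * Real.exp (t * (F (x + √s * z) - F x)) := by
        rw [← Real.exp_add]; congr 1; ring
      rw [this]; ring
    unfold tlt
    rw [e1, e2, mul_div_mul_left _ _ (Real.exp_pos _).ne', add_div, mul_div_cancel_right₀ _ hZp.ne']
  rw [hrep g' hg' hg'1, hrep g hg hg1]
  have hZ1 := hZc g hg hg1
  have hZ2 := hZc g' hg' hg'1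
  have hZ1p : 0 < Z g := hcp.trans_le hZ1
  have hZ2p : 0 < Z g' := hcp.trans_le hZ2
  have e3 : ψ x + N g' / Z g' - (ψ x + N g / Z g) =
      (N g' - N g) / Z g' - N g * (Z g' - Z g) / (Z g * Z g') := by
    field_simp
    ring
  rw [e3]
  have b1 : |(N g' - N g) / Z g'| ≤ 2 * L * s * |g' - g| * I / c := by
    rw [abs_div, abs_of_pos hZ2p]
    exact div_le_div₀ (by positivity) hNd hcp hZ2
  have b2 : |N g * (Z g' - Z g) / (Z g * Z g')| ≤ L * s * |g' - g| * I ^ 2 / c ^ 2 := by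
    rw [abs_div, abs_of_pos (mul_pos hZ1p hZ2p), abs_mul]
    refine div_le_div₀ (by positivity) ?_ (by positivity) ?_
    · calc |N g| * |Z g' - Z g| ≤ (L * √s * I) * (|g' - g| * √s * I) :=
            mul_le_mul (hNb g hg hg1) hZd (abs_nonneg _) (by positivity)
        _ = L * (√s * √s) * |g' - g| * I ^ 2 := by ring
        _ = _ := by rw [Real.mul_self_sqrt hs]
    · rw [sq]
      exact mul_le_mul hZ1 hZ2 hcp.le hZ1p.le
  refine (abs_sub _ _).trans ?_
  refine (add_le_add b1 b2).trans (le_of_eq ?_)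
  ring

/-! ### (L4): nested averages of integrals over the time -/

/-- continuous and bounded on a strip -/
def BcOn (T : ℝ) (f : ℝ → ℝ → ℝ) : Prop :=
  ContinuousOn (fun p : ℝ × ℝ => f p.1 p.2) (Icc 0 T ×ˢ univ) ∧
    ∃ B, ∀ t ∈ Icc 0 T, ∀ x, |f t x| ≤ B

lemma BcOn.slice {T : ℝ} {f : ℝ → ℝ → ℝ} (h : BcOn T f) {t : ℝ} (ht : t ∈ Icc 0 T) :
    Sp7Cb (f t) := by
  obtain ⟨hc, B, hB⟩ := h
  refine ⟨?_, B, hB t ht⟩
  have := hc.comp_continuous (f := fun x : ℝ => ((t, x) : ℝ × ℝ)) (by fun_prop)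
    (fun x => ⟨ht, mem_univ _⟩)
  exact this

lemma BcOn.time {T : ℝ} {f : ℝ → ℝ → ℝ} (h : BcOn T f) (x : ℝ) :
    ContinuousOn (fun t => f t x) (Icc 0 T) :=
  h.1.comp (f := fun t : ℝ => ((t, x) : ℝ × ℝ)) (by fun_prop) (fun t ht => ⟨ht, mem_univ _⟩)

lemma BcOn.tlt_bc {T : ℝ} {f : ℝ → ℝ → ℝ} (h : BcOn T f) {F M D : ℝ → ℝ} (hE : Ec F M D)
    (g v : ℝ) : BcOn T (fun t => tlt g v F (f t)) := by
  have h' := h
  obtain ⟨hc, B, hB⟩ := h
  refine ⟨?_, B, fun t ht x => hE.sm.abs_tlt_le (h'.slice ht).1 (hB t ht) g v x⟩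
  have h1 := (sp5_fam_const hE 0 T).tlt_cont hc hB g v 0
  simpa using h1

/-- Fubini for a bounded family -/
lemma var0_swap {T : ℝ} (hT : 0 ≤ T) {μ : Measure ℝ} [IsFiniteMeasure μ] {f : ℝ → ℝ → ℝ}
    (hc : ContinuousOn (fun p : ℝ × ℝ => f p.1 p.2) (Icc 0 T ×ˢ univ)) {G : ℝ → ℝ}
    (hG : Integrable G μ) (hb : ∀ t ∈ Icc 0 T, ∀ z, |f t z| ≤ G z) :
    ∫ z, (∫ t in (0 : ℝ)..T, f t z) ∂μ = ∫ t in (0 : ℝ)..T, (∫ z, f t z ∂μ) := by
  simp only [intervalIntegral.integral_of_le hT]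
  have hmeas : MeasurableSet (Icc 0 T ×ˢ (univ : Set ℝ)) := measurableSet_Icc.prod MeasurableSet.univ
  have hsub : Ioc 0 T ⊆ Icc 0 T := Ioc_subset_Icc_self
  have hr : ((volume : Measure ℝ).restrict (Ioc 0 T)).prod μ =
      ((volume : Measure ℝ).prod μ).restrict (Ioc 0 T ×ˢ univ) := by
    rw [← Measure.prod_restrict, Measure.restrict_univ]
  have hae : AEStronglyMeasurable (fun p : ℝ × ℝ => f p.1 p.2)
      (((volume : Measure ℝ).restrict (Ioc 0 T)).prod μ) := by
    rw [hr]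
    exact (hc.aestronglyMeasurable hmeas).mono_measure
      (Measure.restrict_mono (prod_mono hsub subset_rfl) le_rfl)
  have hint : Integrable (fun p : ℝ × ℝ => f p.1 p.2)
      (((volume : Measure ℝ).restrict (Ioc 0 T)).prod μ) := by
    have hG' : Integrable (fun p : ℝ × ℝ => (1 : ℝ) * G p.2)
        (((volume : Measure ℝ).restrict (Ioc 0 T)).prod μ) :=
      Integrable.mul_prod (f := fun _ : ℝ => (1 : ℝ)) (integrable_const _) hG
    refine hG'.mono' hae ?_
    rw [hr]
    refine (ae_restrict_iff' (measurableSet_Ioc.prod MeasurableSet.univ)).2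
      (Eventually.of_forall fun p hp => ?_)
    rw [one_mul, Real.norm_eq_abs]
    exact hb p.1 (hsub hp.1) p.2
  exact (integral_integral_swap (f := fun t z => f t z) hint).symm

lemma var0_cb_int {T : ℝ} (hT : 0 ≤ T) {f : ℝ → ℝ → ℝ} (h : BcOn T f) :
    Sp7Cb (fun x => ∫ t in (0 : ℝ)..T, f t x) := by
  obtain ⟨hc, B, hB⟩ := h
  refine ⟨?_, B * T, fun x => ?_⟩
  · -- clamp the time
    set f' : ℝ → ℝ → ℝ := fun x t => f (max 0 (min t T)) x with hf'
    have hc' : Continuous (Function.uncurry f') := by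
      have : Continuous fun p : ℝ × ℝ => f (max 0 (min p.2 T)) p.1 :=
        hc.comp_continuous (f := fun p : ℝ × ℝ => ((max 0 (min p.2 T), p.1) : ℝ × ℝ))
          (by fun_prop) (fun p => ⟨⟨le_max_left _ _, max_le hT (min_le_right _ _)⟩, mem_univ _⟩)
      exact this
    have h1 := intervalIntegral.continuous_parametric_intervalIntegral_of_continuous' (μ := volume)
      hc' 0 T
    refine h1.congr fun x => ?_
    refine intervalIntegral.integral_congr fun t ht => ?_
    rw [uIcc_of_le hT] at ht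
    simp only [hf']
    rw [min_eq_left ht.2, max_eq_right ht.1]
  · have := intervalIntegral.norm_integral_le_of_norm_le_const (a := 0) (b := T) (C := B)
      (f := fun t => f t x) (fun t ht => by
        rw [uIoc_of_le hT] at ht
        rw [Real.norm_eq_abs]
        exact hB t (Ioc_subset_Icc_self ht) x)
    rw [Real.norm_eq_abs, sub_zero, abs_of_nonneg hT] at this
    exact this

lemma var0_tlt_int {T : ℝ} (hT : 0 ≤ T) {f : ℝ → ℝ → ℝ} (h : BcOn T f) {F M D : ℝ → ℝ}
    (hE : Ec F M D) (g v x : ℝ) :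
    tlt g v F (fun x => ∫ t in (0 : ℝ)..T, f t x) x = ∫ t in (0 : ℝ)..T, tlt g v F (f t) x := by
  obtain ⟨hc, B, hB⟩ := h
  have hB0 : 0 ≤ B := (abs_nonneg _).trans (hB 0 ⟨le_rfl, hT⟩ 0)
  have hF := hE.sm.cont
  unfold Vale.Agent.P157.Par.tlt
  rw [intervalIntegral.integral_div]
  congr 1
  have h1 := var0_swap hT (μ := gaussianReal 0 1)
    (f := fun t z => f t (x + √v * z) * Real.exp (g * F (x + √v * z)))
    (G := fun z => B * Real.exp (g * F (x + √v * z))) ?_ ?_ ?_
  · rw [← h1]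
    refine integral_congr_ae (Eventually.of_forall fun z => ?_)
    simp only []
    rw [intervalIntegral.integral_mul_const]
  · have h2 : ContinuousOn (fun p : ℝ × ℝ => f p.1 (x + √v * p.2)) (Icc 0 T ×ˢ univ) :=
      hc.comp (f := fun p : ℝ × ℝ => ((p.1, x + √v * p.2) : ℝ × ℝ)) (by fun_prop)
        (fun p hp => ⟨hp.1, mem_univ _⟩)
    exact h2.mul (by fun_prop : Continuous fun p : ℝ × ℝ =>
      Real.exp (g * F (x + √v * p.2))).continuousOn
  · exact (hE.sm.integrable_exp g v x).const_mul B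
  · intro t ht z
    rw [abs_mul, abs_of_pos (Real.exp_pos _)]
    exact mul_le_mul_of_nonneg_right (hB t ht _) (Real.exp_pos _).le

/-- (L4) -/
theorem var0_chn_integral {T : ℝ} (hT : 0 ≤ T) {m r : ℕ → ℝ} : ∀ (l : ℕ), Sp7Exp m l →
    ∀ {f : ℝ → ℝ → ℝ}, BcOn T f → ∀ {F M D : ℝ → ℝ}, Ec F M D →
    ContinuousOn (fun t => chn m r l F (f t)) (Icc 0 T) ∧
    chn m r l F (fun x => ∫ t in (0 : ℝ)..T, f t x) = ∫ t in (0 : ℝ)..T, chn m r l F (f t) := by
  intro l
  induction l with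
  | zero =>
    intro _ f h F M D hE
    have h' := h
    obtain ⟨hc, B, hB⟩ := h
    simp only [chn_zero_def]
    have hc2 : ContinuousOn (fun p : ℝ × ℝ => f p.1 (√(r 0) * p.2)) (Icc 0 T ×ˢ univ) :=
      hc.comp (f := fun p : ℝ × ℝ => ((p.1, √(r 0) * p.2) : ℝ × ℝ)) (by fun_prop)
        (fun p hp => ⟨hp.1, mem_univ _⟩)
    constructor
    · intro t ht
      refine continuousWithinAt_of_dominated (bound := fun _ => B) ?_ ?_ (integrable_const B) ?_
      · filter_upwards [self_mem_nhdsWithin] with s hs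
        exact (sp7_cb_int (h'.slice hs) _).aestronglyMeasurable
      · filter_upwards [self_mem_nhdsWithin] with s hs
        exact Eventually.of_forall fun z => by
          rw [Real.norm_eq_abs]; exact hB s hs _
      · exact Eventually.of_forall fun z => h'.time (√(r 0) * z) t ht
    · exact var0_swap hT (f := fun t z => f t (√(r 0) * z)) hc2 (G := fun _ => B)
        (integrable_const B) (fun t ht z => hB t ht _)
  | succ l ih =>
    intro hm f h F M D hE
    obtain ⟨g0, g1⟩ := hm l (Nat.lt_succ_self l)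
    simp only [chn_succ_def]
    have h1 : tlt (m (l + 1)) (r (l + 1) - r l) F (fun x => ∫ t in (0 : ℝ)..T, f t x) =
        fun x => ∫ t in (0 : ℝ)..T, tlt (m (l + 1)) (r (l + 1) - r l) F (f t) x :=
      funext fun x => var0_tlt_int hT h hE _ _ x
    rw [h1]
    exact ih (fun i hi => hm i (by omega)) (h.tlt_bc hE _ _) (hE.step g0 g1 _)

/-! ### (L5): composition of two averages -/

/-- (L5) -/
theorem var0_tlt_comp {g v s : ℝ} (hg : 0 < g) (hv : 0 ≤ v) (hs : 0 ≤ s)
    {F M D ψ : ℝ → ℝ} (hE : Ec F M D) (hψ : Sp7Cb ψ) :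
    tlt g v (gstep g s F) (tlt g s F ψ) = tlt g (v + s) F ψ := by
  obtain ⟨hc, B, hB⟩ := hψ
  have hF := hE.sm.cont
  funext x
  have hden : ∫ z, Real.exp (g * gstep g s F (x + √v * z)) ∂(gaussianReal 0 1) =
      ∫ z, Real.exp (g * F (x + √(v + s) * z)) ∂(gaussianReal 0 1) := by
    have h1 := comp_conv (h := fun u => Real.exp (g * F (x + u))) (by fun_prop) hv hs
      (hE.sm.integrable_exp g (v + s) x)
    rw [← h1]
    refine integral_congr_ae (Eventually.of_forall fun z => ?_)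
    simp only []
    rw [var0_exp_gstep hg hE]
    simp only [add_assoc]
  have hnum : ∫ z, tlt g s F ψ (x + √v * z) * Real.exp (g * gstep g s F (x + √v * z))
      ∂(gaussianReal 0 1) =
      ∫ z, ψ (x + √(v + s) * z) * Real.exp (g * F (x + √(v + s) * z)) ∂(gaussianReal 0 1) := by
    have h1 := comp_conv (h := fun u => ψ (x + u) * Real.exp (g * F (x + u)))
      (by fun_prop) hv hs (hE.sm.integrable hc hB g (v + s) x)
    rw [← h1]
    refine integral_congr_ae (Eventually.of_forall fun z => ?_)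
    simp only []
    rw [var0_tlt_exp hg hE]
    simp only [add_assoc]
  have e : tlt g v (gstep g s F) (tlt g s F ψ) x =
      (∫ z, tlt g s F ψ (x + √v * z) * Real.exp (g * gstep g s F (x + √v * z))
      ∂(gaussianReal 0 1)) / ∫ z, Real.exp (g * gstep g s F (x + √v * z)) ∂(gaussianReal 0 1) := rfl
  rw [e, hden, hnum]
  rfl

end Vale.Agent.P367.Cl
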