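import Vale.Agent.P367.Cl.FDefs
import Vale.Agent.P367.Cl.FVar0
import Vale.Agent.P146.Pw2.T1Long

/-!
# P367, classical half: FVar-up, moving the level `l` up inside the block `(l, l + 1)`
-/

open MeasureTheory ProbabilityTheory Filter Topology Set

namespace Vale.Agent.P367.Cl

open Vale.Agent.P157.Par
open Vale.Agent.P146.Gap
open Vale.Agent.P146.Pw2

/-- the path with the level `l` moved up by `t` -/
lemma up_path {b : ℝ} {n : ℕ} {r : ℕ → ℝ} {l : ℕ} (h : BPath b n r) (hl1 : 1 ≤ l) (hl : l < n)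
    {t : ℝ} (ht : t ∈ Icc 0 (r (l + 1) - r l)) : BPath b n (Function.update r l (r l + t)) := by
  have hne : ∀ i, i ≠ l → Function.update r l (r l + t) i = r i := fun i hi =>
    Function.update_of_ne hi _ _
  have he : Function.update r l (r l + t) l = r l + t := Function.update_self _ _ _
  have h0 : Function.update r l (r l + t) 0 = r 0 := hne 0 (by omega)
  refine ⟨h0.trans h.1, ⟨?_, ?_⟩, ?_⟩
  · rw [h0]; exact h.2.1.1
  · intro i hi
    by_cases h1 : i = l
    · subst h1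
      rw [he, hne (i + 1) (by omega)]
      linarith [ht.2]
    · rw [hne i h1]
      by_cases h2 : i + 1 = l
      · rw [h2, he]
        have := h.2.1.2 i hi
        rw [h2] at this
        linarith [ht.1]
      · rw [hne (i + 1) h2]
        exact h.2.1.2 i hi
  · rw [hne n (by omega)]
    exact h.2.2

/-- the quadratic part of the modified path -/
lemma up_sum {n : ℕ} {m r : ℕ → ℝ} {l : ℕ} (hl : l < n) (c : ℝ) :
    ∑ i ∈ Finset.range (n + 1), (m (i + 1) - m i) * Function.update r l c i ^ 2 =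
      ∑ i ∈ Finset.range (n + 1), (m (i + 1) - m i) * r i ^ 2 +
        (m (l + 1) - m l) * (c ^ 2 - r l ^ 2) := by
  have hmem : l ∈ Finset.range (n + 1) := by rw [Finset.mem_range]; omega
  rw [← Finset.add_sum_erase _ _ hmem, ← Finset.add_sum_erase (Finset.range (n + 1))
    (fun i => (m (i + 1) - m i) * r i ^ 2) hmem]
  have h1 : ∑ i ∈ (Finset.range (n + 1)).erase l,
      (m (i + 1) - m i) * Function.update r l c i ^ 2 =
      ∑ i ∈ (Finset.range (n + 1)).erase l, (m (i + 1) - m i) * r i ^ 2 := by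
    refine Finset.sum_congr rfl fun i hi => ?_
    rw [Function.update_of_ne (Finset.ne_of_mem_erase hi)]
  rw [h1, Function.update_self]
  ring

/-- the cascade of the modified path -/
lemma up_spin {b : ℝ} {n : ℕ} {m r : ℕ → ℝ} {l : ℕ} (hm : Exponents n m) (h : BPath b n r)
    (hl1 : 1 ≤ l) (hl : l < n) {t : ℝ} (ht : t ∈ Icc 0 (r (l + 1) - r l)) :
    spinPart n m (Function.update r l (r l + t)) =
      cascade m r l (gstep (m l) t (Gb n m r l t)) 0 - r n / 2 := by
  have hP := up_path h hl1 hl ht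
  have hne : ∀ i, i ≠ l → Function.update r l (r l + t) i = r i := fun i hi =>
    Function.update_of_ne hi _ _
  have he : Function.update r l (r l + t) l = r l + t := Function.update_self _ _ _
  have hpos : ∀ i, 1 ≤ i → i ≤ n + 1 → 0 < m i := fun i h1 h2 => gapn_exp_pos hm h1 h2
  rw [minb_spin hP.1, fl_split (m := m) (r := Function.update r l (r l + t)) hl.le,
    hne n (by omega), fl_succ hl, he, hne (l + 1) (by omega)]
  have e4 : Fl n m (Function.update r l (r l + t)) (l + 1) = Fl n m r (l + 1) := by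
    unfold Fl
    congr 1
    funext i
    exact hne _ (by omega)
  rw [e4]
  have e5 : gstep (m (l + 1)) (r (l + 1) - (r l + t)) (Fl n m r (l + 1)) = Gb n m r l t := by
    unfold Gb
    congr 1
    ring
  rw [e5]
  obtain ⟨k, rfl⟩ : ∃ k, l = k + 1 := ⟨l - 1, by omega⟩
  obtain ⟨C, hG⟩ := fl_good hm h.2.1 (l := k + 1 + 1) (by omega)
  have hGt : Adm _ (Gb n m r (k + 1) t) := hG.adm.step (hpos (k + 1 + 1) (by omega) (by omega))
    (gapn_exp_le_one hm (by omega)) (show 0 ≤ r (k + 1 + 1) - r (k + 1) - t by linarith [ht.2])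
  rw [cascade_succ_def, cascade_succ_def, he, hne k (by omega)]
  have e6 : cascade m (Function.update r (k + 1) (r (k + 1) + t)) k =
      cascade m r k := by
    funext G
    exact minb_congr (fun _ _ _ => rfl) (fun i hi => hne i (by omega)) G
  rw [e6, gstep_add hGt (hpos (k + 1) (by omega) (by omega))
    (sub_nonneg.2 (h.2.1.2 k (by omega))) ht.1]
  congr 3
  ring

/-- the functions of the block -/
lemma up_Gb {n : ℕ} {m r : ℕ → ℝ} {l : ℕ} (hm : Exponents n m) (hr : Path n r) (hl : l < n)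
    {s t : ℝ} (hst : s ≤ t) (ht : t ≤ r (l + 1) - r l) :
    gstep (m (l + 1)) (t - s) (Gb n m r l t) = Gb n m r l s := by
  obtain ⟨C, hG⟩ := fl_good hm hr (l := l + 1) (by omega)
  unfold Gb
  rw [gstep_add hG.adm (gapn_exp_pos hm (by omega) (by omega)) (by linarith) (by linarith)]
  congr 1
  ring

lemma up_Gb_zero (n : ℕ) (m r : ℕ → ℝ) {l : ℕ} (hl : l < n) : Gb n m r l 0 = Fl n m r l := by
  unfold Gb
  rw [sub_zero, fl_succ hl]

/-- the averages along the block are continuous and bounded -/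
lemma up_bc {C g V t : ℝ} {F : ℝ → ℝ} (h : Adm C F) (hg : 0 < g) (hg1 : g ≤ 1) (htV : t ≤ V)
    (g' : ℝ) : BcOn t (fun τ => tlt g' τ (gstep g (V - τ) F)
      (fun x => iteratedDeriv 1 (gstep g (V - τ) F) x ^ 2)) := by
  have b1 := first_f_bc h hg V 0
  obtain ⟨hc, B, hB⟩ := b1.mul b1
  refine ⟨?_, 1, ?_⟩
  · have h1 := (first_fam h hg V).tlt_cont hc.continuousOn (fun s _ x => hB s x) g' 0 1
    simp only [zero_add, mul_one, first_f_zero] at h1
    refine (h1.mono (prod_mono (Icc_subset_Icc le_rfl htV) subset_rfl)).congr fun p hp => ?_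
    simp only []
    congr 1
    funext y
    rw [sq]
    rfl
  · intro τ hτ x
    obtain ⟨h2, h3⟩ := ex_tlt_mem (g' := g') h hg hg1 (V - τ) τ x
    rw [abs_le]
    constructor <;> linarith

theorem var_up {b : ℝ} (hb : 1 < b) : ∃ C : ℝ, 1 ≤ C ∧ ∀ (n : ℕ) (r : ℕ → ℝ) (l : ℕ),
    IsMin b n (gm n) r → 1 ≤ l → l < n → ∀ t ∈ Icc 0 (r (l + 1) - r l),
      ∫ s in (0 : ℝ)..t, (Rb n (gm n) r l s - (r l + s) / b ^ 2) ≤ C / (n + 1) * t ^ 2 := by
  have hb0 : 0 < b := by linarith
  obtain ⟨K, hK0, hK⟩ := tlt_exp_lip (b ^ 2)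
  refine ⟨1 + 2 * K, by linarith, ?_⟩
  intro n r l h hl1 hl t ht
  have hm := gm_exponents n
  have hpath := h.1.2.1
  have hg : 0 < gm n (l + 1) := gapn_exp_pos hm (by omega) (by omega)
  have hg1 : gm n (l + 1) ≤ 1 := gapn_exp_le_one hm (by omega)
  have hg' : 0 < gm n l := gapn_exp_pos hm hl1 (by omega)
  have hg'1 : gm n l ≤ 1 := gapn_exp_le_one hm (by omega)
  have hδ := gm_sub n l
  have ht0 : 0 ≤ t := ht.1
  have hrb := long_r_le h.1 (show l + 1 ≤ n by omega)
  have hr0 := long_r_nonneg h.1 hl.le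
  have htb : t ≤ b ^ 2 := by linarith [ht.2]
  obtain ⟨C, hC⟩ := fl_good hm hpath (l := l + 1) (by omega)
  have hF := hC.adm
  have hmin := h.2 _ (up_path h.1 hl1 hl ht)
  unfold SKr at hmin
  rw [up_spin hm h.1 hl1 hl ht, minb_spin h.1.1, up_sum hl, fl_split (m := gm n) (r := r) hl.le]
    at hmin
  have eF1 : Fl n (gm n) r l = gstep (gm n (l + 1)) t (Gb n (gm n) r l t) := by
    have := up_Gb hm hpath hl ht0 ht.2
    rw [sub_zero] at this
    rw [this, up_Gb_zero n _ r hl]
  have hVt : 0 ≤ r (l + 1) - r l - t := by linarith [ht.2]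
  have hGt := hF.step hg hg1 hVt
  have eGt : gstep (gm n (l + 1)) (r (l + 1) - r l - t) (Fl n (gm n) r (l + 1)) =
    Gb n (gm n) r l t := rfl
  rw [eGt] at hGt
  set g := gm n (l + 1) with hgd
  set g' := gm n l with hg'd
  set d : ℝ := 1 / ((n : ℝ) + 1) with hd
  have hd0 : 0 < d := by rw [hd]; positivity
  have hgg : g' ≤ g := by linarith
  set G1 := gstep g' t (Gb n (gm n) r l t) with hG1
  set F1 := Fl n (gm n) r l with hF1
  have aG1 := hGt.step hg' hg'1 ht0
  rw [← hG1] at aG1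
  have aF1 := hGt.step hg hg1 ht0
  rw [← eF1] at aF1
  have hE1 : Sp7Exp (gm n) l := fun i hi => ⟨long_gm_pos n i, long_gm_le (by omega)⟩
  have hη : ∀ x, |F1 x - G1 x| ≤ 1 / 2 * d * t := by
    intro x
    have h1 := gstep_exp_mono hGt hg' hgg hg1 ht0 x
    have h2 := gstep_exp_lip hGt hg' hgg hg1 ht0 x
    rw [← eF1, ← hG1] at h1 h2
    rw [abs_le]
    rw [hδ] at h2
    constructor <;> nlinarith
  have hη' : ∀ x, |G1 x - F1 x| ≤ 1 / 2 * d * t := fun x => by rw [abs_sub_comm]; exact hη x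
  -- convexity
  have hconv := casc_convex (m := gm n) (r := r) (l := l) aF1 aG1 h.1.1 hE1
    (fun i hi => hpath.2 i (by omega)) ⟨_, hη'⟩
  -- the averages
  set f' : ℝ → ℝ → ℝ := fun τ => tlt g' τ (Gb n (gm n) r l τ)
    (fun x => iteratedDeriv 1 (Gb n (gm n) r l τ) x ^ 2) with hf'
  set f : ℝ → ℝ → ℝ := fun τ => tlt g τ (Gb n (gm n) r l τ)
    (fun x => iteratedDeriv 1 (Gb n (gm n) r l τ) x ^ 2) with hf
  have bf' : BcOn t f' := up_bc hF hg hg1 ht.2 g'
  have bf : BcOn t f := up_bc hF hg hg1 ht.2 g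
  have hdiff : ∀ x, G1 x - F1 x = -(1 / 2 * d) * ∫ τ in (0 : ℝ)..t, f' τ x := by
    intro x
    have h1 := gstep_diff hGt hg hg1 hg' hg'1 ht0 x
    rw [← eF1, ← hG1] at h1
    rw [h1]
    have h2 : ∫ τ in (0 : ℝ)..t, tlt g' τ (gstep g (t - τ) (Gb n (gm n) r l t))
        (fun y => iteratedDeriv 1 (gstep g (t - τ) (Gb n (gm n) r l t)) y ^ 2) x =
        ∫ τ in (0 : ℝ)..t, f' τ x := by
      refine intervalIntegral.integral_congr fun τ hτ => ?_
      rw [uIcc_of_le ht0] at hτ
      simp only [hf']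
      rw [up_Gb hm hpath hl hτ.2 ht.2]
    rw [h2, ← hδ]
    ring
  -- change of the tilt
  have htilt : ∀ τ ∈ Icc 0 t, ∀ x, f τ x - 2 * K * d * τ ≤ f' τ x := by
    intro τ hτ x
    have aG := hF.step hg hg1 (show 0 ≤ r (l + 1) - r l - τ by linarith [hτ.2, ht.2])
    have hE := adm_ec aG
    have h1 : Sp7Cb (fun x => iteratedDeriv 1 (Gb n (gm n) r l τ) x ^ 2) :=
      sp7_cb_sq (sp7_cb_M hE)
    have h2 := hK (g := g) (g' := g') (s := τ) (L := 2) hE hg.le hg1 hg'.le hg'1 hτ.1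
      (hτ.2.trans htb) (by norm_num) h1 (fun x y => by
        have a1 := hE.abs_M x
        have a2 := hE.abs_M y
        have a3 := convex_univ.norm_image_sub_le_of_norm_hasDerivWithin_le
          (f := iteratedDeriv 1 (Gb n (gm n) r l τ)) (s := Set.univ) (C := 1)
          (fun x _ => (hE.d2 x).hasDerivWithinAt) (fun x _ => hE.sm.bD x) (mem_univ y) (mem_univ x)
        rw [Real.norm_eq_abs, Real.norm_eq_abs, one_mul] at a3
        have e : iteratedDeriv 1 (Gb n (gm n) r l τ) x ^ 2 -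
            iteratedDeriv 1 (Gb n (gm n) r l τ) y ^ 2 =
            (iteratedDeriv 1 (Gb n (gm n) r l τ) x + iteratedDeriv 1 (Gb n (gm n) r l τ) y) *
            (iteratedDeriv 1 (Gb n (gm n) r l τ) x - iteratedDeriv 1 (Gb n (gm n) r l τ) y) := by
          ring
        rw [e, abs_mul]
        refine mul_le_mul ?_ a3 (abs_nonneg _) (by norm_num)
        exact (abs_add_le _ _).trans (by
          have e1 : Gb n (gm n) r l τ = gstep g (r (l + 1) - r l - τ) (Fl n (gm n) r (l + 1)) := rfl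
          rw [e1]
          linarith)) x
    have h3 := (abs_le.1 h2).1
    have h4 : |g' - g| = d := by
      rw [abs_sub_comm, abs_of_nonneg (by linarith)]
      exact hδ
    rw [h4] at h3
    have h5 : f' τ x - f τ x = tlt g' τ (gstep g (r (l + 1) - r l - τ) (Fl n (gm n) r (l + 1)))
      (fun x => iteratedDeriv 1 (Gb n (gm n) r l τ) x ^ 2) x -
      tlt g τ (gstep g (r (l + 1) - r l - τ) (Fl n (gm n) r (l + 1)))
      (fun x => iteratedDeriv 1 (Gb n (gm n) r l τ) x ^ 2) x := rfl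
    rw [← h5] at h3
    linarith
  -- integrated
  have cI := var0_cb_int ht0 bf
  have cI' := var0_cb_int ht0 bf'
  have hΦ : ∀ x, (∫ τ in (0 : ℝ)..t, f τ x) + -(K * d * t ^ 2) ≤ ∫ τ in (0 : ℝ)..t, f' τ x := by
    intro x
    have i1 : IntervalIntegrable (fun τ => f τ x) volume 0 t :=
      (bf.time x).intervalIntegrable_of_Icc ht0
    have i2 : IntervalIntegrable (fun τ => f' τ x) volume 0 t :=
      (bf'.time x).intervalIntegrable_of_Icc ht0
    have i3 : IntervalIntegrable (fun τ : ℝ => 2 * K * d * τ) volume 0 t :=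
      (by fun_prop : Continuous fun τ : ℝ => 2 * K * d * τ).intervalIntegrable _ _
    have h1 := intervalIntegral.integral_mono_on ht0 (i1.sub i3) i2 (fun τ hτ => htilt τ hτ x)
    rw [intervalIntegral.integral_sub i1 i3, intervalIntegral.integral_const_mul, integral_id] at h1
    have e : 2 * K * d * ((t ^ 2 - 0 ^ 2) / 2) = K * d * t ^ 2 := by ring
    rw [e] at h1
    linarith
  have hΦ0 : ∀ x, 0 ≤ ∫ τ in (0 : ℝ)..t, f τ x := fun x =>
    intervalIntegral.integral_nonneg ht0 fun τ _ => (ex_tlt_mem hF hg hg1 _ τ x).1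
  have hΦ1 : ∀ x, ∫ τ in (0 : ℝ)..t, f τ x ≤ t := by
    intro x
    have i0 : IntervalIntegrable (fun _ : ℝ => (1 : ℝ)) volume 0 t := intervalIntegrable_const
    have h1 := intervalIntegral.integral_mono_on ht0
      ((bf.time x).intervalIntegrable_of_Icc ht0) i0
      (fun τ _ => (ex_tlt_mem hF hg hg1 _ τ x).2)
    rw [intervalIntegral.integral_const, smul_eq_mul, mul_one, sub_zero] at h1
    exact h1
  have hcI := var0_chn_integral (r := r) ht0 l hE1 bf (adm_ec aF1)
  have hEG := adm_ec aG1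
  have hEF := adm_ec aF1
  -- the lower bound of the average
  have h1 : chn (gm n) r l G1 (fun x => G1 x - F1 x) =
      -(1 / 2 * d) * chn (gm n) r l G1 (fun x => ∫ τ in (0 : ℝ)..t, f' τ x) := by
    rw [← long_chn_smul]
    congr 1
    exact funext hdiff
  have h2 : chn (gm n) r l G1 (fun x => ∫ τ in (0 : ℝ)..t, f τ x) + -(K * d * t ^ 2) ≤
      chn (gm n) r l G1 (fun x => ∫ τ in (0 : ℝ)..t, f' τ x) := by
    have := sp7_chn_mono (gm n) r l hE1 hEG (sp7_cb_add cI (sp7_cb_const (-(K * d * t ^ 2)))) cI' hΦ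
    rwa [sp7_chn_add (gm n) r l hE1 hEG cI (sp7_cb_const _), sp7_chn_const (gm n) r l hE1 hEG]
      at this
  have h3 : chn (gm n) r l F1 (fun x => ∫ τ in (0 : ℝ)..t, f τ x) - 2 * (1 / 2 * d * t) * t ≤
      chn (gm n) r l G1 (fun x => ∫ τ in (0 : ℝ)..t, f τ x) :=
    chn_change_sub hm.1 hE1 (fun i hi => (hm.2.2 i (by omega)).le) hg'.le hg'1 hEF hEG cI hΦ0 hΦ1 hη
  have h4 : chn (gm n) r l F1 (fun x => ∫ τ in (0 : ℝ)..t, f τ x) =
      ∫ τ in (0 : ℝ)..t, Rb n (gm n) r l τ := hcI.2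
  have hRi : IntervalIntegrable (Rb n (gm n) r l) volume 0 t :=
    hcI.1.intervalIntegrable_of_Icc ht0
  have i4 : IntervalIntegrable (fun s : ℝ => (r l + s) / b ^ 2) volume 0 t :=
    (by fun_prop : Continuous fun s : ℝ => (r l + s) / b ^ 2).intervalIntegrable _ _
  rw [intervalIntegral.integral_sub hRi i4]
  have h5 : ∫ s in (0 : ℝ)..t, (r l + s) / b ^ 2 = ((r l + t) ^ 2 - r l ^ 2) / (2 * b ^ 2) := by
    have j1 : IntervalIntegrable (fun _ : ℝ => r l) volume 0 t := intervalIntegrable_const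
    have j2 : IntervalIntegrable (fun s : ℝ => s) volume 0 t := intervalIntegral.intervalIntegrable_id
    have j3 := intervalIntegral.integral_add j1 j2
    rw [intervalIntegral.integral_const, integral_id, smul_eq_mul] at j3
    rw [intervalIntegral.integral_div, j3]
    field_simp
    ring
  rw [h5]
  -- minimality
  rw [hδ, add_div] at hmin
  have h6 : (1 / 2 * d) * chn (gm n) r l G1 (fun x => ∫ τ in (0 : ℝ)..t, f' τ x) ≤
      d * ((r l + t) ^ 2 - r l ^ 2) / (4 * b ^ 2) := by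
    rw [h1] at hconv
    linarith
  have h7 : d * ((r l + t) ^ 2 - r l ^ 2) / (4 * b ^ 2) =
      (1 / 2 * d) * (((r l + t) ^ 2 - r l ^ 2) / (2 * b ^ 2)) := by
    field_simp
    ring
  rw [h7] at h6
  have h8 := le_of_mul_le_mul_left h6 (by positivity)
  have e9 : (1 + 2 * K) / ((n : ℝ) + 1) * t ^ 2 = d * t ^ 2 + 2 * K * d * t ^ 2 := by
    rw [hd]
    ring
  rw [e9]
  have h10 : 0 ≤ K * d * t ^ 2 := by positivity
  rw [← h4]
  have e11 : 2 * (1 / 2 * d * t) * t = d * t ^ 2 := by ring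
  linarith

end Vale.Agent.P367.Cl
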