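import Vale.Agent.P367.Cl.FFwd0
import Vale.Agent.P146.Gap.CertInt

/-!
# P367, classical half: the integrated certificate on a general block
-/

open MeasureTheory ProbabilityTheory Filter Topology Set

namespace Vale.Agent.P367.Cl

open Vale.Agent.P157.Par
open Vale.Agent.P146.Gap
open Vale.Agent.P146.Pw2

section CINT

theorem cg_rho_deriv {e K1 B x : ℝ} {P D W A K bb : ℝ → ℝ} (he : 0 < e) (hb : 0 ≤ bb x)
    (hP : HasDerivAt P (A x) x) (hD : HasDerivAt D (bb x / 2) x) (hW : HasDerivAt W (K x) x)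
    (hK : HasDerivAt K K1 x)
    (hA : HasDerivAt A (-2 * (P x + D x) * A x) x) (hbb : HasDerivAt bb B x) :
    HasDerivAt (fun y => rho e (P y) (D y) (W y) (A y) (K y) (bb y))
      (rhop e (P x) (D x) (W x) (A x) (K x) (bb x) B - 9 / 10 * P x * K1) x := by
  have hΔ : (D x ^ 2 + bb x / 4 + e) ≠ 0 := by positivity
  have h1 := (((hP.pow 3).const_mul (21 / 4 : ℝ)).add
    (((hP.pow 2).const_mul (68 / 5 : ℝ)).mul hD)).add
    ((hP.const_mul (153 / 10 : ℝ)).mul (hD.pow 2))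
  have h2 := (((hP.pow 2).const_mul (47 / 20 : ℝ)).mul hW)
  have h3 := ((hP.const_mul (67 / 20 : ℝ)).mul hD).mul hW
  have h4 := (hP.const_mul (9 / 10 : ℝ)).mul hK
  have h5 := (hA.const_mul (9 / 10 : ℝ)).mul hW
  have h6 := (hA.const_mul (173 / 20 : ℝ)).mul hD
  have h7 := (hA.const_mul (97 / 10 : ℝ)).mul hP
  have h8 := (hbb.const_mul (9 / 20 : ℝ)).mul hP
  have h9 := ((((hbb.pow 2).mul hD).div (((hD.pow 2).add (hbb.div_const 4)).add_const e)
    hΔ).const_mul (1 / 8 : ℝ))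
  have h := ((((((((h1.sub h2).sub h3).sub h4).add h5).sub h6).sub h7).sub h8).sub h9)
  refine (h.congr_deriv ?_)
  unfold rhop
  simp only [Pi.pow_apply, Pi.mul_apply, Pi.add_apply]
  generalize hΔd : (D x ^ 2 + bb x / 4 + e) = Δ at hΔ ⊢
  field_simp
  ring

section Comp

variable (g τ e : ℝ) (L F : ℝ → ℝ)

/-- `W`. -/
noncomputable def cgV (x : ℝ) : ℝ := x / τ - iteratedDeriv 1 L x

/-- `K`. -/
noncomputable def cgQ (x : ℝ) : ℝ := 1 / τ - iteratedDeriv 2 L x

/-- The weight. -/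
noncomputable def cgW (x : ℝ) : ℝ := wgt τ g L F x * iteratedDeriv 2 F x ^ 2

/-- The primitive. -/
noncomputable def cgK (x : ℝ) : ℝ :=
  cgW g τ L F x * rho e (g * iteratedDeriv 1 F x) (cintD g F x) (cgV τ L x)
    (g * iteratedDeriv 2 F x) (cgQ τ L x) (bet g F x)

end Comp

variable {g C τ e x : ℝ} {L F : ℝ → ℝ}

theorem cgV_deriv (hL : SmB L) (τ x : ℝ) : HasDerivAt (cgV τ L) (cgQ τ L x) x :=
  ((hasDerivAt_id x).div_const τ).sub (fwd_hd hL 1 x)

theorem cgQ_deriv (hL : SmB L) (τ x : ℝ) :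
    HasDerivAt (cgQ τ L) (-iteratedDeriv 3 L x) x := by
  have h := (hasDerivAt_const x (1 / τ)).sub (fwd_hd hL 2 x)
  refine h.congr_deriv ?_
  ring

theorem cgW_deriv (hL : SmB L) (h : ContDiff ℝ (⊤ : ℕ∞) F) (h2 : iteratedDeriv 2 F x ≠ 0)
    (hτ : 0 < τ) :
    HasDerivAt (cgW g τ L F) (-(3 * (g * iteratedDeriv 1 F x) + 4 * cintD g F x + cgV τ L x)
      * cgW g τ L F x) x := by
  have h0 : HasDerivAt F (iteratedDeriv 1 F x) x := by
    have := cint_hasDerivAt h 0 x
    rwa [iteratedDeriv_zero] at this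
  have hL0 : HasDerivAt L (iteratedDeriv 1 L x) x := by
    have := cint_hasDerivAt hL.smooth 0 x
    rwa [iteratedDeriv_zero] at this
  have h' := (((hL0.sub (((hasDerivAt_id x).pow 2).div_const (2 * τ))).add
    (h0.const_mul g)).exp).mul ((cint_hasDerivAt h 2 x).pow 2)
  refine h'.congr_deriv ?_
  unfold cgW cintD cgV wgt
  simp only [Pi.pow_apply, Pi.sub_apply, Pi.add_apply, id]
  norm_num
  field_simp
  ring

theorem cgK_deriv (hL : SmB L) (h : ContDiff ℝ (⊤ : ℕ∞) F) (h2 : iteratedDeriv 2 F x ≠ 0)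
    (hτ : 0 < τ) (he : 0 < e) (hb : 0 ≤ bet g F x) :
    HasDerivAt (cgK g τ e L F) (cgW g τ L F x *
      (rhop e (g * iteratedDeriv 1 F x) (cintD g F x) (cgV τ L x)
        (g * iteratedDeriv 2 F x) (cgQ τ L x) (bet g F x) (betp g F x)
      - 9 / 10 * (g * iteratedDeriv 1 F x) * (-iteratedDeriv 3 L x)
      - (3 * (g * iteratedDeriv 1 F x) + 4 * cintD g F x + cgV τ L x)
        * rho e (g * iteratedDeriv 1 F x) (cintD g F x) (cgV τ L x)
        (g * iteratedDeriv 2 F x) (cgQ τ L x) (bet g F x))) x := by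
  have hA : HasDerivAt (fun y => g * iteratedDeriv 2 F y)
      (-2 * (g * iteratedDeriv 1 F x + cintD g F x) * (g * iteratedDeriv 2 F x)) x := by
    rw [cint_PD h2]
    exact (cint_hasDerivAt h 2 x).const_mul g
  have h' := (cgW_deriv hL h h2 hτ (g := g)).mul (cg_rho_deriv
    (P := fun y => g * iteratedDeriv 1 F y) (A := fun y => g * iteratedDeriv 2 F y) he hb
    ((cint_hasDerivAt h 1 x).const_mul g) (cintD_deriv h h2) (cgV_deriv hL τ x)
    (cgQ_deriv hL τ x) hA (cint_bet_deriv h h2))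
  refine h'.congr_deriv ?_
  ring

/-- The differential inequality on the half line. -/
theorem cg_ineq (hw : Fw τ L F) (h : Good g C F) (hg : 0 < g) (he : 0 < e) (hx : 0 ≤ x) :
    0 ≤ cgW g τ L F x * (cintJ g F x + 3 * e * bet g F x) + cgW g τ L F x *
      (rhop e (g * iteratedDeriv 1 F x) (cintD g F x) (cgV τ L x)
        (g * iteratedDeriv 2 F x) (cgQ τ L x) (bet g F x) (betp g F x)
      - 9 / 10 * (g * iteratedDeriv 1 F x) * (-iteratedDeriv 3 L x)
      - (3 * (g * iteratedDeriv 1 F x) + 4 * cintD g F x + cgV τ L x)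
        * rho e (g * iteratedDeriv 1 F x) (cintD g F x) (cgV τ L x)
        (g * iteratedDeriv 2 F x) (cgQ τ L x) (bet g F x)) := by
  have h2 := h.adm.pos x
  have h1 := h.d1_nonneg hx
  have hD := h.D_nonneg hx
  have hW : 0 ≤ cgV τ L x := hw.W_nonneg hx
  have hAW := hw.AW_le h.adm hx
  have h3 : 0 ≤ 9 / 10 * (g * iteratedDeriv 1 F x) * iteratedDeriv 3 L x :=
    mul_nonneg (by positivity) (hw.K1 x hx)
  have hc := cert (e := e) (P := g * iteratedDeriv 1 F x) (D := cintD g F x) (W := cgV τ L x)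
    (A := g * iteratedDeriv 2 F x) (K := cgQ τ L x) (b := bet g F x) (B := betp g F x) he
    (by positivity) hD hW (by positivity) (h.bet_nonneg x)
    (by
      calc g * iteratedDeriv 2 F x * cgV τ L x
          = g * (iteratedDeriv 2 F x * (x / τ - iteratedDeriv 1 L x)) := by unfold cgV; ring
        _ ≤ g * ((1 / τ - iteratedDeriv 2 L x) * iteratedDeriv 1 F x) :=
            mul_le_mul_of_nonneg_left hAW hg.le
        _ = cgQ τ L x * (g * iteratedDeriv 1 F x) := by unfold cgQ; ring)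
    (by
      refine (h.betp_le x hx).trans (le_of_eq ?_)
      unfold Yf cintD
      ring)
  have hw0 : 0 ≤ cgW g τ L F x := by unfold cgW wgt; positivity
  rw [← mul_add]
  refine mul_nonneg hw0 ?_
  unfold cintJ
  linarith

/-- The integrand of the claim. -/
theorem cg_integrand (h2 : iteratedDeriv 2 F x ≠ 0) :
    cgW g τ L F x * cintJ g F x = wgt τ g L F x * m2i g F x := by
  unfold cgW cintJ cintD bet m2i
  rw [mul_assoc]
  congr 1
  field_simp
  ring

/-! ### Bounds -/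

theorem cg_bdQ (hL : SmB L) (τ : ℝ) : CintBd (cgQ τ L) :=
  (CintBd.const (1 / τ)).sub (hL.bd 1)

theorem cg_V_le (hL : SmB L) (τ : ℝ) : ∃ M N : ℝ, 0 ≤ M ∧ 0 ≤ N ∧
    ∀ x, |cgV τ L x| ≤ M + N * |x| := by
  obtain ⟨M, hM⟩ := hL.bd 0
  refine ⟨M, |1 / τ|, (abs_nonneg _).trans (hM 0), abs_nonneg _, fun x => ?_⟩
  unfold cgV
  have h1 := abs_sub (x / τ) (iteratedDeriv 1 L x)
  have h2 : |x / τ| = |1 / τ| * |x| := by rw [← abs_mul]; congr 1; ring
  have h3 := hM x
  rw [zero_add] at h3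
  linarith

theorem cg_rho_bd (hL : SmB L) (h : Adm C F) (g τ : ℝ) {e : ℝ} (he : 0 < e)
    (hb0 : ∀ x, 0 ≤ bet g F x) :
    ∃ M N : ℝ, ∀ x, |rho e (g * iteratedDeriv 1 F x) (cintD g F x) (cgV τ L x)
      (g * iteratedDeriv 2 F x) (cgQ τ L x) (bet g F x)| ≤ M + N * |x| := by
  have hP := (CintBd.const g).mul (cint_bd1 h)
  have hA := (CintBd.const g).mul (cint_bd2 h)
  have hD := cint_bdD h g
  have hb := cint_bdb h g
  have hQ := cg_bdQ hL τ
  have hq : CintBd (fun x => bet g F x / (cintD g F x ^ 2 + bet g F x / 4 + e)) := by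
    refine ⟨4, fun x => ?_⟩
    have := hb0 x
    have hΔ : 0 < cintD g F x ^ 2 + bet g F x / 4 + e := by positivity
    rw [abs_of_nonneg (by positivity), div_le_iff₀ hΔ]
    nlinarith [sq_nonneg (cintD g F x)]
  have h0 : CintBd (fun x => 21 / 4 * (g * iteratedDeriv 1 F x) ^ 3
      + 68 / 5 * (g * iteratedDeriv 1 F x) ^ 2 * cintD g F x
      + 153 / 10 * (g * iteratedDeriv 1 F x) * cintD g F x ^ 2
      - 9 / 10 * (g * iteratedDeriv 1 F x) * cgQ τ L x
      - 173 / 20 * (g * iteratedDeriv 2 F x) * cintD g F x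
      - 97 / 10 * (g * iteratedDeriv 2 F x) * (g * iteratedDeriv 1 F x)
      - 9 / 20 * bet g F x * (g * iteratedDeriv 1 F x)
      - 1 / 8 * (bet g F x * cintD g F x
        * (bet g F x / (cintD g F x ^ 2 + bet g F x / 4 + e)))) :=
    ((((((((CintBd.const _).mul (hP.pow 3)).add (((CintBd.const _).mul (hP.pow 2)).mul hD)).add
      (((CintBd.const _).mul hP).mul (hD.pow 2))).sub
      (((CintBd.const _).mul hP).mul hQ)).sub
      (((CintBd.const _).mul hA).mul hD)).sub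
      (((CintBd.const _).mul hA).mul hP)).sub
      (((CintBd.const _).mul hb).mul hP)).sub
      ((CintBd.const _).mul ((hb.mul hD).mul hq))
  have h1 : CintBd (fun x => (9 / 10 * (g * iteratedDeriv 2 F x)
      - 47 / 20 * (g * iteratedDeriv 1 F x) ^ 2
      - 67 / 20 * (g * iteratedDeriv 1 F x) * cintD g F x)) :=
    ((((CintBd.const _).mul hA).sub ((CintBd.const _).mul (hP.pow 2))).sub
      (((CintBd.const _).mul hP).mul hD))
  obtain ⟨M, hM⟩ := h0
  obtain ⟨N, hN⟩ := h1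
  obtain ⟨M', N', hM', hN', hV⟩ := cg_V_le hL τ
  refine ⟨M + N * M', N * N', fun x => ?_⟩
  have h2 : rho e (g * iteratedDeriv 1 F x) (cintD g F x) (cgV τ L x)
      (g * iteratedDeriv 2 F x) (cgQ τ L x) (bet g F x) =
      (21 / 4 * (g * iteratedDeriv 1 F x) ^ 3
      + 68 / 5 * (g * iteratedDeriv 1 F x) ^ 2 * cintD g F x
      + 153 / 10 * (g * iteratedDeriv 1 F x) * cintD g F x ^ 2
      - 9 / 10 * (g * iteratedDeriv 1 F x) * cgQ τ L x
      - 173 / 20 * (g * iteratedDeriv 2 F x) * cintD g F x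
      - 97 / 10 * (g * iteratedDeriv 2 F x) * (g * iteratedDeriv 1 F x)
      - 9 / 20 * bet g F x * (g * iteratedDeriv 1 F x)
      - 1 / 8 * (bet g F x * cintD g F x
        * (bet g F x / (cintD g F x ^ 2 + bet g F x / 4 + e))))
      + (9 / 10 * (g * iteratedDeriv 2 F x)
      - 47 / 20 * (g * iteratedDeriv 1 F x) ^ 2
      - 67 / 20 * (g * iteratedDeriv 1 F x) * cintD g F x) * cgV τ L x := by
    unfold rho
    ring
  rw [h2]
  have h3 : |(9 / 10 * (g * iteratedDeriv 2 F x)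
      - 47 / 20 * (g * iteratedDeriv 1 F x) ^ 2
      - 67 / 20 * (g * iteratedDeriv 1 F x) * cintD g F x) * cgV τ L x|
      ≤ N * (M' + N' * |x|) := by
    rw [abs_mul]
    exact mul_le_mul (hN x) (hV x) (abs_nonneg _) ((abs_nonneg _).trans (hN x))
  refine (abs_add_le _ _).trans ?_
  have h4 := hM x
  calc _ ≤ M + N * (M' + N' * |x|) := add_le_add h4 h3
    _ = _ := by ring

theorem cg_lip (hL : SmB L) : ∃ c : ℝ, 0 ≤ c ∧ ∀ x, |L x| ≤ |L 0| + c * |x| := by
  obtain ⟨c, hc⟩ := hL.bd 0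
  refine ⟨c, (abs_nonneg _).trans (hc 0), fun x => ?_⟩
  have h2 := Convex.norm_image_sub_le_of_norm_hasDerivWithin_le (f := L)
    (f' := iteratedDeriv 1 L) (s := univ) (C := c) (x := 0) (y := x)
    (fun y _ => (by
      have := cint_hasDerivAt hL.smooth 0 y
      rw [iteratedDeriv_zero] at this
      exact this.hasDerivWithinAt)) (fun y _ => by
        have := hc y
        rwa [zero_add] at this) convex_univ (mem_univ _) (mem_univ _)
  rw [Real.norm_eq_abs, Real.norm_eq_abs, sub_zero] at h2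
  have h3 := abs_sub_abs_le_abs_sub (L x) (L 0)
  linarith

theorem cg_exp_le (hL : SmB L) (h : Adm C F) (hg : 0 < g) (hg1 : g ≤ 1) (hτ : 0 < τ) :
    ∃ M : ℝ, 0 ≤ M ∧ ∀ x, wgt τ g L F x ≤ M * Real.exp (-(1 / (4 * τ)) * x ^ 2) := by
  obtain ⟨c, hc, hLc⟩ := cg_lip hL
  refine ⟨Real.exp (|L 0| + |F 0| + τ * (c + 1) ^ 2), (Real.exp_pos _).le, fun x => ?_⟩
  unfold wgt
  rw [← Real.exp_add]
  apply Real.exp_le_exp.mpr
  have h1 : g * F x ≤ |F 0| + |x| := by
    calc g * F x ≤ g * |F x| := mul_le_mul_of_nonneg_left (le_abs_self _) hg.le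
      _ ≤ 1 * |F x| := mul_le_mul_of_nonneg_right hg1 (abs_nonneg _)
      _ ≤ |F 0| + |x| := by rw [one_mul]; exact cint_lip h x
  have h0 : L x ≤ |L 0| + c * |x| := (le_abs_self _).trans (hLc x)
  have h2 : (c + 1) * |x| ≤ x ^ 2 / (4 * τ) + τ * (c + 1) ^ 2 := by
    have h3 : 0 ≤ (|x| - 2 * τ * (c + 1)) ^ 2 / (4 * τ) := by positivity
    have h4 : (|x| - 2 * τ * (c + 1)) ^ 2 / (4 * τ) =
        x ^ 2 / (4 * τ) + τ * (c + 1) ^ 2 - (c + 1) * |x| := by
      field_simp
      rw [← sq_abs x]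
      ring
    linarith
  have h5 : x ^ 2 / (2 * τ) = 2 * (x ^ 2 / (4 * τ)) := by
    field_simp
    norm_num
  have h6 : -(1 / (4 * τ)) * x ^ 2 = -(x ^ 2 / (4 * τ)) := by ring
  linarith

theorem cgW_le (hL : SmB L) (h : Adm C F) (hg : 0 < g) (hg1 : g ≤ 1) (hτ : 0 < τ) :
    ∃ M : ℝ, 0 ≤ M ∧ ∀ x, |cgW g τ L F x| ≤ M * Real.exp (-(1 / (4 * τ)) * x ^ 2) := by
  obtain ⟨M, hM0, hM⟩ := cg_exp_le hL h hg hg1 hτ
  refine ⟨M, hM0, fun x => ?_⟩
  have h2 := h.pos x
  have h1 : iteratedDeriv 2 F x ≤ 1 := by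
    have := h.le1 x
    nlinarith [sq_nonneg (iteratedDeriv 1 F x)]
  have h3 : iteratedDeriv 2 F x ^ 2 ≤ 1 := pow_le_one₀ h2.le h1
  have h4 : 0 ≤ wgt τ g L F x := (Real.exp_pos _).le
  unfold cgW
  rw [abs_of_nonneg (by positivity)]
  calc _ ≤ wgt τ g L F x * 1 := mul_le_mul_of_nonneg_left h3 h4
    _ ≤ _ := by rw [mul_one]; exact hM x

theorem cg_contL (hL : SmB L) (j : ℕ) : Continuous (iteratedDeriv j L) :=
  continuous_iff_continuousAt.mpr fun x => (fwd_hd hL j x).continuousAt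

theorem wgt_cont (hL : SmB L) (h : Adm C F) (g τ : ℝ) : Continuous (wgt τ g L F) := by
  have h0 := cint_cont h 0
  have hL0 := cg_contL hL 0
  rw [iteratedDeriv_zero] at h0 hL0
  exact ((hL0.sub ((continuous_pow 2).div_const _)).add (h0.const_mul g)).rexp

theorem cgW_cont (hL : SmB L) (h : Adm C F) : Continuous (cgW g τ L F) :=
  (wgt_cont hL h g τ).mul ((cint_cont h 2).pow 2)

theorem cg_integrable (hL : SmB L) (h : Adm C F) (hg : 0 < g) (hg1 : g ≤ 1) (hτ : 0 < τ)
    {f : ℝ → ℝ} (hf : Continuous f) (hb : CintBd f) :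
    Integrable (fun x => cgW g τ L F x * f x) := by
  obtain ⟨M, hM⟩ := hb
  obtain ⟨N, hN0, hN⟩ := cgW_le hL h hg hg1 hτ
  refine Integrable.mono' (g := fun x => N * Real.exp (-(1 / (4 * τ)) * x ^ 2) * M) ?_
    ((cgW_cont hL h).mul hf).aestronglyMeasurable (ae_of_all _ fun x => ?_)
  · exact ((integrable_exp_neg_mul_sq (by positivity)).const_mul _).mul_const _
  · rw [Real.norm_eq_abs, abs_mul]
    exact mul_le_mul (hN x) (hM x) (abs_nonneg _) (by positivity)

theorem cgK_tendsto (hL : SmB L) (h : Good g C F) (hg : 0 < g) (hg1 : g ≤ 1) (hτ : 0 < τ)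
    (he : 0 < e) : Tendsto (cgK g τ e L F) atTop (𝓝 0) := by
  obtain ⟨M, N, hMN⟩ := cg_rho_bd hL h.adm g τ he h.bet_nonneg
  obtain ⟨E, hE0, hE⟩ := cgW_le hL h.adm hg hg1 hτ
  have h1 := (tendsto_rpow_abs_mul_exp_neg_mul_sq_cocompact (a := 1 / (4 * τ))
    (by positivity) 0).mono_left atTop_le_cocompact
  have h2 := (tendsto_rpow_abs_mul_exp_neg_mul_sq_cocompact (a := 1 / (4 * τ))
    (by positivity) 1).mono_left atTop_le_cocompact
  have h3 := ((h1.const_mul (M * E)).add (h2.const_mul (N * E)))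
  rw [mul_zero, mul_zero, add_zero] at h3
  refine squeeze_zero_norm (fun x => ?_) h3
  unfold cgK
  rw [Real.norm_eq_abs, abs_mul, Real.rpow_zero, Real.rpow_one]
  calc _ ≤ (E * Real.exp (-(1 / (4 * τ)) * x ^ 2)) * (M + N * |x|) :=
        mul_le_mul (hE x) (hMN x) (abs_nonneg _) (by positivity)
    _ = _ := by ring

theorem cgK_zero (hw : Fw τ L F) (h : Adm C F) : cgK g τ e L F 0 = 0 := by
  obtain ⟨h1, h3⟩ := cint_odd_zero h
  have h4 := fwd_odd1 hw.even
  unfold cgK rho cintD cgV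
  rw [h1, h3, h4]
  norm_num

theorem cgW_even (hw : Fw τ L F) (h : Adm C F) (x : ℝ) : cgW g τ L F (-x) = cgW g τ L F x := by
  unfold cgW wgt
  rw [cint_parity h, h.even, hw.even]
  norm_num

theorem cg_half (hw : Fw τ L F) (h : Good g C F) (hg : 0 < g) (hg1 : g ≤ 1) (he : 0 < e) :
    0 ≤ ∫ x in Ioi (0 : ℝ), cgW g τ L F x * (cintJ g F x + 3 * e * bet g F x) := by
  have hτ := hw.tau
  have hb : CintBd (fun x => cintJ g F x + 3 * e * bet g F x) :=
    (cint_bdJ h.adm g).add ((CintBd.const _).mul (cint_bdb h.adm g))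
  have hc : Continuous (fun x => cintJ g F x + 3 * e * bet g F x) :=
    (cintJ_cont h.adm).add ((cintb_cont h.adm).const_mul _)
  have hint := cg_integrable hw.smb h.adm hg hg1 hτ hc hb
  have h1 := intervalIntegral_tendsto_integral_Ioi 0 hint.integrableOn tendsto_id
  have h2 : Tendsto (fun R => -cgK g τ e L F R) atTop (𝓝 0) := by
    simpa using (cgK_tendsto hw.smb h hg hg1 hτ he).neg
  refine le_of_tendsto_of_tendsto h2 h1 ?_
  filter_upwards [eventually_ge_atTop 0] with R hR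
  have hd : ∀ x, HasDerivAt (cgK g τ e L F) _ x := fun x =>
    cgK_deriv hw.smb h.adm.smb.smooth (h.adm.pos x).ne' hτ he (h.bet_nonneg x)
  have h3 := intervalIntegral.sub_le_integral_of_hasDeriv_right_of_le hR
    (g := fun x => -cgK g τ e L F x)
    (fun x _ => (hd x).continuousAt.neg.continuousWithinAt)
    (fun x _ => (hd x).neg.hasDerivWithinAt) hint.integrableOn
    (fun x hx => by
      have := cg_ineq hw h hg he (x := x) hx.1.le
      linarith)
  rw [cgK_zero hw h.adm, neg_zero, sub_zero] at h3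
  exact h3

theorem cg_full (hw : Fw τ L F) (h : Good g C F) (hg : 0 < g) (hg1 : g ≤ 1) :
    0 ≤ ∫ x, cgW g τ L F x * cintJ g F x := by
  have hτ := hw.tau
  have hintJ := cg_integrable hw.smb h.adm hg hg1 hτ (cintJ_cont h.adm) (cint_bdJ h.adm g)
  have hintb := cg_integrable hw.smb h.adm hg hg1 hτ (cintb_cont h.adm) (cint_bdb h.adm g)
  have key : ∀ e : ℝ, 0 < e →
      0 ≤ (∫ x, cgW g τ L F x * cintJ g F x) + 3 * e * ∫ x, cgW g τ L F x * bet g F x := by
    intro e he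
    have h1 := cg_half hw h hg hg1 he
    have h2 : (∫ x, cgW g τ L F x * (cintJ g F x + 3 * e * bet g F x)) =
        2 * ∫ x in Ioi (0 : ℝ), cgW g τ L F x * (cintJ g F x + 3 * e * bet g F x) := by
      rw [← integral_comp_abs (f := fun x => cgW g τ L F x * (cintJ g F x + 3 * e * bet g F x))]
      congr 1
      funext x
      rcases abs_choice x with hx | hx <;> rw [hx]
      rw [cgW_even hw h.adm, cintJ_even h.adm, cintb_even h.adm]
    have h3 : (∫ x, cgW g τ L F x * (cintJ g F x + 3 * e * bet g F x)) =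
        (∫ x, cgW g τ L F x * cintJ g F x) + 3 * e * ∫ x, cgW g τ L F x * bet g F x := by
      rw [← integral_const_mul, ← integral_add hintJ (hintb.const_mul _)]
      congr 1
      funext x
      ring
    rw [← h3, h2]
    positivity
  set I := ∫ x, cgW g τ L F x * cintJ g F x
  set B := ∫ x, cgW g τ L F x * bet g F x
  by_contra hneg
  push Not at hneg
  have h1 := key (-I / (6 * (|B| + 1))) (by
    have := abs_nonneg B
    exact div_pos (by linarith) (by positivity))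
  have h2 : 3 * (-I / (6 * (|B| + 1))) * B ≤ -I / 2 := by
    have h3 : B ≤ |B| + 1 := by linarith [le_abs_self B]
    have h4 : 0 < |B| + 1 := by positivity
    have h5 : 0 ≤ 3 * (-I / (6 * (|B| + 1))) := by
      have : 0 < -I := by linarith
      positivity
    calc 3 * (-I / (6 * (|B| + 1))) * B ≤ 3 * (-I / (6 * (|B| + 1))) * (|B| + 1) :=
          mul_le_mul_of_nonneg_left h3 h5
      _ = -I / 2 := by
        field_simp
        ring
  linarith

theorem cert_gen {g C τ : ℝ} {L F : ℝ → ℝ} (hF : Good g C F) (hg : 0 < g) (hg1 : g ≤ 1)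
    (h : Fw τ L F) : 0 ≤ ∫ x, wgt τ g L F x * m2i g F x := by
  have h1 := cg_full h hF hg hg1
  have h2 : (fun x => cgW g τ L F x * cintJ g F x) = fun x => wgt τ g L F x * m2i g F x := by
    funext x
    exact cg_integrand (hF.adm.pos x).ne'
  rwa [h2] at h1

end CINT

end Vale.Agent.P367.Cl
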