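import Vale.Agent.P367.Cl.FDefs

/-!
# P367, classical half, full RSB: the heat flow of the density (section LH)
-/

open MeasureTheory ProbabilityTheory Filter Topology Set

namespace Vale.Agent.P367.Cl

open Vale.Agent.P157.Par
open Vale.Agent.P146.Gap
open Vale.Agent.P146.Pw2

section LH

variable {τ s : ℝ} {L : ℝ → ℝ}

/-! ### auxiliary facts -/

theorem lhA_pos (hτ : 0 < τ) (hs : 0 ≤ s) : 0 < τ + s := by linarith

theorem lhA_sig_pos (hτ : 0 < τ) (hs : 0 < s) : 0 < τ * s / (τ + s) :=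
  div_pos (mul_pos hτ hs) (lhA_pos hτ hs.le)

theorem lhA_lam_nonneg (hτ : 0 < τ) (hs : 0 ≤ s) : 0 ≤ τ / (τ + s) :=
  div_nonneg hτ.le (lhA_pos hτ hs).le

theorem lhA_lam_le (hτ : 0 < τ) (hs : 0 ≤ s) : τ / (τ + s) ≤ 1 := by
  rw [div_le_one (lhA_pos hτ hs)]
  linarith

/-- chain rule for a function of two variables with continuous derivatives in each variable. -/
theorem lhA_chain {f f1 f2 : ℝ → ℝ → ℝ} {a b : ℝ → ℝ} {a' b' t : ℝ} (ha0 : 0 < a t)
    (h1 : ∀ s, 0 < s → ∀ x, HasDerivAt (fun s => f s x) (f1 s x) s)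
    (h2 : ∀ s x, HasDerivAt (fun x => f s x) (f2 s x) x)
    (c1 : Continuous fun p : ℝ × ℝ => f1 p.1 p.2) (c2 : Continuous fun p : ℝ × ℝ => f2 p.1 p.2)
    (ha : HasDerivAt a a' t) (hb : HasDerivAt b b' t) :
    HasDerivAt (fun t => f (a t) (b t)) (f1 (a t) (b t) * a' + f2 (a t) (b t) * b') t := by
  have e1 : ∀ᶠ v : ℝ × ℝ in 𝓝 (a t, b t), HasFDerivAt (fun s => f s v.2)
      (ContinuousLinearMap.toSpanSingleton ℝ (f1 v.1 v.2)) v.1 := by
    have : ∀ᶠ v : ℝ × ℝ in 𝓝 (a t, b t), 0 < v.1 :=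
      (continuous_fst.tendsto (a t, b t)).eventually (lt_mem_nhds ha0)
    filter_upwards [this] with v hv
    exact (h1 v.1 hv v.2).hasFDerivAt
  have e2 : ∀ᶠ v : ℝ × ℝ in 𝓝 (a t, b t), HasFDerivAt (fun x => f v.1 x)
      (ContinuousLinearMap.toSpanSingleton ℝ (f2 v.1 v.2)) v.2 :=
    Eventually.of_forall fun v => (h2 v.1 v.2).hasFDerivAt
  have e3 : ContinuousAt (fun v : ℝ × ℝ => ContinuousLinearMap.toSpanSingleton ℝ (f1 v.1 v.2))
      (a t, b t) :=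
    (((ContinuousLinearMap.toSpanSingletonCLE (𝕜 := ℝ) (E := ℝ)).continuous).comp
      c1).continuousAt
  have e4 : ContinuousAt (fun v : ℝ × ℝ => ContinuousLinearMap.toSpanSingleton ℝ (f2 v.1 v.2))
      (a t, b t) :=
    (((ContinuousLinearMap.toSpanSingletonCLE (𝕜 := ℝ) (E := ℝ)).continuous).comp
      c2).continuousAt
  have hF := hasStrictFDerivAt_uncurry_coprod (𝕜 := ℝ) (u := (a t, b t)) (f := f)
    (f₁ := fun s x => ContinuousLinearMap.toSpanSingleton ℝ (f1 s x))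
    (f₂ := fun s x => ContinuousLinearMap.toSpanSingleton ℝ (f2 s x)) e1 e2 e3 e4
  have hG := hF.hasFDerivAt.comp_hasDerivAt t (ha.prodMk hb)
  refine hG.congr_deriv ?_
  simp [mul_comm, Function.HasUncurry.uncurry]

theorem lh_zero (hτ : 0 < τ) (L : ℝ → ℝ) : Lh τ L 0 = L := by
  funext x
  unfold Lh
  rw [mul_zero, add_zero, zero_div, div_self hτ.ne', one_mul, gstep_zero one_ne_zero]

theorem lh_deriv (h : SmB L) (hτ : 0 < τ) (hs : 0 ≤ s) (j : ℕ) (x : ℝ) :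
    iteratedDeriv j (Lh τ L s) x =
      (τ / (τ + s)) ^ j * fj 1 L j (τ * s / (τ + s)) (τ / (τ + s) * x) := by
  have h1 : ContDiff ℝ (j : WithTop ℕ∞) (gstep 1 (τ * s / (τ + s)) L) :=
    (smB_gstep h one_pos _).smooth.of_le (by exact_mod_cast le_top)
  have h2 := congrFun (iteratedDeriv_comp_const_mul h1 (τ / (τ + s))) x
  unfold fj
  exact h2

theorem lh_smb (h : SmB L) (hτ : 0 < τ) (hs : 0 ≤ s) : SmB (Lh τ L s) where
  smooth := by
    unfold Lh
    exact (smB_gstep h one_pos _).smooth.comp (contDiff_const.mul contDiff_id)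
  bd j := by
    obtain ⟨C, hC⟩ := fj_bd h one_pos j
    refine ⟨C, fun x => ?_⟩
    rw [lh_deriv h hτ hs, abs_mul, abs_of_nonneg (pow_nonneg (lhA_lam_nonneg hτ hs) _)]
    calc (τ / (τ + s)) ^ (j + 1) * |fj 1 L (j + 1) (τ * s / (τ + s)) (τ / (τ + s) * x)|
        ≤ 1 * |fj 1 L (j + 1) (τ * s / (τ + s)) (τ / (τ + s) * x)| :=
          mul_le_mul_of_nonneg_right (pow_le_one₀ (lhA_lam_nonneg hτ hs) (lhA_lam_le hτ hs))
            (abs_nonneg _)
      _ ≤ C := by rw [one_mul]; exact hC _ _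

theorem lh_even (he : ∀ x, L (-x) = L x) (τ s x : ℝ) : Lh τ L s (-x) = Lh τ L s x := by
  unfold Lh
  rw [mul_neg, gstep_even he]

theorem lh_bd (h : SmB L) (hτ : 0 < τ) (v : ℝ) (j : ℕ) :
    ∃ C : ℝ, ∀ s ∈ Icc 0 v, ∀ x, |iteratedDeriv (j + 1) (Lh τ L s) x| ≤ C := by
  obtain ⟨C, hC⟩ := fj_bd h one_pos j
  refine ⟨C, fun s hs x => ?_⟩
  rw [lh_deriv h hτ hs.1, abs_mul, abs_of_nonneg (pow_nonneg (lhA_lam_nonneg hτ hs.1) _)]
  calc (τ / (τ + s)) ^ (j + 1) * |fj 1 L (j + 1) (τ * s / (τ + s)) (τ / (τ + s) * x)|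
      ≤ 1 * |fj 1 L (j + 1) (τ * s / (τ + s)) (τ / (τ + s) * x)| :=
        mul_le_mul_of_nonneg_right (pow_le_one₀ (lhA_lam_nonneg hτ hs.1) (lhA_lam_le hτ hs.1))
          (abs_nonneg _)
    _ ≤ C := by rw [one_mul]; exact hC _ _

theorem lh_cont (h : SmB L) (hτ : 0 < τ) (v : ℝ) (j : ℕ) :
    ContinuousOn (fun p : ℝ × ℝ => iteratedDeriv j (Lh τ L p.1) p.2) (Icc 0 v ×ˢ univ) := by
  have h0 : ∀ p ∈ Icc (0 : ℝ) v ×ˢ (univ : Set ℝ), τ + p.1 ≠ 0 := fun p hp =>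
    (lhA_pos hτ hp.1.1).ne'
  have h1 : ContinuousOn (fun p : ℝ × ℝ => τ / (τ + p.1)) (Icc 0 v ×ˢ univ) :=
    continuousOn_const.div (by fun_prop) h0
  have h2 : ContinuousOn (fun p : ℝ × ℝ => τ * p.1 / (τ + p.1)) (Icc 0 v ×ˢ univ) :=
    ContinuousOn.div (by fun_prop) (by fun_prop) h0
  have h3 : ContinuousOn (fun p : ℝ × ℝ => (τ / (τ + p.1)) ^ j *
      fj 1 L j (τ * p.1 / (τ + p.1)) (τ / (τ + p.1) * p.2)) (Icc 0 v ×ˢ univ) := by
    refine (h1.pow j).mul ?_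
    have h4 : ContinuousOn (fun p : ℝ × ℝ => (τ * p.1 / (τ + p.1), τ / (τ + p.1) * p.2))
        (Icc 0 v ×ˢ univ) := h2.prodMk (h1.mul continuous_snd.continuousOn)
    exact Continuous.comp_continuousOn (g := fun q : ℝ × ℝ => fj 1 L j q.1 q.2)
      (f := fun p : ℝ × ℝ => (τ * p.1 / (τ + p.1), τ / (τ + p.1) * p.2))
      (fj_cont h one_pos j) h4
  exact h3.congr fun p hp => lh_deriv h hτ hp.1.1 j p.2

theorem lh_x (h : SmB L) (hτ : 0 < τ) (hs : 0 ≤ s) (j : ℕ) (x : ℝ) :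
    HasDerivAt (iteratedDeriv j (Lh τ L s)) (iteratedDeriv (j + 1) (Lh τ L s) x) x :=
  heat_hasDeriv (lh_smb h hτ hs).smooth j x

theorem lhA_lam_deriv (hτ : 0 < τ) (hs : 0 < s) :
    HasDerivAt (fun s => τ / (τ + s)) (-(τ / (τ + s)) / (τ + s)) s := by
  have h0 : τ + s ≠ 0 := (lhA_pos hτ hs.le).ne'
  have h1 : HasDerivAt (fun s => τ + s) 1 s := (hasDerivAt_id s).const_add τ
  refine ((hasDerivAt_const s τ).div h1 h0).congr_deriv ?_
  field_simp
  ring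

theorem lhA_sig_deriv (hτ : 0 < τ) (hs : 0 < s) :
    HasDerivAt (fun s => τ * s / (τ + s)) ((τ / (τ + s)) ^ 2) s := by
  have h0 : τ + s ≠ 0 := (lhA_pos hτ hs.le).ne'
  have h1 : HasDerivAt (fun s => τ + s) 1 s := (hasDerivAt_id s).const_add τ
  refine (((hasDerivAt_id s).const_mul τ).div h1 h0).congr_deriv ?_
  simp only [id]
  field_simp
  ring

/-- the time derivative of the derivatives. -/
theorem lhA_time (h : SmB L) (hτ : 0 < τ) (hs : 0 < s) (j : ℕ) {f1 : ℝ → ℝ → ℝ}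
    (h1 : ∀ s, 0 < s → ∀ x, HasDerivAt (fun s => fj 1 L j s x) (f1 s x) s)
    (c1 : Continuous fun p : ℝ × ℝ => f1 p.1 p.2) (x : ℝ) :
    HasDerivAt (fun s => iteratedDeriv j (Lh τ L s) x)
      (-(j : ℝ) / (τ + s) * iteratedDeriv j (Lh τ L s) x
        + (τ / (τ + s)) ^ (j + 2) * f1 (τ * s / (τ + s)) (τ / (τ + s) * x)
        - x / (τ + s) * iteratedDeriv (j + 1) (Lh τ L s) x) s := by
  have h0 : τ + s ≠ 0 := (lhA_pos hτ hs.le).ne'
  have hlam := lhA_lam_deriv hτ hs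
  have hsig := lhA_sig_deriv hτ hs
  have hA := lhA_chain (f := fj 1 L j) (f1 := f1) (f2 := fj 1 L (j + 1)) (t := s)
    (a := fun s => τ * s / (τ + s)) (b := fun s => τ / (τ + s) * x)
    (lhA_sig_pos hτ hs) h1 (fun s x => fj_x h one_pos j s x) c1 (fj_cont h one_pos (j + 1))
    hsig (hlam.mul_const x)
  have hB := (hlam.pow j).mul hA
  have hC : HasDerivAt (fun s => iteratedDeriv j (Lh τ L s) x) _ s :=
    hB.congr_of_eventuallyEq (by
      filter_upwards [lt_mem_nhds hs] with t ht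
      exact lh_deriv h hτ ht.le j x)
  refine hC.congr_deriv ?_
  rw [lh_deriv h hτ hs.le, lh_deriv h hτ hs.le]
  obtain ⟨l, hl⟩ : ∃ l, l = τ / (τ + s) := ⟨_, rfl⟩
  simp only [Pi.pow_apply]
  rw [← hl]
  have h5 : (j : ℝ) * l ^ (j - 1) * (-l / (τ + s)) = -(j : ℝ) / (τ + s) * l ^ j := by
    cases j with
    | zero => simp
    | succ j =>
      rw [Nat.add_sub_cancel, pow_succ]
      ring
  rw [h5, pow_succ l j, pow_add l j 2]
  ring

/-- `K_s = K''/2 - K² - W K'`, `K = 1/(τ+s) - L_s''`, `W = x/(τ+s) - L_s'`. -/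
theorem lh_s2 (h : SmB L) (hτ : 0 < τ) (hs : 0 < s) (x : ℝ) :
    HasDerivAt (fun s => 1 / (τ + s) - iteratedDeriv 2 (Lh τ L s) x)
      (1 / 2 * -iteratedDeriv 4 (Lh τ L s) x - (1 / (τ + s) - iteratedDeriv 2 (Lh τ L s) x) ^ 2
        - (x / (τ + s) - iteratedDeriv 1 (Lh τ L s) x) * -iteratedDeriv 3 (Lh τ L s) x) s := by
  have h0 : τ + s ≠ 0 := (lhA_pos hτ hs.le).ne'
  have h1 : HasDerivAt (fun s => τ + s) 1 s := (hasDerivAt_id s).const_add τ
  have h2 : HasDerivAt (fun s => 1 / (τ + s)) (-(1 / (τ + s) ^ 2)) s := by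
    refine ((hasDerivAt_const s (1 : ℝ)).div h1 h0).congr_deriv ?_
    field_simp
    ring
  have h3 := lhA_time h hτ hs 2
    (f1 := fun s x => 1 / 2 * fj 1 L 4 s x + 1 * (fj 1 L 2 s x ^ 2 + fj 1 L 1 s x * fj 1 L 3 s x))
    (fun s hs x => fj_s2 h one_pos hs x)
    ((continuous_const.mul (fj_cont h one_pos 4)).add (continuous_const.mul
      (((fj_cont h one_pos 2).pow 2).add ((fj_cont h one_pos 1).mul (fj_cont h one_pos 3))))) x
  refine (h2.sub h3).congr_deriv ?_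
  simp only [lh_deriv h hτ hs.le]
  push_cast
  field_simp
  ring

/-- `K'_s = K'''/2 - 3 K K' - W K''`. -/
theorem lh_s3 (h : SmB L) (hτ : 0 < τ) (hs : 0 < s) (x : ℝ) :
    HasDerivAt (fun s => -iteratedDeriv 3 (Lh τ L s) x)
      (1 / 2 * -iteratedDeriv 5 (Lh τ L s) x
        - 3 * (1 / (τ + s) - iteratedDeriv 2 (Lh τ L s) x) * -iteratedDeriv 3 (Lh τ L s) x
        - (x / (τ + s) - iteratedDeriv 1 (Lh τ L s) x) * -iteratedDeriv 4 (Lh τ L s) x) s := by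
  have h0 : τ + s ≠ 0 := (lhA_pos hτ hs.le).ne'
  have h3 := lhA_time h hτ hs 3
    (f1 := fun s x => 1 / 2 * fj 1 L 5 s x + 1 * (3 * fj 1 L 2 s x * fj 1 L 3 s x
        + fj 1 L 1 s x * fj 1 L 4 s x))
    (fun s hs x => fj_s3 h one_pos hs x)
    ((continuous_const.mul (fj_cont h one_pos 5)).add (continuous_const.mul
      (((continuous_const.mul (fj_cont h one_pos 2)).mul (fj_cont h one_pos 3)).add
        ((fj_cont h one_pos 1).mul (fj_cont h one_pos 4))))) x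
  refine h3.neg.congr_deriv ?_
  simp only [lh_deriv h hτ hs.le]
  push_cast
  field_simp
  ring

/-- The density flows by the heat equation. -/
theorem lh_heat (h : SmB L) (hτ : 0 < τ) (hs : 0 ≤ s) (y : ℝ) :
    ∫ z, Real.exp (L (y + √s * z) - (y + √s * z) ^ 2 / (2 * τ)) ∂(gaussianReal 0 1) =
      √(τ / (τ + s)) * Real.exp (Lh τ L s y - y ^ 2 / (2 * (τ + s))) := by
  have h0 : 0 < τ + s := lhA_pos hτ hs
  obtain ⟨l, hl⟩ : ∃ l, l = τ / (τ + s) := ⟨_, rfl⟩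
  have hl0 : 0 < l := by rw [hl]; exact div_pos hτ h0
  have hsl : √l ^ 2 = l := Real.sq_sqrt hl0.le
  have hss : √s ^ 2 = s := Real.sq_sqrt hs
  have hsl0 : 0 < √l := Real.sqrt_pos.2 hl0
  have hsig : √(τ * s / (τ + s)) = √s * √l := by
    rw [← Real.sqrt_mul hs, hl]
    congr 1
    ring
  have hpos : 0 < U (jetsPsi 1 L) 0 (τ * s / (τ + s)) (τ / (τ + s) * y) :=
    U_pos (posF_exp h 1) (τ * s / (τ + s)) (τ / (τ + s) * y)
  have hexp : Real.exp (Lh τ L s y) =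
      ∫ z, Real.exp (L (l * y + √s * √l * z)) ∂(gaussianReal 0 1) := by
    unfold Lh
    rw [jets_gstep]
    simp only [one_div, inv_one, one_mul]
    rw [Real.exp_log hpos]
    unfold U jetsPsi
    simp only [iteratedDeriv_zero, one_mul]
    rw [hsig, ← hl]
  rw [← hl, sub_eq_add_neg, Real.exp_add, hexp,
    integral_gaussianReal_eq_integral_smul one_ne_zero,
    integral_gaussianReal_eq_integral_smul one_ne_zero]
  -- change of variables
  obtain ⟨G, hG⟩ : ∃ G : ℝ → ℝ, G = fun z => gaussianPDFReal 0 1 z •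
    Real.exp (L (y + √s * z) - (y + √s * z) ^ 2 / (2 * τ)) := ⟨_, rfl⟩
  have h1 : ∫ w, G (√l * w - y * √s / (τ + s)) = (√l)⁻¹ * ∫ z, G z := by
    have h2 := integral_sub_right_eq_self (μ := volume) G (y * √s / (τ + s))
    have h3 := MeasureTheory.Measure.integral_comp_mul_left
      (fun z => G (z - y * √s / (τ + s))) (√l)
    rw [h3, h2, smul_eq_mul, abs_of_pos (inv_pos.2 hsl0)]
  have h2 : ∀ w, G (√l * w - y * √s / (τ + s)) =
      gaussianPDFReal 0 1 w • Real.exp (L (l * y + √s * √l * w)) *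
        Real.exp (-(y ^ 2 / (2 * (τ + s)))) := by
    intro w
    rw [hG]
    have h3 : y + √s * (√l * w - y * √s / (τ + s)) = l * y + √s * √l * w := by
      have h4 : √s * (y * √s / (τ + s)) = y * s / (τ + s) := by
        rw [← hss, Real.sqrt_sq (Real.sqrt_nonneg s)]
        ring
      have h5 : y - y * s / (τ + s) = l * y := by
        rw [hl]
        field_simp
        ring
      rw [mul_sub, h4]
      linarith
    simp only [h3, smul_eq_mul]
    unfold gaussianPDFReal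
    simp only [NNReal.coe_one, mul_one, sub_zero]
    suffices hkey : -(√l * w - y * √s / (τ + s)) ^ 2 / 2 +
        (L (l * y + √s * √l * w) - (l * y + √s * √l * w) ^ 2 / (2 * τ)) =
        -w ^ 2 / 2 + L (l * y + √s * √l * w) + -(y ^ 2 / (2 * (τ + s))) by
      rw [mul_assoc, ← Real.exp_add, hkey, Real.exp_add, Real.exp_add]
      ring
    have h6 : (√l * w - y * √s / (τ + s)) ^ 2 =
        l * w ^ 2 - 2 * (√s * √l * w) * y / (τ + s) + y ^ 2 * s / (τ + s) ^ 2 := by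
      have h7 : (√l * w - y * √s / (τ + s)) ^ 2 = √l ^ 2 * w ^ 2 -
        2 * (√s * √l * w) * y / (τ + s) + y ^ 2 * √s ^ 2 / (τ + s) ^ 2 := by
        field_simp
        ring
      rw [h7, hsl, hss]
    have h8 : (l * y + √s * √l * w) ^ 2 =
        l ^ 2 * y ^ 2 + 2 * l * y * (√s * √l * w) + s * l * w ^ 2 := by
      have h9 : (l * y + √s * √l * w) ^ 2 =
        l ^ 2 * y ^ 2 + 2 * l * y * (√s * √l * w) + √s ^ 2 * √l ^ 2 * w ^ 2 := by
        ring
      rw [h9, hsl, hss]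
    rw [h6, h8, hl]
    obtain ⟨q, hq⟩ : ∃ q, q = √s * √(τ / (τ + s)) * w := ⟨_, rfl⟩
    rw [← hq]
    field_simp
    ring
  simp only [h2] at h1
  rw [integral_mul_const] at h1
  have h3 : ∫ z, G z = √l * ((∫ w, gaussianPDFReal 0 1 w • Real.exp (L (l * y + √s * √l * w))) *
      Real.exp (-(y ^ 2 / (2 * (τ + s))))) := by
    rw [h1, ← mul_assoc, mul_inv_cancel₀ hsl0.ne', one_mul]
  rw [hG] at h3
  exact h3

end LH

end Vale.Agent.P367.Cl
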