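import Vale.Agent.P146.Gap.MaxP

/-!
# P367, classical half: maximum principles with a drift of linear growth
-/

open Set Filter Topology

namespace Vale.Agent.P367.Cl

open Vale.Agent.P146.Gap

/-- the maximum principle on a rectangle for the original equation, with a barrier. -/
theorem maxw_mid {T B lo hi ε : ℝ} {w ws wx wxx b c : ℝ → ℝ → ℝ} (hB0 : 0 ≤ B) (hε : 0 < ε)
    (hw : ContinuousOn (fun p : ℝ × ℝ => w p.1 p.2) (Icc 0 T ×ˢ Icc lo hi))
    (hs : ∀ s ∈ Ioc 0 T, ∀ x ∈ Ioo lo hi, HasDerivAt (fun s => w s x) (ws s x) s)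
    (hx : ∀ s ∈ Ioc 0 T, ∀ x ∈ Ioo lo hi, HasDerivAt (w s) (wx s x) x)
    (hxx : ∀ s ∈ Ioc 0 T, ∀ x ∈ Ioo lo hi, HasDerivAt (wx s) (wxx s x) x)
    (hb : ∀ s ∈ Ioc 0 T, ∀ x ∈ Ioo lo hi, b s x * (2 * x) ≤ B * (1 + x ^ 2))
    (hc : ∀ s ∈ Ioc 0 T, ∀ x ∈ Ioo lo hi, c s x ≤ B)
    (hpde : ∀ s ∈ Ioc 0 T, ∀ x ∈ Ioo lo hi,
      1 / 2 * wxx s x + b s x * wx s x + c s x * w s x ≤ ws s x)
    (h0 : ∀ x ∈ Icc lo hi, 0 ≤ w 0 x)
    (hlo : ∀ s ∈ Icc 0 T, 0 ≤ Real.exp (-(B + 1) * s) * w s lo +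
      ε * Real.exp ((2 * B + 10) * s) * (1 + lo ^ 2))
    (hhi : ∀ s ∈ Icc 0 T, 0 ≤ Real.exp (-(B + 1) * s) * w s hi +
      ε * Real.exp ((2 * B + 10) * s) * (1 + hi ^ 2)) :
    ∀ s ∈ Icc 0 T, ∀ x ∈ Icc lo hi, 0 ≤ Real.exp (-(B + 1) * s) * w s x +
      ε * Real.exp ((2 * B + 10) * s) * (1 + x ^ 2) := by
  refine maxp_rect
    (v := fun s x => Real.exp (-(B + 1) * s) * w s x +
      ε * Real.exp ((2 * B + 10) * s) * (1 + x ^ 2))
    (vs := fun s x => Real.exp (-(B + 1) * s) * (-(B + 1)) * w s x +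
      Real.exp (-(B + 1) * s) * ws s x +
      ε * (Real.exp ((2 * B + 10) * s) * (2 * B + 10)) * (1 + x ^ 2))
    (vx := fun s x => Real.exp (-(B + 1) * s) * wx s x +
      ε * Real.exp ((2 * B + 10) * s) * (2 * x))
    (vxx := fun s x => Real.exp (-(B + 1) * s) * wxx s x +
      ε * Real.exp ((2 * B + 10) * s) * 2)
    (b := b) (c := fun s x => c s x - (B + 1)) ?_ ?_ ?_ ?_ ?_ ?_ ?_ hlo hhi
  · refine ContinuousOn.add (ContinuousOn.mul ?_ hw) ?_
    · exact (Real.continuous_exp.comp (continuous_const.mul continuous_fst)).continuousOn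
    · exact ((continuous_const.mul
        (Real.continuous_exp.comp (continuous_const.mul continuous_fst))).mul
        (continuous_const.add (continuous_snd.pow 2))).continuousOn
  · intro s hsT x hxI
    have e1 : HasDerivAt (fun s => Real.exp (-(B + 1) * s))
        (Real.exp (-(B + 1) * s) * (-(B + 1))) s := by
      have := ((hasDerivAt_id s).const_mul (-(B + 1))).exp
      simpa using this
    have e2 : HasDerivAt (fun s => Real.exp ((2 * B + 10) * s))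
        (Real.exp ((2 * B + 10) * s) * (2 * B + 10)) s := by
      have := ((hasDerivAt_id s).const_mul (2 * B + 10)).exp
      simpa using this
    exact (e1.mul (hs s hsT x hxI)).add ((e2.const_mul ε).mul_const (1 + x ^ 2))
  · intro s hsT x hxI
    have e1 : HasDerivAt (fun x : ℝ => 1 + x ^ 2) (2 * x) x := by
      have := (hasDerivAt_pow 2 x).const_add 1
      simpa using this
    exact ((hx s hsT x hxI).const_mul _).add (e1.const_mul _)
  · intro s hsT x hxI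
    have e1 : HasDerivAt (fun x : ℝ => 2 * x) 2 x := by
      have := (hasDerivAt_id x).const_mul 2
      simpa using this
    exact ((hxx s hsT x hxI).const_mul _).add (e1.const_mul _)
  · intro s hsT x hxI
    have := hc s hsT x hxI
    linarith
  · intro s hsT x hxI
    have h1 := hb s hsT x hxI
    have h2 := hc s hsT x hxI
    have h3 := hpde s hsT x hxI
    have E1 : 0 < Real.exp (-(B + 1) * s) := Real.exp_pos _
    have E2 : 0 < ε * Real.exp ((2 * B + 10) * s) := mul_pos hε (Real.exp_pos _)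
    have h4 : 0 < (2 * B + 10) * (1 + x ^ 2) - 1 - b s x * (2 * x) -
        (c s x - (B + 1)) * (1 + x ^ 2) := by
      have h5 : b s x * (2 * x) ≤ B * (1 + x ^ 2) := h1
      have h8 : (c s x - (B + 1)) * (1 + x ^ 2) ≤ 0 := by
        apply mul_nonpos_of_nonpos_of_nonneg <;> nlinarith [sq_nonneg x]
      nlinarith [sq_nonneg x, mul_nonneg hB0 (sq_nonneg x)]
    have h9 := mul_pos E2 h4
    have h10 := mul_le_mul_of_nonneg_left h3 E1.le
    nlinarith [h9, h10]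
  · intro x hxI
    have h1 := h0 x hxI
    have h2 : 0 ≤ ε * Real.exp ((2 * B + 10) * 0) * (1 + x ^ 2) := by positivity
    have h3 : 0 ≤ Real.exp (-(B + 1) * 0) * w 0 x := mul_nonneg (Real.exp_pos _).le h1
    linarith

theorem maxw_line {S B : ℝ} {w ws wx wxx b c : ℝ → ℝ → ℝ} (hS : 0 < S)
    (hw : ContinuousOn (fun p : ℝ × ℝ => w p.1 p.2) (Icc 0 S ×ˢ univ))
    (hB : ∀ s ∈ Icc 0 S, ∀ x, |w s x| ≤ B)
    (hs : ∀ s ∈ Ioo 0 S, ∀ x, HasDerivAt (fun s => w s x) (ws s x) s)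
    (hx : ∀ s ∈ Ioo 0 S, ∀ x, HasDerivAt (w s) (wx s x) x)
    (hxx : ∀ s ∈ Ioo 0 S, ∀ x, HasDerivAt (wx s) (wxx s x) x)
    (hb : ∀ s ∈ Ioo 0 S, ∀ x, b s x * (2 * x) ≤ B * (1 + x ^ 2)) (hc : ∀ s ∈ Ioo 0 S, ∀ x, c s x ≤ B)
    (hpde : ∀ s ∈ Ioo 0 S, ∀ x, 1 / 2 * wxx s x + b s x * wx s x + c s x * w s x ≤ ws s x)
    (h0 : ∀ x, 0 ≤ w 0 x) : ∀ s ∈ Icc 0 S, ∀ x, 0 ≤ w s x := by
  have hB0 : 0 ≤ B := (abs_nonneg _).trans (hB 0 (left_mem_Icc.2 hS.le) 0)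
  have key : ∀ T, 0 ≤ T → T < S → ∀ x, 0 ≤ w T x := by
    intro T hT0 hTS x
    refine maxp_limit (Real.exp_pos (-(B + 1) * T))
      (N := Real.exp ((2 * B + 10) * T) * (1 + x ^ 2)) fun ε hε => ?_
    rw [← mul_assoc]
    have hsub : ∀ s, s ∈ Ioc 0 T → s ∈ Ioo 0 S := fun s hs => ⟨hs.1, lt_of_le_of_lt hs.2 hTS⟩
    set R := |x| + B / ε + 1 with hR
    have hBe : 0 ≤ B / ε := div_nonneg hB0 hε.le
    have hR1 : B / ε ≤ R ^ 2 := by nlinarith [abs_nonneg x]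
    have hR2 : B / ε ≤ (-R) ^ 2 := by rw [neg_sq]; exact hR1
    refine maxw_mid (lo := -R) (hi := R) hB0 hε (hw.mono ?_)
      (fun s h y _ => hs s (hsub s h) y) (fun s h y _ => hx s (hsub s h) y)
      (fun s h y _ => hxx s (hsub s h) y) (fun s h y _ => hb s (hsub s h) y)
      (fun s h y _ => hc s (hsub s h) y) (fun s h y _ => hpde s (hsub s h) y)
      (fun y _ => h0 y) (fun s h => ?_) (fun s h => ?_) T (right_mem_Icc.2 hT0) x ?_
    · exact prod_mono (Icc_subset_Icc le_rfl hTS.le) (subset_univ _)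
    · exact maxp_far hB0 h.1 hε (hB s ⟨h.1, h.2.trans hTS.le⟩ _) hR2
    · exact maxp_far hB0 h.1 hε (hB s ⟨h.1, h.2.trans hTS.le⟩ _) hR1
    · constructor
      · have := neg_abs_le x
        linarith
      · have := le_abs_self x
        linarith
  intro s hsS x
  rcases eq_or_lt_of_le hsS.2 with h | h
  · rw [h]
    refine maxp_final (f := fun s => w s x) hS ?_ fun t ht ht' => key t ht ht' x
    exact hw.comp (f := fun s => (s, x)) (by fun_prop) fun t ht => ⟨ht, mem_univ _⟩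
  · exact key s hsS.1 h x

theorem maxw_half {S B a : ℝ} {w ws wx wxx b c : ℝ → ℝ → ℝ} (hS : 0 < S)
    (hw : ContinuousOn (fun p : ℝ × ℝ => w p.1 p.2) (Icc 0 S ×ˢ Ici a))
    (hB : ∀ s ∈ Icc 0 S, ∀ x, a ≤ x → |w s x| ≤ B)
    (hs : ∀ s ∈ Ioo 0 S, ∀ x, a < x → HasDerivAt (fun s => w s x) (ws s x) s)
    (hx : ∀ s ∈ Ioo 0 S, ∀ x, a < x → HasDerivAt (w s) (wx s x) x)
    (hxx : ∀ s ∈ Ioo 0 S, ∀ x, a < x → HasDerivAt (wx s) (wxx s x) x)
    (hb : ∀ s ∈ Ioo 0 S, ∀ x, a < x → b s x * (2 * x) ≤ B * (1 + x ^ 2))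
    (hc : ∀ s ∈ Ioo 0 S, ∀ x, a < x → c s x ≤ B)
    (hpde : ∀ s ∈ Ioo 0 S, ∀ x, a < x →
      1 / 2 * wxx s x + b s x * wx s x + c s x * w s x ≤ ws s x)
    (h0 : ∀ x, a ≤ x → 0 ≤ w 0 x) (ha : ∀ s ∈ Icc 0 S, 0 ≤ w s a) :
    ∀ s ∈ Icc 0 S, ∀ x, a ≤ x → 0 ≤ w s x := by
  have hB0 : 0 ≤ B := (abs_nonneg _).trans (hB 0 (left_mem_Icc.2 hS.le) a le_rfl)
  have key : ∀ T, 0 ≤ T → T < S → ∀ x, a ≤ x → 0 ≤ w T x := by
    intro T hT0 hTS x hax
    refine maxp_limit (Real.exp_pos (-(B + 1) * T))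
      (N := Real.exp ((2 * B + 10) * T) * (1 + x ^ 2)) fun ε hε => ?_
    rw [← mul_assoc]
    have hsub : ∀ s, s ∈ Ioc 0 T → s ∈ Ioo 0 S := fun s hs => ⟨hs.1, lt_of_le_of_lt hs.2 hTS⟩
    set R := |x| + B / ε + 1 with hR
    have hBe : 0 ≤ B / ε := div_nonneg hB0 hε.le
    have hR1 : B / ε ≤ R ^ 2 := by nlinarith [abs_nonneg x]
    have hxR : x ≤ R := by
      have := le_abs_self x
      linarith
    refine maxw_mid (lo := a) (hi := R) hB0 hε (hw.mono ?_)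
      (fun s h y hy => hs s (hsub s h) y hy.1) (fun s h y hy => hx s (hsub s h) y hy.1)
      (fun s h y hy => hxx s (hsub s h) y hy.1) (fun s h y hy => hb s (hsub s h) y hy.1)
      (fun s h y hy => hc s (hsub s h) y hy.1) (fun s h y hy => hpde s (hsub s h) y hy.1)
      (fun y hy => h0 y hy.1) (fun s h => ?_) (fun s h => ?_) T (right_mem_Icc.2 hT0) x
      ⟨hax, hxR⟩
    · exact prod_mono (Icc_subset_Icc le_rfl hTS.le) Icc_subset_Ici_self
    · have h1 := ha s ⟨h.1, h.2.trans hTS.le⟩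
      positivity
    · exact maxp_far hB0 h.1 hε (hB s ⟨h.1, h.2.trans hTS.le⟩ _ (hax.trans hxR)) hR1
  intro s hsS x hax
  rcases eq_or_lt_of_le hsS.2 with h | h
  · rw [h]
    refine maxp_final (f := fun s => w s x) hS ?_ fun t ht ht' => key t ht ht' x hax
    exact hw.comp (f := fun s => (s, x)) (by fun_prop) fun t ht => ⟨ht, hax⟩
  · exact key s hsS.1 h x hax

end Vale.Agent.P367.Cl
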