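import Vale.Agent.P367.Cl.FFwd0
import Vale.Agent.P367.Cl.FMax
import Vale.Agent.P367.Cl.FLh

/-!
# P367, classical half: the class `Fw` is preserved by the flow
-/

open MeasureTheory ProbabilityTheory Filter Topology Set

namespace Vale.Agent.P367.Cl

open Vale.Agent.P157.Par
open Vale.Agent.P146.Gap
open Vale.Agent.P146.Pw2

section FWD

variable {g C τ v δ : ℝ} {L F : ℝ → ℝ}

/-! ### The three invariants -/

lemma fwd_cont_div (hτ : 0 < τ) (v : ℝ) (k : ℝ → ℝ) (hk : Continuous k) :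
    ContinuousOn (fun p : ℝ × ℝ => k p.2 / (τ + p.1)) (Icc 0 v ×ˢ univ) := by
  refine ContinuousOn.div (hk.comp continuous_snd).continuousOn
    (continuous_const.add continuous_fst).continuousOn fun p hp => ?_
  have := hp.1.1
  positivity

lemma fwd_inv_le (hτ : 0 < τ) {s : ℝ} (hs : 0 ≤ s) : 1 / (τ + s) ≤ 1 / τ :=
  one_div_le_one_div_of_le hτ (by linarith)

/-- a bound for the drift `-W` -/
lemma fwd_drift {C1 s x w : ℝ} (hτ : 0 < τ) (hs : 0 ≤ s) (hw : |w| ≤ C1) :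
    -(x / (τ + s) - w) * (2 * x) ≤ C1 * (1 + x ^ 2) := by
  have h1 : -(x / (τ + s) - w) * (2 * x) = 2 * x * w - 2 * x ^ 2 / (τ + s) := by
    have : τ + s ≠ 0 := by positivity
    field_simp
    ring
  have h2 : 0 ≤ 2 * x ^ 2 / (τ + s) := by positivity
  have h3 : 2 * x * w ≤ |2 * x| * |w| := by
    rw [← abs_mul]
    exact le_abs_self _
  have h4 : |2 * x| ≤ 1 + x ^ 2 := by
    rw [abs_le]
    constructor <;> nlinarith [sq_nonneg (x - 1), sq_nonneg (x + 1)]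
  have h5 : |2 * x| * |w| ≤ (1 + x ^ 2) * C1 :=
    mul_le_mul h4 hw (abs_nonneg _) (by positivity)
  rw [h1]
  linarith

theorem fw_K0 (hL : SmB L) (hτ : 0 < τ) (hv : 0 < v) (h0 : ∀ x, 0 ≤ 1 / τ - iteratedDeriv 2 L x) :
    ∀ s ∈ Icc 0 v, ∀ x, 0 ≤ 1 / (τ + s) - iteratedDeriv 2 (Lh τ L s) x := by
  obtain ⟨C1, hC1⟩ := lh_bd hL hτ v 0
  obtain ⟨C2, hC2⟩ := lh_bd hL hτ v 1
  have hC1' : 0 ≤ C1 := (abs_nonneg _).trans (hC1 0 ⟨le_rfl, hv.le⟩ 0)
  have hC2' : 0 ≤ C2 := (abs_nonneg _).trans (hC2 0 ⟨le_rfl, hv.le⟩ 0)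
  have hbd : ∀ s ∈ Icc 0 v, ∀ x, |1 / (τ + s) - iteratedDeriv 2 (Lh τ L s) x| ≤ 1 / τ + C2 := by
    intro s hs x
    refine (abs_sub _ _).trans (add_le_add ?_ (hC2 s hs x))
    have : 0 ≤ s := hs.1
    rw [abs_of_nonneg (by positivity)]
    exact fwd_inv_le hτ hs.1
  have hB : 0 ≤ 1 / τ := by positivity
  refine maxw_line (B := 1 / τ + C1 + C2) hv
    (w := fun s x => 1 / (τ + s) - iteratedDeriv 2 (Lh τ L s) x)
    (ws := fun s x => 1 / 2 * -iteratedDeriv 4 (Lh τ L s) x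
        - (1 / (τ + s) - iteratedDeriv 2 (Lh τ L s) x) ^ 2
        - (x / (τ + s) - iteratedDeriv 1 (Lh τ L s) x) * -iteratedDeriv 3 (Lh τ L s) x)
    (wx := fun s x => -iteratedDeriv 3 (Lh τ L s) x)
    (wxx := fun s x => -iteratedDeriv 4 (Lh τ L s) x)
    (b := fun s x => -(x / (τ + s) - iteratedDeriv 1 (Lh τ L s) x))
    (c := fun s x => -(1 / (τ + s) - iteratedDeriv 2 (Lh τ L s) x))
    ?_ ?_ ?_ ?_ ?_ ?_ ?_ ?_ ?_
  · exact (fwd_cont_div hτ v (fun _ => 1) continuous_const).sub (lh_cont hL hτ v 2)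
  · intro s hs x
    have := hbd s hs x
    linarith
  · intro s hs x
    exact lh_s2 hL hτ hs.1 x
  · intro s hs x
    exact (lh_x hL hτ hs.1.le 2 x).const_sub _
  · intro s hs x
    exact (lh_x hL hτ hs.1.le 3 x).neg
  · intro s hs x
    have h1 := fwd_drift (x := x) hτ hs.1.le (hC1 s ⟨hs.1.le, hs.2.le⟩ x)
    refine h1.trans (mul_le_mul_of_nonneg_right (by linarith) (by positivity))
  · intro s hs x
    have := (abs_le.1 (hbd s ⟨hs.1.le, hs.2.le⟩ x)).1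
    linarith
  · intro s hs x
    refine le_of_eq ?_
    ring
  · intro x
    simp only [lh_zero hτ, add_zero]
    exact h0 x

theorem fw_K1 (hL : SmB L) (he : ∀ x, L (-x) = L x) (hτ : 0 < τ) (hv : 0 < v)
    (h0 : ∀ x, 0 ≤ x → 0 ≤ iteratedDeriv 3 L x)
    (hK : ∀ s ∈ Icc 0 v, ∀ x, 0 ≤ 1 / (τ + s) - iteratedDeriv 2 (Lh τ L s) x) :
    ∀ s ∈ Icc 0 v, ∀ x, 0 ≤ x → 0 ≤ iteratedDeriv 3 (Lh τ L s) x := by
  obtain ⟨C1, hC1⟩ := lh_bd hL hτ v 0
  obtain ⟨C3, hC3⟩ := lh_bd hL hτ v 2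
  have hC1' : 0 ≤ C1 := (abs_nonneg _).trans (hC1 0 ⟨le_rfl, hv.le⟩ 0)
  have hC3' : 0 ≤ C3 := (abs_nonneg _).trans (hC3 0 ⟨le_rfl, hv.le⟩ 0)
  refine maxw_half (B := C1 + C3) (a := 0) hv
    (w := fun s x => iteratedDeriv 3 (Lh τ L s) x)
    (ws := fun s x => -(1 / 2 * -iteratedDeriv 5 (Lh τ L s) x
        - 3 * (1 / (τ + s) - iteratedDeriv 2 (Lh τ L s) x) * -iteratedDeriv 3 (Lh τ L s) x
        - (x / (τ + s) - iteratedDeriv 1 (Lh τ L s) x) * -iteratedDeriv 4 (Lh τ L s) x))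
    (wx := fun s x => iteratedDeriv 4 (Lh τ L s) x)
    (wxx := fun s x => iteratedDeriv 5 (Lh τ L s) x)
    (b := fun s x => -(x / (τ + s) - iteratedDeriv 1 (Lh τ L s) x))
    (c := fun s x => -(3 * (1 / (τ + s) - iteratedDeriv 2 (Lh τ L s) x)))
    ?_ ?_ ?_ ?_ ?_ ?_ ?_ ?_ ?_ ?_
  · exact (lh_cont hL hτ v 3).mono (prod_mono le_rfl (subset_univ _))
  · intro s hs x _
    have := hC3 s hs x
    linarith
  · intro s hs x _
    have h1 := (lh_s3 hL hτ hs.1 x).neg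
    have h2 : (-fun s => -iteratedDeriv 3 (Lh τ L s) x) =
        fun s => iteratedDeriv 3 (Lh τ L s) x := by
      funext s
      simp
    rw [h2] at h1
    exact h1
  · intro s hs x _
    exact lh_x hL hτ hs.1.le 3 x
  · intro s hs x _
    exact lh_x hL hτ hs.1.le 4 x
  · intro s hs x _
    have h1 := fwd_drift (x := x) hτ hs.1.le (hC1 s ⟨hs.1.le, hs.2.le⟩ x)
    refine h1.trans (mul_le_mul_of_nonneg_right (by linarith) (by positivity))
  · intro s hs x _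
    have := hK s ⟨hs.1.le, hs.2.le⟩ x
    linarith
  · intro s hs x _
    refine le_of_eq ?_
    ring
  · intro x hx
    simp only [lh_zero hτ]
    exact h0 x hx
  · intro s hs
    rw [fwd_odd3 (lh_even he τ s)]

/-- the algebra of the third invariant -/
lemma fwd_alg {g V1 V2 V3 V4 V5 G1 G2 G3 G4 G5 : ℝ} (h2 : G2 ≠ 0) :
    ((1 / 2 * V5 - 3 * V2 * V3 - V1 * V4) * G2
        + V3 * -(1 / 2 * G4 + g * (G2 ^ 2 + G1 * G3)))
      - ((1 / 2 * V4 - V2 ^ 2 - V1 * V3) * G3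
        + V2 * -(1 / 2 * G5 + g * (3 * G2 * G3 + G1 * G4)))
      - (1 / 2 * (V5 * G2 + V4 * G3 - (V3 * G4 + V2 * G5))
        + (-(G3 / G2) - V1) * (V4 * G2 - V2 * G4)
        + (-(G3 / G2) * (g * G1 - V1) - g * G2 - 2 * V2) * (V3 * G2 - V2 * G3)) =
    G2 * V2 * ((2 * (g * G2) + ((G3 / G2) ^ 2 - G4 / G2 - 2 * g * G2))
          * ((-(G3 / G2) - g * G1) + V1)
        + -(G3 / G2) * (2 * (g * G2) + ((G3 / G2) ^ 2 - G4 / G2 - 2 * g * G2) + V2)
        - (-(G5 / G2) + 3 * (G3 * G4) / G2 ^ 2 - 2 * (G3 / G2) ^ 3 - 2 * g * G3) - V3) := by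
  field_simp
  ring

lemma fwd_pde {g V1 V2 V3 V4 V5 G1 G2 G3 G4 G5 : ℝ} (hg : 0 < g) (h2 : 0 < G2) (h3 : G3 ≤ 0)
    (hbet : 0 ≤ (G3 / G2) ^ 2 - G4 / G2 - 2 * g * G2) (hY : 0 ≤ -(G3 / G2) - g * G1)
    (hbp : -(G5 / G2) + 3 * (G3 * G4) / G2 ^ 2 - 2 * (G3 / G2) ^ 3 - 2 * g * G3 ≤
      (-(G3 / G2) - g * G1) * ((G3 / G2) ^ 2 - G4 / G2 - 2 * g * G2))
    (hW : 0 ≤ V1) (hK : 0 ≤ V2) (hK3 : V3 ≤ 0) :
    1 / 2 * (V5 * G2 + V4 * G3 - (V3 * G4 + V2 * G5))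
        + (-(G3 / G2) - V1) * (V4 * G2 - V2 * G4)
        + (-(G3 / G2) * (g * G1 - V1) - g * G2 - 2 * V2) * (V3 * G2 - V2 * G3) ≤
    ((1 / 2 * V5 - 3 * V2 * V3 - V1 * V4) * G2
        + V3 * -(1 / 2 * G4 + g * (G2 ^ 2 + G1 * G3)))
      - ((1 / 2 * V4 - V2 ^ 2 - V1 * V3) * G3
        + V2 * -(1 / 2 * G5 + g * (3 * G2 * G3 + G1 * G4))) := by
  have halg := fwd_alg (g := g) (V1 := V1) (V2 := V2) (V3 := V3) (V4 := V4) (V5 := V5)
    (G1 := G1) (G3 := G3) (G4 := G4) (G5 := G5) h2.ne'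
  have hz : 0 ≤ -(G3 / G2) := by
    rw [neg_nonneg]
    exact div_nonpos_of_nonpos_of_nonneg h3 h2.le
  set z := -(G3 / G2) with hzd
  set be := (G3 / G2) ^ 2 - G4 / G2 - 2 * g * G2 with hbed
  set bp := -(G5 / G2) + 3 * (G3 * G4) / G2 ^ 2 - 2 * (G3 / G2) ^ 3 - 2 * g * G3 with hbpd
  have hQ : 0 ≤ (2 * (g * G2) + be) * ((z - g * G1) + V1)
      + z * (2 * (g * G2) + be + V2) - bp - V3 := by
    have q1 : 0 ≤ 2 * (g * G2) * ((z - g * G1) + V1) := by positivity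
    have q2 : 0 ≤ be * V1 := mul_nonneg hbet hW
    have q3 : 0 ≤ z * (2 * (g * G2) + be + V2) := by positivity
    nlinarith [q1, q2, q3, hbp, hK3]
  have hpos : 0 ≤ G2 * V2 * ((2 * (g * G2) + be) * ((z - g * G1) + V1)
      + z * (2 * (g * G2) + be + V2) - bp - V3) := mul_nonneg (mul_nonneg h2.le hK) hQ
  rw [← halg] at hpos
  linarith

theorem fw_R1 (hF : Good g C F) (hg : 0 < g) (hg1 : g ≤ 1) (hL : SmB L)
    (he : ∀ x, L (-x) = L x) (hτ : 0 < τ) (hv : 0 < v)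
    (h0 : ∀ x, 0 ≤ x → 0 ≤ -iteratedDeriv 3 L x * iteratedDeriv 2 (gstep g v F) x
      - (1 / τ - iteratedDeriv 2 L x) * iteratedDeriv 3 (gstep g v F) x)
    (hK : ∀ s ∈ Icc 0 v, ∀ x, 0 ≤ 1 / (τ + s) - iteratedDeriv 2 (Lh τ L s) x)
    (hK1 : ∀ s ∈ Icc 0 v, ∀ x, 0 ≤ x → 0 ≤ iteratedDeriv 3 (Lh τ L s) x) :
    ∀ s ∈ Icc 0 v, ∀ x, 0 ≤ x →
      0 ≤ -iteratedDeriv 3 (Lh τ L s) x * iteratedDeriv 2 (gstep g (v - s) F) x
      - (1 / (τ + s) - iteratedDeriv 2 (Lh τ L s) x) *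
        iteratedDeriv 3 (gstep g (v - s) F) x := by
  obtain ⟨C1, hC1⟩ := lh_bd hL hτ v 0
  obtain ⟨C2, hC2⟩ := lh_bd hL hτ v 1
  obtain ⟨C3, hC3⟩ := lh_bd hL hτ v 2
  obtain ⟨D1, hD1⟩ := fj_bd hF.adm.smb hg 0
  obtain ⟨D2, hD2⟩ := fj_bd hF.adm.smb hg 1
  obtain ⟨D3, hD3⟩ := fj_bd hF.adm.smb hg 2
  have hC1' : 0 ≤ C1 := (abs_nonneg _).trans (hC1 0 ⟨le_rfl, hv.le⟩ 0)
  have hC2' : 0 ≤ C2 := (abs_nonneg _).trans (hC2 0 ⟨le_rfl, hv.le⟩ 0)
  have hC3' : 0 ≤ C3 := (abs_nonneg _).trans (hC3 0 ⟨le_rfl, hv.le⟩ 0)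
  have hD1' : 0 ≤ D1 := (abs_nonneg _).trans (hD1 0 0)
  have hD2' : 0 ≤ D2 := (abs_nonneg _).trans (hD2 0 0)
  have hD3' : 0 ≤ D3 := (abs_nonneg _).trans (hD3 0 0)
  have hτ' : 0 ≤ 1 / τ := by positivity
  -- the class along the block
  have hgood : ∀ s ∈ Icc 0 v, Good g (C * Real.exp (2 * g * (v - s))) (gstep g (v - s) F) :=
    fun s hs => hF.step hg le_rfl hg1 (by linarith [hs.2])
  have hC0 := hF.adm.C_nonneg
  set Z : ℝ := C * Real.exp (2 * g * v) with hZ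
  have hZ0 : 0 ≤ Z := mul_nonneg hC0 (Real.exp_pos _).le
  have hCs : ∀ s ∈ Icc 0 v, C * Real.exp (2 * g * (v - s)) ≤ Z := by
    intro s hs
    refine mul_le_mul_of_nonneg_left (Real.exp_le_exp.2 ?_) hC0
    have := hs.1
    nlinarith
  -- abbreviations
  let G : ℕ → ℝ → ℝ → ℝ := fun j s x => iteratedDeriv j (gstep g (v - s) F) x
  have hGfj : ∀ j s x, G j s x = fj g F j (v - s) x := fun j s x => rfl
  have hzbd : ∀ s ∈ Icc 0 v, ∀ x, |G 3 s x / G 2 s x| ≤ Z := by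
    intro s hs x
    have h1 := (hgood s hs).adm.r3 x
    have h2 := (hgood s hs).adm.pos x
    rw [abs_div, abs_of_pos h2, div_le_iff₀ h2]
    exact h1.trans (mul_le_mul_of_nonneg_right (hCs s hs) h2.le)
  have hKbd : ∀ s ∈ Icc 0 v, ∀ x, |1 / (τ + s) - iteratedDeriv 2 (Lh τ L s) x| ≤ 1 / τ + C2 := by
    intro s hs x
    refine (abs_sub _ _).trans (add_le_add ?_ (hC2 s hs x))
    have : 0 ≤ s := hs.1
    rw [abs_of_nonneg (by positivity)]
    exact fwd_inv_le hτ hs.1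
  have hGs : ∀ s ∈ Ioo 0 v, ∀ (j : ℕ) (x d : ℝ), HasDerivAt (fun u => fj g F j u x) d (v - s) →
      HasDerivAt (fun s => G j s x) (-d) s := by
    intro s hs j x d h
    have h1 : HasDerivAt (fun s : ℝ => v - s) (-1) s := by
      simpa using (hasDerivAt_id s).const_sub v
    have h2 := HasDerivAt.comp s h h1
    exact h2.congr_deriv (by ring)
  have hGx : ∀ s (j : ℕ) (x : ℝ), HasDerivAt (fun x => G j s x) (G (j + 1) s x) x := by
    intro s j x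
    exact fj_x hF.adm.smb hg j (v - s) x
  have hGc : ∀ j, Continuous (fun p : ℝ × ℝ => G j p.1 p.2) := by
    intro j
    have h1 : Continuous (fun p : ℝ × ℝ => fj g F j (v - p.1) p.2) :=
      (fj_cont hF.adm.smb hg j).comp ((continuous_const.sub continuous_fst).prodMk continuous_snd)
    exact h1
  refine maxw_half (a := 0)
    (B := 2 * Z + C1 + g * (Z * D1) + (C3 * D2 + (1 / τ + C2) * D3)) hv
    (w := fun s x => -iteratedDeriv 3 (Lh τ L s) x * G 2 s x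
      - (1 / (τ + s) - iteratedDeriv 2 (Lh τ L s) x) * G 3 s x)
    (ws := fun s x => ((1 / 2 * -iteratedDeriv 5 (Lh τ L s) x
        - 3 * (1 / (τ + s) - iteratedDeriv 2 (Lh τ L s) x) * -iteratedDeriv 3 (Lh τ L s) x
        - (x / (τ + s) - iteratedDeriv 1 (Lh τ L s) x) * -iteratedDeriv 4 (Lh τ L s) x) * G 2 s x
      + -iteratedDeriv 3 (Lh τ L s) x *
        -(1 / 2 * G 4 s x + g * (G 2 s x ^ 2 + G 1 s x * G 3 s x)))
      - ((1 / 2 * -iteratedDeriv 4 (Lh τ L s) x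
        - (1 / (τ + s) - iteratedDeriv 2 (Lh τ L s) x) ^ 2
        - (x / (τ + s) - iteratedDeriv 1 (Lh τ L s) x) * -iteratedDeriv 3 (Lh τ L s) x) * G 3 s x
      + (1 / (τ + s) - iteratedDeriv 2 (Lh τ L s) x) *
        -(1 / 2 * G 5 s x + g * (3 * G 2 s x * G 3 s x + G 1 s x * G 4 s x))))
    (wx := fun s x => -iteratedDeriv 4 (Lh τ L s) x * G 2 s x
      - (1 / (τ + s) - iteratedDeriv 2 (Lh τ L s) x) * G 4 s x)
    (wxx := fun s x => -iteratedDeriv 5 (Lh τ L s) x * G 2 s x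
      + -iteratedDeriv 4 (Lh τ L s) x * G 3 s x
      - (-iteratedDeriv 3 (Lh τ L s) x * G 4 s x
        + (1 / (τ + s) - iteratedDeriv 2 (Lh τ L s) x) * G 5 s x))
    (b := fun s x => -(G 3 s x / G 2 s x) - (x / (τ + s) - iteratedDeriv 1 (Lh τ L s) x))
    (c := fun s x => -(G 3 s x / G 2 s x) *
        (g * G 1 s x - (x / (τ + s) - iteratedDeriv 1 (Lh τ L s) x)) - g * G 2 s x
        - 2 * (1 / (τ + s) - iteratedDeriv 2 (Lh τ L s) x))
    ?_ ?_ ?_ ?_ ?_ ?_ ?_ ?_ ?_ ?_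
  · refine ContinuousOn.mono ?_ (prod_mono le_rfl (subset_univ _))
    exact ((lh_cont hL hτ v 3).neg.mul (hGc 2).continuousOn).sub
      (((fwd_cont_div hτ v (fun _ => 1) continuous_const).sub (lh_cont hL hτ v 2)).mul
        (hGc 3).continuousOn)
  · intro s hs x _
    refine (abs_sub _ _).trans ?_
    rw [abs_mul, abs_mul, abs_neg]
    have h1 : |iteratedDeriv 3 (Lh τ L s) x| * |G 2 s x| ≤ C3 * D2 :=
      mul_le_mul (hC3 s hs x) (hD2 (v - s) x) (abs_nonneg _) hC3'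
    have h2 : |1 / (τ + s) - iteratedDeriv 2 (Lh τ L s) x| * |G 3 s x| ≤ (1 / τ + C2) * D3 :=
      mul_le_mul (hKbd s hs x) (hD3 (v - s) x) (abs_nonneg _) (by positivity)
    have h3 : 0 ≤ g * (Z * D1) := by positivity
    linarith
  · intro s hs x _
    have hs' : s ∈ Icc 0 v := ⟨hs.1.le, hs.2.le⟩
    have hvs : 0 < v - s := by linarith [hs.2]
    exact ((lh_s3 hL hτ hs.1 x).mul (hGs s hs 2 x _ (fj_s2 hF.adm.smb hg hvs x))).sub
      ((lh_s2 hL hτ hs.1 x).mul (hGs s hs 3 x _ (fj_s3 hF.adm.smb hg hvs x)))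
  · intro s hs x _
    have h1 := ((lh_x hL hτ hs.1.le 3 x).neg.mul (hGx s 2 x)).sub
      (((lh_x hL hτ hs.1.le 2 x).const_sub (1 / (τ + s))).mul (hGx s 3 x))
    refine h1.congr_deriv ?_
    simp only [Pi.neg_apply, Nat.reduceAdd]
    ring
  · intro s hs x _
    have h1 := ((lh_x hL hτ hs.1.le 4 x).neg.mul (hGx s 2 x)).sub
      (((lh_x hL hτ hs.1.le 2 x).const_sub (1 / (τ + s))).mul (hGx s 4 x))
    exact h1.congr_deriv (by simp only [Pi.neg_apply, Nat.reduceAdd])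
  · intro s hs x hx
    have hs' : s ∈ Icc 0 v := ⟨hs.1.le, hs.2.le⟩
    have h1 := fwd_drift (x := x) hτ hs.1.le (hC1 s hs' x)
    have h2 := (abs_le.1 (hzbd s hs' x)).1
    have h3 : -(G 3 s x / G 2 s x) * (2 * x) ≤ Z * (1 + x ^ 2) := by
      have h4 : -(G 3 s x / G 2 s x) * (2 * x) ≤ Z * (2 * x) :=
        mul_le_mul_of_nonneg_right (by linarith) (by linarith)
      refine h4.trans (mul_le_mul_of_nonneg_left ?_ hZ0)
      nlinarith [sq_nonneg (x - 1)]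
    have h5 : (-(G 3 s x / G 2 s x) - (x / (τ + s) - iteratedDeriv 1 (Lh τ L s) x)) * (2 * x)
        ≤ (Z + C1) * (1 + x ^ 2) := by
      have : (-(G 3 s x / G 2 s x) - (x / (τ + s) - iteratedDeriv 1 (Lh τ L s) x)) * (2 * x) =
        -(G 3 s x / G 2 s x) * (2 * x) +
          -(x / (τ + s) - iteratedDeriv 1 (Lh τ L s) x) * (2 * x) := by ring
      rw [this]
      linarith
    refine h5.trans (mul_le_mul_of_nonneg_right ?_ (by positivity))
    have h6 : 0 ≤ g * (Z * D1) := by positivity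
    have h7 : 0 ≤ C3 * D2 + (1 / τ + C2) * D3 := by positivity
    linarith
  · intro s hs x hx
    have hs' : s ∈ Icc 0 v := ⟨hs.1.le, hs.2.le⟩
    have hG := hgood s hs'
    have h2 : 0 < G 2 s x := hG.adm.pos x
    have h3 : G 3 s x ≤ 0 := hG.d3_nonpos hg hx.le
    have hz : 0 ≤ -(G 3 s x / G 2 s x) := by
      rw [neg_nonneg]
      exact div_nonpos_of_nonpos_of_nonneg h3 h2.le
    have hz2 : -(G 3 s x / G 2 s x) ≤ Z := by linarith [(abs_le.1 (hzbd s hs' x)).1]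
    have hW : 0 ≤ x / (τ + s) - iteratedDeriv 1 (Lh τ L s) x := by
      have hmono : Monotone (fun y => y / (τ + s) - iteratedDeriv 1 (Lh τ L s) y) := by
        have hd : ∀ y, HasDerivAt (fun y => y / (τ + s) - iteratedDeriv 1 (Lh τ L s) y)
            (1 / (τ + s) - iteratedDeriv 2 (Lh τ L s) y) y := fun y =>
          ((hasDerivAt_id y).div_const (τ + s)).sub (lh_x hL hτ hs.1.le 1 y)
        refine monotone_of_deriv_nonneg (fun y => (hd y).differentiableAt) fun y => ?_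
        rw [(hd y).deriv]
        exact hK s hs' y
      have h1 := hmono hx.le
      simp only [zero_div, fwd_odd1 (lh_even he τ s), sub_zero] at h1
      exact h1
    have hK' := hK s hs' x
    have h4 : -(G 3 s x / G 2 s x) * (g * G 1 s x) ≤ g * (Z * D1) := by
      have h5 : G 1 s x ≤ D1 := (le_abs_self _).trans (hD1 (v - s) x)
      have h6 : g * G 1 s x ≤ g * D1 := mul_le_mul_of_nonneg_left h5 hg.le
      calc -(G 3 s x / G 2 s x) * (g * G 1 s x) ≤ -(G 3 s x / G 2 s x) * (g * D1) :=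
            mul_le_mul_of_nonneg_left h6 hz
        _ ≤ Z * (g * D1) := mul_le_mul_of_nonneg_right hz2 (by positivity)
        _ = g * (Z * D1) := by ring
    have h7 : 0 ≤ -(G 3 s x / G 2 s x) * (x / (τ + s) - iteratedDeriv 1 (Lh τ L s) x) :=
      mul_nonneg hz hW
    have h8 : 0 ≤ g * G 2 s x := by positivity
    have h9 : 0 ≤ C3 * D2 + (1 / τ + C2) * D3 := by positivity
    nlinarith [h4, h7, h8, h9, hK', hZ0, hC1']
  · intro s hs x hx
    have hs' : s ∈ Icc 0 v := ⟨hs.1.le, hs.2.le⟩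
    have hG := hgood s hs'
    have h2 : 0 < G 2 s x := hG.adm.pos x
    have h3 : G 3 s x ≤ 0 := hG.d3_nonpos hg hx.le
    have hz : 0 ≤ -(G 3 s x / G 2 s x) := by
      rw [neg_nonneg]
      exact div_nonpos_of_nonpos_of_nonneg h3 h2.le
    have hbet : 0 ≤ bet g (gstep g (v - s) F) x := hG.bet_nonneg x
    have hY : 0 ≤ Yf g (gstep g (v - s) F) x := hG.Yf_nonneg hg hx.le
    have hbp := hG.betp_le x hx.le
    have hW : 0 ≤ x / (τ + s) - iteratedDeriv 1 (Lh τ L s) x := by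
      have hmono : Monotone (fun y => y / (τ + s) - iteratedDeriv 1 (Lh τ L s) y) := by
        have hd : ∀ y, HasDerivAt (fun y => y / (τ + s) - iteratedDeriv 1 (Lh τ L s) y)
            (1 / (τ + s) - iteratedDeriv 2 (Lh τ L s) y) y := fun y =>
          ((hasDerivAt_id y).div_const (τ + s)).sub (lh_x hL hτ hs.1.le 1 y)
        refine monotone_of_deriv_nonneg (fun y => (hd y).differentiableAt) fun y => ?_
        rw [(hd y).deriv]
        exact hK s hs' y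
      have h1 := hmono hx.le
      simp only [zero_div, fwd_odd1 (lh_even he τ s), sub_zero] at h1
      exact h1
    have hK' := hK s hs' x
    have hK3 := hK1 s hs' x hx.le
    exact fwd_pde hg h2 h3 hbet hY hbp hW hK' (neg_nonpos.2 hK3)
  · intro x hx
    have h1 := h0 x hx
    simp only [G, lh_zero hτ, add_zero, sub_zero]
    exact h1
  · intro s hs
    have hG := hgood s hs
    have h3 : G 3 s 0 = 0 := fwd_odd3 hG.adm.even
    rw [fwd_odd3 (lh_even he τ s), h3]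
    simp

theorem fw_step (hF : Good g C F) (hg : 0 < g) (hg1 : g ≤ 1) (hv : 0 ≤ v)
    (h : Fw τ L (gstep g v F)) :
    ∀ s ∈ Icc 0 v, Fw (τ + s) (Lh τ L s) (gstep g (v - s) F) := by
  intro s hs
  rcases eq_or_lt_of_le hv with hv0 | hv0
  · have hs0 : s = 0 := le_antisymm (by linarith [hs.2]) hs.1
    subst hs0
    rw [lh_zero h.tau, add_zero, sub_zero]
    exact h
  · have hK := fw_K0 h.smb h.tau hv0 h.K0
    have hK1 := fw_K1 h.smb h.even h.tau hv0 h.K1 hK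
    have hR := fw_R1 hF hg hg1 h.smb h.even h.tau hv0 h.R1 hK hK1
    exact ⟨by linarith [h.tau, hs.1], lh_smb h.smb h.tau hs.1, lh_even h.even τ s, hK s hs,
      hK1 s hs, hR s hs⟩

end FWD

end Vale.Agent.P367.Cl
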