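import Vale.Agent.P367.Cl.FDefs
import Vale.Agent.P367.Cl.FLh
import Vale.Agent.P367.Cl.FFwd
import Vale.Agent.P367.Cl.FCint

/-!
# P367, classical half, FRep: the averages as integrals against explicit densities
-/

open MeasureTheory ProbabilityTheory Filter Topology Set

set_option linter.unusedVariables false

namespace Vale.Agent.P367.Cl

open Vale.Agent.P157.Par
open Vale.Agent.P146.Gap
open Vale.Agent.P146.Pw2

/-! ### Gaussian integrals against explicit weights -/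

theorem rep_neg (h : ℝ → ℝ) :
    ∫ z, h (-z) ∂(gaussianReal 0 1) = ∫ z, h z ∂(gaussianReal 0 1) := by
  have h1 : (gaussianReal 0 1).map (fun z : ℝ => -z) = gaussianReal 0 1 := by
    rw [gaussianReal_map_neg, neg_zero]
  have h2 : MeasurableEmbedding (fun z : ℝ => -z) := (Homeomorph.neg ℝ).measurableEmbedding
  conv_rhs => rw [← h1]
  rw [h2.integral_map]

theorem rep_dens {s : ℝ} (hs : 0 < s) (f : ℝ → ℝ) :
    ∫ z, f (√s * z) ∂(gaussianReal 0 1) =
      (√(2 * Real.pi * s))⁻¹ * ∫ x, f x * Real.exp (-(x ^ 2 / (2 * s))) := by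
  have h0 : 0 < √s := Real.sqrt_pos.2 hs
  rw [integral_gaussianReal_eq_integral_smul one_ne_zero]
  have h1 := Measure.integral_comp_mul_left (fun y : ℝ =>
    gaussianPDFReal 0 1 (y / √s) * f y) (√s)
  have h2 : ∀ z : ℝ, √s * z / √s = z := fun z => by field_simp
  simp only [h2] at h1
  simp only [smul_eq_mul]
  rw [h1, abs_of_pos (inv_pos.2 h0), smul_eq_mul, ← integral_const_mul, ← integral_const_mul]
  congr 1
  funext y
  unfold gaussianPDFReal
  have h3 : √(2 * Real.pi * s) = √(2 * Real.pi) * √s := Real.sqrt_mul (by positivity) s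
  have h4 : (y / √s - 0) ^ 2 = y ^ 2 / s := by
    rw [sub_zero, div_pow, Real.sq_sqrt hs.le]
  rw [h3, h4]
  simp only [NNReal.coe_one, mul_one, mul_inv]
  have h5 : -(y ^ 2 / s) / 2 = -(y ^ 2 / (2 * s)) := by
    field_simp
  rw [h5]
  ring

theorem rep_exp_bd {τ a b : ℝ} (hτ : 0 < τ) (x : ℝ) :
    Real.exp (a + b * |x| - x ^ 2 / (2 * τ)) ≤
      Real.exp (a + b ^ 2 * τ) * Real.exp (-(1 / (4 * τ)) * x ^ 2) := by
  rw [← Real.exp_add]
  apply Real.exp_le_exp.mpr
  have h3 : 0 ≤ (|x| - 2 * τ * b) ^ 2 / (4 * τ) := by positivity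
  have h4 : (|x| - 2 * τ * b) ^ 2 / (4 * τ) = x ^ 2 / (4 * τ) + b ^ 2 * τ - b * |x| := by
    field_simp
    rw [← sq_abs x]
    ring
  have h5 : x ^ 2 / (2 * τ) = 2 * (x ^ 2 / (4 * τ)) := by
    field_simp
    norm_num
  have h6 : -(1 / (4 * τ)) * x ^ 2 = -(x ^ 2 / (4 * τ)) := by ring
  linarith

theorem rep_exp_int {τ : ℝ} (hτ : 0 < τ) (a b : ℝ) :
    Integrable (fun x : ℝ => Real.exp (a + b * |x| - x ^ 2 / (2 * τ))) := by
  refine Integrable.mono' (g := fun x => Real.exp (a + b ^ 2 * τ)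
    * Real.exp (-(1 / (4 * τ)) * x ^ 2)) ?_
    (by fun_prop : Continuous fun x : ℝ =>
      Real.exp (a + b * |x| - x ^ 2 / (2 * τ))).aestronglyMeasurable (ae_of_all _ fun x => ?_)
  · exact (integrable_exp_neg_mul_sq (by positivity)).const_mul _
  · rw [Real.norm_eq_abs, abs_of_pos (Real.exp_pos _)]
    exact rep_exp_bd hτ x

theorem rep_gexp_abs (t : ℝ) :
    Integrable (fun z : ℝ => Real.exp (t * |z|)) (gaussianReal 0 1) := by
  have h1 : Integrable (fun z : ℝ => Real.exp (t * z) + Real.exp (-t * z)) (gaussianReal 0 1) :=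
    (integrable_exp_mul_gaussianReal t).add (integrable_exp_mul_gaussianReal (-t))
  refine h1.mono' (by fun_prop : Continuous fun z : ℝ =>
    Real.exp (t * |z|)).aestronglyMeasurable (ae_of_all _ fun z => ?_)
  rw [Real.norm_eq_abs, abs_of_pos (Real.exp_pos _)]
  rcases abs_cases z with ⟨h, -⟩ | ⟨h, -⟩
  · rw [h]
    exact le_add_of_nonneg_right (Real.exp_pos _).le
  · rw [h, mul_neg, ← neg_mul]
    exact le_add_of_nonneg_left (Real.exp_pos _).le

/-- Fubini. -/
theorem rep_fubini {τ a b c C : ℝ} (hτ : 0 < τ) (s : ℝ) {A B : ℝ → ℝ} (hA : Continuous A)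
    (hB : Continuous B) (hA' : ∀ x, |A x| ≤ Real.exp (a + b * |x| - x ^ 2 / (2 * τ)))
    (hc : 0 ≤ c) (hB' : ∀ x, |B x| ≤ C * Real.exp (c * |x|)) :
    ∫ x, A x * ∫ z, B (x + √s * z) ∂(gaussianReal 0 1) =
      ∫ y, B y * ∫ z, A (y + √s * z) ∂(gaussianReal 0 1) := by
  have hC : 0 ≤ C := by
    have := (abs_nonneg _).trans (hB' 0)
    rwa [abs_zero, mul_zero, Real.exp_zero, mul_one] at this
  -- the first integrability
  have i1 : Integrable (fun p : ℝ × ℝ => A p.2 * B (p.2 + √s * p.1))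
      ((gaussianReal 0 1).prod volume) := by
    have h1 : Integrable (fun p : ℝ × ℝ => C * Real.exp (c * √s * |p.1|) *
        Real.exp (a + (b + c) * |p.2| - p.2 ^ 2 / (2 * τ)))
        ((gaussianReal 0 1).prod volume) :=
      ((rep_gexp_abs (c * √s)).const_mul C).mul_prod (rep_exp_int hτ a (b + c))
    refine h1.mono' (by fun_prop : Continuous fun p : ℝ × ℝ =>
      A p.2 * B (p.2 + √s * p.1)).aestronglyMeasurable (ae_of_all _ fun p => ?_)
    rw [Real.norm_eq_abs, abs_mul]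
    have h2 : Real.exp (c * |p.2 + √s * p.1|) ≤
        Real.exp (c * |p.2|) * Real.exp (c * √s * |p.1|) := by
      rw [← Real.exp_add]
      apply Real.exp_le_exp.mpr
      have h3 := abs_add_le p.2 (√s * p.1)
      rw [abs_mul, abs_of_nonneg (Real.sqrt_nonneg s)] at h3
      nlinarith [mul_le_mul_of_nonneg_left h3 hc]
    calc |A p.2| * |B (p.2 + √s * p.1)|
        ≤ Real.exp (a + b * |p.2| - p.2 ^ 2 / (2 * τ)) *
          (C * (Real.exp (c * |p.2|) * Real.exp (c * √s * |p.1|))) :=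
          mul_le_mul (hA' _) ((hB' _).trans (mul_le_mul_of_nonneg_left h2 hC)) (abs_nonneg _)
            (Real.exp_pos _).le
      _ = C * Real.exp (c * √s * |p.1|) *
          (Real.exp (a + b * |p.2| - p.2 ^ 2 / (2 * τ)) * Real.exp (c * |p.2|)) := by ring
      _ = _ := by
          rw [← Real.exp_add]
          congr 2
          ring
  have i2 : Integrable (fun p : ℝ × ℝ => A (p.2 - √s * p.1) * B p.2)
      ((gaussianReal 0 1).prod volume) := by
    rw [integrable_prod_iff (by fun_prop : Continuous fun p : ℝ × ℝ =>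
      A (p.2 - √s * p.1) * B p.2).aestronglyMeasurable]
    obtain ⟨h1, h2⟩ := (integrable_prod_iff (by fun_prop : Continuous fun p : ℝ × ℝ =>
      A p.2 * B (p.2 + √s * p.1)).aestronglyMeasurable).1 i1
    have h3 : ∀ z y : ℝ, A (y - √s * z) * B y =
        A (y - √s * z) * B ((y - √s * z) + √s * z) := fun z y => by rw [sub_add_cancel]
    constructor
    · filter_upwards [h1] with z hz
      have h4 := hz.comp_sub_right (√s * z)
      refine h4.congr (ae_of_all _ fun y => ?_)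
      simp only
      rw [sub_add_cancel]
    · refine h2.congr (ae_of_all _ fun z => ?_)
      simp only
      have h4 := integral_sub_right_eq_self (μ := volume) (fun x : ℝ => ‖A x * B (x + √s * z)‖) (√s * z)
      rw [← h4]
      congr 1
      funext y
      rw [sub_add_cancel]
  have e1 : ∫ x, A x * ∫ z, B (x + √s * z) ∂(gaussianReal 0 1) =
      ∫ z, (∫ x, A x * B (x + √s * z)) ∂(gaussianReal 0 1) := by
    have h1 := integral_integral_swap (f := fun (z x : ℝ) => A x * B (x + √s * z)) i1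
    rw [h1]
    congr 1
    funext x
    rw [integral_const_mul]
  have e2 : ∀ z : ℝ, ∫ x, A x * B (x + √s * z) = ∫ y, A (y - √s * z) * B y := by
    intro z
    have h4 := integral_sub_right_eq_self (μ := volume) (fun x : ℝ => A x * B (x + √s * z)) (√s * z)
    rw [← h4]
    congr 1
    funext y
    rw [sub_add_cancel]
  rw [e1]
  simp only [e2]
  have h1 := integral_integral_swap (f := fun (z x : ℝ) => A (x - √s * z) * B x) i2
  rw [h1]
  congr 1
  funext y
  have h2 := rep_neg (fun z => A (y + √s * z))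
  rw [← h2, mul_comm, ← integral_mul_const]
  congr 1
  funext z
  rw [mul_neg, ← sub_eq_add_neg]


section REP

variable {g C τ s : ℝ} {L G ψ : ℝ → ℝ} {n l : ℕ} {m r : ℕ → ℝ}

theorem rep_smb_lip (hL : SmB L) : ∃ K : ℝ, 0 ≤ K ∧ ∀ x, |L x| ≤ |L 0| + K * |x| := by
  obtain ⟨K, hK⟩ := hL.bd 0
  refine ⟨K, (abs_nonneg _).trans (hK 0), fun x => ?_⟩
  have h2 := Convex.norm_image_sub_le_of_norm_hasDerivWithin_le (f := L)
    (f' := iteratedDeriv 1 L) (s := univ) (C := K) (x := 0) (y := x)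
    (fun y _ => (by
      have := cint_hasDerivAt hL.smooth 0 y
      rw [iteratedDeriv_zero] at this
      exact this.hasDerivWithinAt)) (fun y _ => hK y) convex_univ (mem_univ _) (mem_univ _)
  rw [Real.norm_eq_abs, Real.norm_eq_abs, sub_zero] at h2
  have h3 := abs_sub_abs_le_abs_sub (L x) (L 0)
  linarith

theorem wgt_integrable (hL : SmB L) (hG : Adm C G) (g : ℝ) (hτ : 0 < τ) (hψ : Sp7Cb ψ) :
    Integrable (fun x => wgt τ g L G x * ψ x) := by
  obtain ⟨K, -, hK⟩ := rep_smb_lip hL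
  obtain ⟨hc, M, hM⟩ := hψ
  have hLc : Continuous L := hL.smooth.continuous
  have hGc : Continuous G := hG.smb.smooth.continuous
  refine Integrable.mono' (g := fun x => Real.exp ((|L 0| + |g| * |G 0|) + (K + |g|) * |x|
    - x ^ 2 / (2 * τ)) * M) ((rep_exp_int hτ _ _).mul_const M)
    (by unfold wgt; fun_prop : Continuous fun x => wgt τ g L G x * ψ x).aestronglyMeasurable
    (ae_of_all _ fun x => ?_)
  rw [Real.norm_eq_abs, abs_mul]
  refine mul_le_mul ?_ (hM x) (abs_nonneg _) (Real.exp_pos _).le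
  unfold wgt
  rw [abs_of_pos (Real.exp_pos _)]
  apply Real.exp_le_exp.mpr
  have h1 := (le_abs_self _).trans (hK x)
  have h2 : g * G x ≤ |g| * (|G 0| + |x|) := by
    refine (le_abs_self _).trans ?_
    rw [abs_mul]
    exact mul_le_mul_of_nonneg_left (cint_lip hG x) (abs_nonneg g)
  linarith

/-- Fubini and `lh_heat`. -/
theorem rep_heat (hL : SmB L) (hG : Adm C G) (hg : 0 < g) (hτ : 0 < τ) (hs : 0 ≤ s)
    (hψ : Sp7Cb ψ) : ∫ x, wgt τ g L (gstep g s G) x * tlt g s G ψ x =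
      √(τ / (τ + s)) * ∫ x, wgt (τ + s) g (Lh τ L s) G x * ψ x := by
  obtain ⟨K, -, hK⟩ := rep_smb_lip hL
  obtain ⟨hc, M, hM⟩ := hψ
  have hLc : Continuous L := hL.smooth.continuous
  have hGc : Continuous G := hG.smb.smooth.continuous
  have h1 := rep_fubini (τ := τ) (a := |L 0|) (b := K) (c := g) (C := M * Real.exp (g * |G 0|)) hτ s
    (A := fun x => Real.exp (L x - x ^ 2 / (2 * τ))) (B := fun y => ψ y * Real.exp (g * G y))
    (by fun_prop) (by fun_prop) (fun x => by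
      rw [abs_of_pos (Real.exp_pos _)]
      apply Real.exp_le_exp.mpr
      have := (le_abs_self _).trans (hK x)
      linarith) hg.le (fun x => by
      rw [abs_mul, abs_of_pos (Real.exp_pos _), mul_assoc, ← Real.exp_add]
      refine mul_le_mul (hM x) (Real.exp_le_exp.mpr ?_) (Real.exp_pos _).le
        ((abs_nonneg _).trans (hM 0))
      have := mul_le_mul_of_nonneg_left ((le_abs_self _).trans (cint_lip hG x)) hg.le
      linarith)
  have e1 : ∀ x, wgt τ g L (gstep g s G) x * tlt g s G ψ x = Real.exp (L x - x ^ 2 / (2 * τ)) *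
      ∫ z, ψ (x + √s * z) * Real.exp (g * G (x + √s * z)) ∂(gaussianReal 0 1) := by
    intro x
    have h2 := (adm_ec hG).sm.int_exp_pos g s x
    unfold wgt gstep tlt
    rw [← mul_assoc, mul_one_div, div_self hg.ne', one_mul, Real.exp_add, Real.exp_log h2]
    field_simp
  have e2 : ∀ y, ψ y * Real.exp (g * G y) *
      ∫ z, Real.exp (L (y + √s * z) - (y + √s * z) ^ 2 / (2 * τ)) ∂(gaussianReal 0 1) =
      √(τ / (τ + s)) * (wgt (τ + s) g (Lh τ L s) G y * ψ y) := by
    intro y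
    rw [lh_heat hL hτ hs y]
    unfold wgt
    rw [Real.exp_add]
    ring
  simp only [e1]
  rw [h1]
  simp only [e2]
  rw [integral_const_mul]

theorem rep_start (hG : Adm C G) (hg : 0 < g) (hs : 0 < s) : ∃ c : ℝ, 0 < c ∧
    ∀ ψ, Sp7Cb ψ → tlt g s G ψ 0 = c * ∫ x, wgt s g (fun _ => 0) G x * ψ x := by
  have h2 := (adm_ec hG).sm.int_exp_pos g s 0
  refine ⟨(√(2 * Real.pi * s))⁻¹ / ∫ z, Real.exp (g * G (0 + √s * z)) ∂(gaussianReal 0 1),
    by positivity, fun ψ _ => ?_⟩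
  unfold tlt
  simp only [zero_add]
  rw [rep_dens hs (fun x => ψ x * Real.exp (g * G x)), div_mul_eq_mul_div]
  congr 2
  congr 1
  funext x
  unfold wgt
  rw [Real.exp_add, zero_sub]
  ring

theorem rep_tlt_zero (g : ℝ) (F ψ : ℝ → ℝ) : tlt g 0 F ψ = ψ := by
  funext x
  unfold tlt
  simp

theorem rep_r_zero (hr : Path n r) (h0 : r 0 = 0) (hl : l ≤ n) (hrl : r l = 0) {i : ℕ}
    (hi : i ≤ l) : r i = 0 :=
  le_antisymm (hrl ▸ gapn_path_le hr hi hl) (h0 ▸ gapn_path_le hr (Nat.zero_le i) (hi.trans hl))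

theorem rep_r_nonneg (hr : Path n r) (hl : l ≤ n) : 0 ≤ r l :=
  hr.1.trans (gapn_path_le hr (Nat.zero_le l) hl)

theorem rep_zero (hm : Exponents n m) (hr : Path n r) (h0 : r 0 = 0) (hl : l ≤ n) (hrl : r l = 0)
    (hψ : Sp7Cb ψ) : Ee n m r l ψ = ψ 0 := by
  clear hψ
  induction l generalizing ψ with
  | zero => exact ee_zero h0 ψ
  | succ l ih =>
    have h1 := rep_r_zero hr h0 hl hrl (Nat.le_succ l)
    rw [ee_succ hl, hrl, h1, sub_zero, rep_tlt_zero]
    exact ih (by omega) h1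

/-- the functions of the block `(l, l + 1)` -/
theorem rep_good (hm : Exponents n m) (hr : Path n r) (hl : l < n) :
    ∃ C, Good (m (l + 1)) C (Fl n m r (l + 1)) := by
  obtain ⟨C, hC⟩ := fl_good hm hr (l := l + 1) hl
  exact ⟨C, hC.lower (gapn_exp_pos hm (by omega) (by omega)) (hm.2.2 (l + 1) hl).le⟩

theorem rep_good_gb (hm : Exponents n m) (hr : Path n r) (hl : l < n) {t : ℝ}
    (ht : t ∈ Icc 0 (r (l + 1) - r l)) : ∃ C, Good (m (l + 1)) C (Gb n m r l t) := by
  obtain ⟨C, hC⟩ := rep_good hm hr hl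
  obtain ⟨g0, g1⟩ := sp7_exp_of hm l hl
  exact ⟨_, hC.step g0 le_rfl g1 (sub_nonneg.2 ht.2)⟩

theorem fw_ld (hm : Exponents n m) (hr : Path n r) (hl : l ≤ n) (hrl : 0 < r l)
    (h0 : r 0 = 0) : Fw (r l) (Ld n m r l) (Fl n m r l) := by
  induction l with
  | zero => exact absurd h0 hrl.ne'
  | succ l ih =>
    obtain ⟨C, hC⟩ := rep_good hm hr hl
    obtain ⟨g0, g1⟩ := sp7_exp_of hm l hl
    by_cases h : r l ≤ 0
    · have e : Ld n m r (l + 1) = fun _ => 0 := by
        unfold Ld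
        rw [if_pos h]
      rw [e]
      exact fw_base hC g0 hrl
    · push Not at h
      have hv : 0 ≤ r (l + 1) - r l := sub_nonneg.2 (hr.2 l hl)
      obtain ⟨C', hC'⟩ := fl_good hm hr (Nat.le_of_succ_le hl)
      have h1 := (ih (Nat.le_of_succ_le hl) h).level hC' g0
        (δ := m (l + 1) - m l) (sub_nonneg.2 (hm.2.2 l (Nat.le_of_succ_le hl)).le)
      rw [fl_succ hl] at h1
      have h2 := fw_step hC g0 g1 hv h1 _ (right_mem_Icc.2 hv)
      rw [sub_self, gstep_zero g0.ne', add_sub_cancel, ← fl_succ hl] at h2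
      have e : Ld n m r (l + 1) =
          Lh (r l) (fun x => Ld n m r l x - (m (l + 1) - m l) * Fl n m r l x)
            (r (l + 1) - r l) := by
        conv_lhs => unfold Ld
        rw [if_neg (not_le.2 h)]
      rw [e]
      exact h2

theorem rep_wgt_lu (x : ℝ) (τ : ℝ) (G : ℝ → ℝ) (h : G = Fl n m r l) :
    wgt τ (m l) (Ld n m r l) (Fl n m r l) x = wgt τ (m (l + 1)) (Lu n m r l) G x := by
  unfold wgt Lu
  rw [h]
  congr 1
  ring

theorem rep (hm : Exponents n m) (hr : Path n r) (h0 : r 0 = 0) (hl : l ≤ n) (hrl : 0 < r l) :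
    ∃ c : ℝ, 0 < c ∧ ∀ ψ, Sp7Cb ψ →
      Ee n m r l ψ = c * ∫ x, wgt (r l) (m l) (Ld n m r l) (Fl n m r l) x * ψ x := by
  induction l with
  | zero => exact absurd h0 hrl.ne'
  | succ l ih =>
    obtain ⟨C, hC⟩ := rep_good hm hr hl
    obtain ⟨g0, g1⟩ := sp7_exp_of hm l hl
    by_cases h : r l ≤ 0
    · have e : Ld n m r (l + 1) = fun _ => 0 := by
        unfold Ld
        rw [if_pos h]
      have h1 : r l = 0 := le_antisymm h (rep_r_nonneg hr (Nat.le_of_succ_le hl))
      obtain ⟨c, hc, hcc⟩ := rep_start hC.adm g0 hrl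
      refine ⟨c, hc, fun ψ hψ => ?_⟩
      rw [ee_succ hl, rep_zero hm hr h0 (Nat.le_of_succ_le hl) h1
        (sp7_cb_tlt (adm_ec hC.adm) hψ _ _), h1, sub_zero, e]
      exact hcc ψ hψ
    · push Not at h
      have hv : 0 ≤ r (l + 1) - r l := sub_nonneg.2 (hr.2 l hl)
      obtain ⟨c, hc, hcc⟩ := ih (Nat.le_of_succ_le hl) h
      have e : Ld n m r (l + 1) =
          Lh (r l) (Lu n m r l) (r (l + 1) - r l) := by
        conv_lhs => unfold Ld
        rw [if_neg (not_le.2 h)]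
        rfl
      have hL : SmB (Lu n m r l) := by
        obtain ⟨C', hC'⟩ := fl_good hm hr (Nat.le_of_succ_le hl)
        exact ((fw_ld hm hr (Nat.le_of_succ_le hl) h h0).level hC' g0
          (sub_nonneg.2 (hm.2.2 l (Nat.le_of_succ_le hl)).le)).smb
      refine ⟨c * √(r l / (r l + (r (l + 1) - r l))), mul_pos hc (Real.sqrt_pos.2 (by positivity)),
        fun ψ hψ => ?_⟩
      rw [ee_succ hl, hcc _ (sp7_cb_tlt (adm_ec hC.adm) hψ _ _)]
      simp only [rep_wgt_lu (n := n) (m := m) (r := r) (l := l) _ (r l) _ (fl_succ hl).symm]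
      rw [rep_heat hL hC.adm g0 h hv hψ, e, ← mul_assoc, add_sub_cancel]

theorem rep_block (hm : Exponents n m) (hr : Path n r) (h0 : r 0 = 0) (hl : l < n) {t : ℝ}
    (ht : t ∈ Icc 0 (r (l + 1) - r l)) (hrt : 0 < r l + t) :
    ∃ (L : ℝ → ℝ) (c : ℝ), 0 < c ∧ Fw (r l + t) L (Gb n m r l t) ∧ ∀ ψ, Sp7Cb ψ →
      Bt n m r l t ψ = c * ∫ x, wgt (r l + t) (m (l + 1)) L (Gb n m r l t) x * ψ x := by
  obtain ⟨C, hC⟩ := rep_good hm hr hl
  obtain ⟨C₂, hC₂⟩ := rep_good_gb hm hr hl ht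
  obtain ⟨g0, g1⟩ := sp7_exp_of hm l hl
  by_cases h : r l ≤ 0
  · have h1 : r l = 0 := le_antisymm h (rep_r_nonneg hr hl.le)
    rw [h1, zero_add] at hrt
    obtain ⟨c, hc, hcc⟩ := rep_start hC₂.adm g0 hrt
    refine ⟨fun _ => 0, c, hc, ?_, fun ψ hψ => ?_⟩
    · rw [h1, zero_add]
      exact fw_base hC₂ g0 hrt
    · unfold Bt
      rw [rep_zero hm hr h0 hl.le h1 (sp7_cb_tlt (adm_ec hC₂.adm) hψ _ _), h1, zero_add]
      exact hcc ψ hψ
  · push Not at h
    have hv : 0 ≤ r (l + 1) - r l := sub_nonneg.2 (hr.2 l hl)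
    obtain ⟨c, hc, hcc⟩ := rep hm hr h0 hl.le h
    obtain ⟨C', hC'⟩ := fl_good hm hr hl.le
    have hf : Fw (r l) (Lu n m r l) (Fl n m r l) :=
      (fw_ld hm hr hl.le h h0).level hC' g0 (sub_nonneg.2 (hm.2.2 l hl.le).le)
    have e1 : gstep (m (l + 1)) t (Gb n m r l t) = Fl n m r l := by
      unfold Gb
      rw [gstep_add hC.adm g0 ht.1 (sub_nonneg.2 ht.2), fl_succ hl]
      congr 1
      ring
    refine ⟨Lh (r l) (Lu n m r l) t, c * √(r l / (r l + t)),
      mul_pos hc (Real.sqrt_pos.2 (div_pos h hrt)), ?_, fun ψ hψ => ?_⟩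
    · have h2 := hf
      rw [fl_succ hl] at h2
      exact fw_step hC g0 g1 hv h2 t ht
    · unfold Bt
      rw [hcc _ (sp7_cb_tlt (adm_ec hC₂.adm) hψ _ _)]
      simp only [rep_wgt_lu (n := n) (m := m) (r := r) (l := l) _ (r l) _ e1]
      rw [rep_heat hf.smb hC₂.adm g0 h ht.1 hψ, ← mul_assoc]

theorem M2b_nonneg (hm : Exponents n m) (hr : Path n r) (h0 : r 0 = 0) (hl : l < n) {t : ℝ}
    (ht : t ∈ Icc 0 (r (l + 1) - r l)) (hrt : 0 < r l + t) : 0 ≤ M2b n m r l t := by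
  obtain ⟨L, c, hc, hf, hcc⟩ := rep_block hm hr h0 hl ht hrt
  obtain ⟨C, hC⟩ := rep_good_gb hm hr hl ht
  obtain ⟨g0, g1⟩ := sp7_exp_of hm l hl
  have hb : Sp7Cb (m2i (m (l + 1)) (Gb n m r l t)) := by
    have h2 : CintBd (iteratedDeriv 2 (Gb n m r l t)) := hC.adm.smb.bd 1
    have h3 : CintBd (iteratedDeriv 3 (Gb n m r l t)) := hC.adm.smb.bd 2
    have h4 : CintBd (iteratedDeriv 4 (Gb n m r l t)) := hC.adm.smb.bd 3
    have c2 := cint_cont hC.adm 2
    have c3 := cint_cont hC.adm 3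
    have c4 := cint_cont hC.adm 4
    refine ⟨?_, ?_⟩
    · unfold m2i
      fun_prop
    · exact (((h4.pow 2).sub ((((CintBd.const 12).mul (CintBd.const (m (l + 1)))).mul h2).mul
        (h3.pow 2))).add (((CintBd.const 6).mul ((CintBd.const (m (l + 1))).pow 2)).mul (h2.pow 4)))
  unfold M2b
  rw [hcc _ hb]
  exact mul_nonneg hc.le (cert_gen hC g0 g1 hf)

end REP

end Vale.Agent.P367.Cl
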