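import Vale.Agent.P367.Cl.FDefs

/-!
# P367, classical half, section BLK (second part): boundary values and bounds
-/

open MeasureTheory ProbabilityTheory Filter Topology Set

namespace Vale.Agent.P367.Cl

open Vale.Agent.P157.Par
open Vale.Agent.P146.Gap
open Vale.Agent.P146.Pw2

variable {n l : ℕ} {m r : ℕ → ℝ} {t : ℝ}

theorem blk2_adm (hm : Exponents n m) (hr : Path n r) (hl : l < n)
    (ht : t ∈ Icc 0 (r (l + 1) - r l)) : ∃ C, Adm C (Gb n m r l t) := by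
  obtain ⟨g0, g1⟩ := sp7_exp_of hm l hl
  exact ⟨_, (fl_aks hm hr (l := l + 1) (by omega)).adm.step g0 g1 (sub_nonneg.2 ht.2)⟩

theorem blk2_mono (hm : Exponents n m) (hr : Path n r) (hl : l < n)
    (ht : t ∈ Icc 0 (r (l + 1) - r l)) {ψ φ : ℝ → ℝ} (hψ : Sp7Cb ψ) (hφ : Sp7Cb φ)
    (h : ∀ x, ψ x ≤ φ x) : Bt n m r l t ψ ≤ Bt n m r l t φ := by
  obtain ⟨C, hG⟩ := blk2_adm hm hr hl ht
  refine ee_mono hm hr hl.le (sp7_cb_tlt (adm_ec hG) hψ _ _) (sp7_cb_tlt (adm_ec hG) hφ _ _)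
    fun x => ?_
  obtain ⟨hc, K, hK⟩ := hψ
  obtain ⟨hc', K', hK'⟩ := hφ
  exact (adm_ec hG).sm.tlt_mono hc hK hc' hK' h _ _ x

theorem blk2_const (hm : Exponents n m) (hr : Path n r) (hl : l < n)
    (ht : t ∈ Icc 0 (r (l + 1) - r l)) (c : ℝ) : Bt n m r l t (fun _ => c) = c := by
  obtain ⟨C, hG⟩ := blk2_adm hm hr hl ht
  have e : tlt (m (l + 1)) t (Gb n m r l t) (fun _ => c) = fun _ => c := by
    funext x
    exact (adm_ec hG).sm.tlt_const _ _ _ x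
  rw [Bt, e, ee_const hm hr hl.le]

/-- bounds of an average by bounds of the integrand -/
theorem blk2_bd (hm : Exponents n m) (hr : Path n r) (hl : l < n)
    (ht : t ∈ Icc 0 (r (l + 1) - r l)) {ψ : ℝ → ℝ} (hψ : Sp7Cb ψ) {a b : ℝ}
    (h : ∀ x, a ≤ ψ x ∧ ψ x ≤ b) : a ≤ Bt n m r l t ψ ∧ Bt n m r l t ψ ≤ b := by
  have h1 := blk2_mono hm hr hl ht (sp7_cb_const a) hψ (fun x => (h x).1)
  have h2 := blk2_mono hm hr hl ht hψ (sp7_cb_const b) (fun x => (h x).2)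
  rw [blk2_const hm hr hl ht] at h1 h2
  exact ⟨h1, h2⟩

theorem blk2_cb (hG : ∃ C, Adm C (Gb n m r l t)) (j : ℕ) :
    Sp7Cb (iteratedDeriv (j + 1) (Gb n m r l t)) := by
  obtain ⟨C, hG⟩ := hG
  obtain ⟨B, hB⟩ := hG.smb.bd j
  exact ⟨hG.smb.smooth.continuous_iteratedDeriv (j + 1) (by exact_mod_cast le_top), B, hB⟩

/-! ### Boundary values -/

theorem Bt_zero (ψ : ℝ → ℝ) : Bt n m r l 0 ψ = Ee n m r l ψ := by
  have e : tlt (m (l + 1)) 0 (Gb n m r l 0) ψ = ψ := by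
    funext x
    exact sp3_tlt_triv le_rfl _ _ _ _
  rw [Bt, e]

theorem Gb_zero (hl : l < n) : Gb n m r l 0 = Fl n m r l := by
  rw [Gb, sub_zero, ← fl_succ hl]

theorem Gb_last (hm : Exponents n m) (hl : l < n) :
    Gb n m r l (r (l + 1) - r l) = Fl n m r (l + 1) := by
  rw [Gb, sub_self, gstep_zero (sp7_exp_of hm l hl).1.ne']

theorem Bt_last (hm : Exponents n m) (hl : l < n) (ψ : ℝ → ℝ) :
    Bt n m r l (r (l + 1) - r l) ψ = Ee n m r (l + 1) ψ := by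
  rw [Bt, Gb_last hm hl, ee_succ hl]

theorem Rb_zero (hm : Exponents n m) (hr : Path n r) (hl : l < n) :
    Rb n m r l 0 = spR n m r l := by
  rw [Rb, Bt_zero, Gb_zero hl, spR_eq hm hr hl.le]

theorem Rb_last (hm : Exponents n m) (hr : Path n r) (hl : l < n) :
    Rb n m r l (r (l + 1) - r l) = spR n m r (l + 1) := by
  rw [Rb, Bt_last hm hl, Gb_last hm hl, spR_eq hm hr hl]

theorem Mb_zero (hm : Exponents n m) (hr : Path n r) (hl : l < n) :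
    Mb n m r l 0 = Ml n m r l := by
  rw [Mb, Bt_zero, Gb_zero hl, Ml]

theorem Mb_last (hm : Exponents n m) (hr : Path n r) (hl : l < n) :
    Mb n m r l (r (l + 1) - r l) = Ml n m r (l + 1) := by
  rw [Mb, Bt_last hm hl, Gb_last hm hl, Ml]

/-! ### Bounds -/

theorem Ab_mem (hm : Exponents n m) (hr : Path n r) (hl : l < n)
    (ht : t ∈ Icc 0 (r (l + 1) - r l)) : 0 ≤ Ab n m r l t ∧ Ab n m r l t ≤ 1 := by
  obtain ⟨C, hG⟩ := blk2_adm hm hr hl ht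
  exact blk2_bd hm hr hl ht (blk2_cb ⟨C, hG⟩ 1) fun x =>
    ⟨(vari_d2_01 hG x).1.le, (vari_d2_01 hG x).2⟩

theorem Mb_mem (hm : Exponents n m) (hr : Path n r) (hl : l < n)
    (ht : t ∈ Icc 0 (r (l + 1) - r l)) : 0 ≤ Mb n m r l t ∧ Mb n m r l t ≤ 1 := by
  obtain ⟨C, hG⟩ := blk2_adm hm hr hl ht
  exact blk2_bd hm hr hl ht (sp7_cb_sq (blk2_cb ⟨C, hG⟩ 1)) fun x =>
    ⟨sq_nonneg _, pow_le_one₀ (vari_d2_01 hG x).1.le (vari_d2_01 hG x).2⟩

theorem blk2_cb3 (hG : ∃ C, Adm C (Gb n m r l t)) (g : ℝ) :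
    Sp7Cb (fun x => iteratedDeriv 3 (Gb n m r l t) x ^ 2
      - 2 * g * iteratedDeriv 2 (Gb n m r l t) x ^ 3) := by
  have h1 := sp7_cb_add (sp7_cb_sq (blk2_cb hG 2))
    (nest_cb_smul (-(2 * g)) (nest_cb_pow (blk2_cb hG 1) 3))
  have e : (fun x => iteratedDeriv 3 (Gb n m r l t) x ^ 2
      - 2 * g * iteratedDeriv 2 (Gb n m r l t) x ^ 3) =
      fun x => iteratedDeriv (2 + 1) (Gb n m r l t) x ^ 2 +
        -(2 * g) * iteratedDeriv (1 + 1) (Gb n m r l t) x ^ 3 := by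
    funext x
    ring
  rw [e]
  exact h1

theorem M1b_low (hm : Exponents n m) (hr : Path n r) (hl : l < n)
    (ht : t ∈ Icc 0 (r (l + 1) - r l)) : -(2 * m (l + 1)) ≤ M1b n m r l t := by
  obtain ⟨C, hG⟩ := blk2_adm hm hr hl ht
  obtain ⟨g0, g1⟩ := sp7_exp_of hm l hl
  have h1 := blk2_mono hm hr hl ht (sp7_cb_const (-(2 * m (l + 1)))) (blk2_cb3 ⟨C, hG⟩ (m (l + 1)))
    (fun x => by
      have h2 := vari_d2_01 hG x
      have h3 := pow_le_one₀ (n := 3) h2.1.le h2.2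
      have h4 := mul_le_mul_of_nonneg_left h3 (show 0 ≤ 2 * m (l + 1) by linarith)
      have h5 := sq_nonneg (iteratedDeriv 3 (Gb n m r l t) x)
      linarith)
  rw [blk2_const hm hr hl ht] at h1
  exact h1

/-- (the constant of `fl_bk`) -/
theorem M1b_bd (b : ℝ) : ∃ C : ℝ, 1 ≤ C ∧ ∀ (n : ℕ) (m r : ℕ → ℝ), Exponents n m → BPath b n r →
    ∀ l < n, ∀ t ∈ Icc 0 (r (l + 1) - r l), |M1b n m r l t| ≤ C := by
  obtain ⟨K, hK1, hK⟩ := fl_bk b
  refine ⟨K ^ 2 + 2, by nlinarith, fun n m r hm hr l hl t ht => ?_⟩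
  obtain ⟨-, hB⟩ := hK n m r hm hr
  obtain ⟨g0, g1⟩ := sp7_exp_of hm l hl
  have hG : AK K (Gb n m r l t) := hB l hl (r (l + 1) - r l - t) ⟨by linarith [ht.2],
    by linarith [ht.1]⟩
  have h1 := blk2_bd hm hr.2.1 hl ht (blk2_cb3 ⟨K, hG.adm⟩ (m (l + 1)))
    (a := -(K ^ 2 + 2)) (b := K ^ 2 + 2) (fun x => by
      have h2 := vari_d2_01 hG.adm x
      have h3 := pow_le_one₀ (n := 3) h2.1.le h2.2
      have h3' := pow_nonneg h2.1.le 3
      have h4 : 2 * m (l + 1) * iteratedDeriv 2 (Gb n m r l t) x ^ 3 ≤ 2 * 1 := by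
        refine mul_le_mul (by linarith) h3 h3' (by norm_num)
      have h4' : 0 ≤ 2 * m (l + 1) * iteratedDeriv 2 (Gb n m r l t) x ^ 3 := by positivity
      have h5 := sq_nonneg (iteratedDeriv 3 (Gb n m r l t) x)
      have h6 : |iteratedDeriv 3 (Gb n m r l t) x| ≤ K :=
        (hG.k3 x).trans (mul_le_of_le_one_right (by linarith) (vari_abs1 hG.adm x))
      have h7 : iteratedDeriv 3 (Gb n m r l t) x ^ 2 ≤ K ^ 2 := by
        rw [← sq_abs]
        exact pow_le_pow_left₀ (abs_nonneg _) h6 2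
      have h8 := sq_nonneg K
      constructor <;> linarith)
  exact abs_le.2 h1

end Vale.Agent.P367.Cl
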