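import Vale.Agent.P367.Cl.EStep
import Vale.Agent.P146.Ub.GueF

/-!
# P367, classical half: Guerra's bound for the ground state
-/

open MeasureTheory ProbabilityTheory Filter Topology Set

namespace Vale.Agent.P367.Cl

open Vale.Agent.P157.Par
open Vale.Agent.P157.Lv
open Vale.Agent.P146.Gap

/-- Spins `Bool` to spins `ℤˣ`. -/
def egueU (b : Bool) : ℤˣ := if b then -1 else 1

theorem egueU_spin (b : Bool) : ((egueU b : ℤ) : ℝ) = Gap.spin b := by
  cases b <;> simp [egueU, Gap.spin]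

theorem egue_energy {N : ℕ} (J : Gap.Pair N → ℝ) (s : Gap.Conf N) :
    Vale.Agent.P146.hamiltonian N J (fun i => egueU (s i)) = Gap.skEnergy J s := by
  unfold Vale.Agent.P146.hamiltonian Gap.skEnergy
  rw [one_div]
  congr 1
  refine Finset.sum_congr rfl fun e _ => ?_
  rw [egueU_spin, egueU_spin]
  ring

theorem egue_sup_le {b : ℝ} (hb : 0 < b) {N : ℕ} (J : Gap.Pair N → ℝ) :
    b * (⨆ s : Gap.Conf N, Gap.skEnergy J s) ≤ Vale.Agent.P146.freeEnergy N b J := by
  have h1 : ∀ s : Gap.Conf N, Gap.skEnergy J s ≤ Vale.Agent.P146.freeEnergy N b J / b := by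
    intro s
    rw [le_div_iff₀ hb, mul_comm, ← egue_energy, Vale.Agent.P146.freeEnergy]
    refine (Real.le_log_iff_exp_le ?_).mpr ?_
    · exact Finset.sum_pos (fun σ _ => Real.exp_pos _) Finset.univ_nonempty
    · exact Finset.single_le_sum (f := fun σ => Real.exp (b * Vale.Agent.P146.hamiltonian N J σ))
        (fun σ _ => (Real.exp_pos _).le) (Finset.mem_univ (fun i => egueU (s i)))
  have h2 := ciSup_le h1
  rw [le_div_iff₀ hb] at h2
  linarith

theorem egue_lip {N : ℕ} (s : Gap.Conf N) : Lip (fun J : Gap.Pair N → ℝ => Gap.skEnergy J s) := by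
  unfold Gap.skEnergy
  refine Lip.const_mul (Lip.sum _ fun p _ => ?_) _
  have h := (Lip.coord p).const_mul (Gap.spin (s p.1.1) * Gap.spin (s p.1.2))
  refine (?_ : (fun y : Gap.Pair N → ℝ => y p * (Gap.spin (s p.1.1) * Gap.spin (s p.1.2))) =
    fun y => (Gap.spin (s p.1.1) * Gap.spin (s p.1.2)) * y p) ▸ h
  funext y
  ring

theorem egue_sup_eg (N : ℕ) : EG (fun J : Gap.Pair N → ℝ => ⨆ s : Gap.Conf N,
    Gap.skEnergy J s) := by
  have hg : EG (fun J : Gap.Pair N → ℝ => ∑ s : Gap.Conf N, |Gap.skEnergy J s|) :=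
    EG.sum _ fun s _ => (egue_lip s).eg.abs
  refine hg.mono (Measurable.iSup fun s => (egue_lip s).measurable) fun J => ?_
  have hb : BddAbove (Set.range fun s : Gap.Conf N => Gap.skEnergy J s) := Set.finite_range _ |>.bddAbove
  have h0 : ∀ s : Gap.Conf N, |Gap.skEnergy J s| ≤ ∑ s : Gap.Conf N, |Gap.skEnergy J s| :=
    fun s => Finset.single_le_sum (f := fun s => |Gap.skEnergy J s|) (fun s _ => abs_nonneg _)
      (Finset.mem_univ s)
  refine le_trans ?_ (le_abs_self _)
  rw [abs_le]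
  constructor
  · have h1 := le_ciSup hb (fun _ => false)
    have h2 := (abs_le.mp (h0 (fun _ => false))).1
    exact h2.trans h1
  · exact ciSup_le fun s => (le_abs_self _).trans (h0 s)

/-- Jensen's inequality. -/
theorem egue_jensen {ι : Type} [Fintype ι] {F : (ι → ℝ) → ℝ} (hF : Lip F) (x : ℝ) :
    x * ∫ g, F g ∂(gI ι) ≤ Real.log (∫ g, Real.exp (x * F g) ∂(gI ι)) := by
  have hi : Integrable (fun g => x * F g) (gI ι) := hF.eg.integrable.const_mul x
  have he : Integrable (fun g => Real.exp (x * F g)) (gI ι) := (hF.exp_eg x).integrable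
  have h1 : Real.exp (∫ g, x * F g ∂(gI ι)) ≤ ∫ g, Real.exp (x * F g) ∂(gI ι) := by
    have := convexOn_exp.map_integral_le (μ := gI ι) Real.continuous_exp.continuousOn isClosed_univ
      (Filter.Eventually.of_forall fun _ => Set.mem_univ _) hi he
    exact this
  rw [← integral_const_mul]
  refine (Real.le_log_iff_exp_le ?_).mpr h1
  exact lt_of_lt_of_le (Real.exp_pos _) h1

/-- `Gap2`-type change of variables. -/
theorem egue_SKpar {b : ℝ} (hb : 0 < b) (K : ℕ) (m r : ℕ → ℝ) :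
    SKpar b K m (fun l => r l / b ^ 2) = SKr b K m r := by
  have hb0 : b ≠ 0 := hb.ne'
  unfold SKpar SKr
  have h1 : (fun l => b ^ 2 * (r l / b ^ 2)) = r := by
    funext l
    field_simp
  rw [h1]
  have h2 : ∑ l ∈ Finset.range (K + 1), (m (l + 1) - m l) * (r l / b ^ 2) ^ 2 =
      (∑ l ∈ Finset.range (K + 1), (m (l + 1) - m l) * r l ^ 2) / b ^ 4 := by
    rw [Finset.sum_div]
    refine Finset.sum_congr rfl fun l _ => ?_
    field_simp
  rw [h2]
  field_simp
  ring

theorem ground_le {b : ℝ} (hb : 0 < b) {N K : ℕ} (hN : 1 ≤ N) {m r : ℕ → ℝ}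
    (hm : Exponents K m) (hr : BPath b K r) :
    Gap.groundValue N ≤ (SKr b K m r + Real.log 2) / b := by
  have hNR : (0 : ℝ) < N := by exact_mod_cast hN
  have hb2 : 0 < b ^ 2 := by positivity
  have hx : 0 < m 1 := by
    have := hm.2.2 0 (Nat.zero_le _)
    rw [hm.1] at this
    exact this
  have hq : Path K (fun l => r l / b ^ 2) :=
    ⟨div_nonneg hr.2.1.1 hb2.le, fun l hl => div_le_div_of_nonneg_right (hr.2.1.2 l hl) hb2.le⟩
  have hq0 : (fun l => r l / b ^ 2) 0 = 0 := by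
    show r 0 / b ^ 2 = 0
    rw [hr.1, zero_div]
  have hq1 : (fun l => r l / b ^ 2) K ≤ 1 := by
    show r K / b ^ 2 ≤ 1
    rw [div_le_one hb2]
    exact hr.2.2
  have h1 := Vale.Agent.P146.Ub.guerra hb hN hm hq hq0 hq1 hx le_rfl
  rw [egue_SKpar hb K m r] at h1
  have h2 : m 1 * ∫ g, Vale.Agent.P146.freeEnergy N b g ∂(Vale.Agent.P146.disorder N) ≤
      m 1 * N * (Real.log 2 + SKr b K m r) :=
    (egue_jensen (Vale.Agent.P146.Ub.lip_free N b) (m 1)).trans h1
  have h3 : ∫ g, Vale.Agent.P146.freeEnergy N b g ∂(Vale.Agent.P146.disorder N) ≤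
      N * (Real.log 2 + SKr b K m r) := by
    rw [mul_assoc] at h2
    exact le_of_mul_le_mul_left h2 hx
  have h4 : ∫ J, b * (⨆ s : Gap.Conf N, Gap.skEnergy J s) ∂(Gap.couplingLaw N) ≤
      ∫ g, Vale.Agent.P146.freeEnergy N b g ∂(Vale.Agent.P146.disorder N) :=
    integral_mono ((egue_sup_eg N).integrable.const_mul b)
      (Vale.Agent.P146.Ub.lip_free N b).eg.integrable (fun J => egue_sup_le hb J)
  rw [integral_const_mul] at h4
  unfold Gap.groundValue
  rw [le_div_iff₀ hb, inv_mul_eq_div, div_mul_eq_mul_div, div_le_iff₀ hNR]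
  linarith

end Vale.Agent.P367.Cl
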