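import Mathlib

open MeasureTheory ProbabilityTheory Filter Topology Set

namespace Vale.Agent.P367.Cl

/-- lower Riemann sums of a product -/
theorem riemann_low {v : ℝ} (hv : 0 ≤ v) {φ χ : ℝ → ℝ} (hφ : ContinuousOn φ (Icc 0 v))
    (hχ : ContinuousOn χ (Icc 0 v)) (hφ0 : ∀ t ∈ Icc 0 v, 0 ≤ φ t ∧ φ t ≤ 1)
    (hχ0 : ∀ t ∈ Icc 0 v, 0 ≤ χ t ∧ χ t ≤ 1) {ε : ℝ} (hε : 0 < ε) :
    ∀ᶠ J : ℕ in atTop, (∫ t in (0 : ℝ)..v, φ t * χ t) - ε ≤
      ∑ j ∈ Finset.range (J - 1), v / J * (φ (j * (v / J)) * χ ((j + 1 : ℕ) * (v / J))) := by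
  obtain ⟨η, hη, hηv⟩ : ∃ η : ℝ, 0 < η ∧ 2 * η * v ≤ ε / 2 := by
    refine ⟨ε / (4 * (v + 1)), by positivity, ?_⟩
    rw [mul_assoc, div_mul_eq_mul_div, mul_div_assoc', div_le_div_iff₀ (by positivity) (by norm_num)]
    nlinarith
  have uφ := isCompact_Icc.uniformContinuousOn_of_continuous hφ
  have uχ := isCompact_Icc.uniformContinuousOn_of_continuous hχ
  rw [Metric.uniformContinuousOn_iff] at uφ uχ
  obtain ⟨d1, hd1, k1⟩ := uφ η hη
  obtain ⟨d2, hd2, k2⟩ := uχ η hη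
  have t0 : Tendsto (fun J : ℕ => v / (J : ℝ)) atTop (𝓝 0) :=
    tendsto_const_nhds.div_atTop tendsto_natCast_atTop_atTop
  have e1 := t0.eventually (gt_mem_nhds hd1)
  have e2 := t0.eventually (gt_mem_nhds hd2)
  have e3 := t0.eventually (gt_mem_nhds (show (0 : ℝ) < ε / 2 by positivity))
  filter_upwards [e1, e2, e3, eventually_ge_atTop 1] with J h1 h2 h3 hJ
  have hJ0 : (0 : ℝ) < J := by exact_mod_cast hJ
  set h : ℝ := v / J with hh
  have hh0 : 0 ≤ h := div_nonneg hv hJ0.le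
  have hJh : (J : ℝ) * h = v := by rw [hh]; field_simp
  have hmem : ∀ j : ℕ, j ≤ J → (j : ℝ) * h ∈ Icc 0 v := by
    intro j hj
    refine ⟨by positivity, ?_⟩
    rw [← hJh]
    exact mul_le_mul_of_nonneg_right (by exact_mod_cast hj) hh0
  have hc : ContinuousOn (fun t => φ t * χ t) (Icc 0 v) := hφ.mul hχ
  have hsub : ∀ j : ℕ, j < J → Icc ((j : ℝ) * h) (((j + 1 : ℕ) : ℝ) * h) ⊆ Icc 0 v := by
    intro j hj
    exact Icc_subset_Icc (hmem j hj.le).1 (hmem (j + 1) hj).2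
  have hle : ∀ j : ℕ, (j : ℝ) * h ≤ ((j + 1 : ℕ) : ℝ) * h := by
    intro j
    refine mul_le_mul_of_nonneg_right ?_ hh0
    push_cast; linarith
  have hint : ∀ j < J, IntervalIntegrable (fun t => φ t * χ t) volume ((j : ℝ) * h)
      (((j + 1 : ℕ) : ℝ) * h) := by
    intro j hj
    refine ContinuousOn.intervalIntegrable ?_
    rw [uIcc_of_le (hle j)]
    exact hc.mono (hsub j hj)
  have hsum := intervalIntegral.sum_integral_adjacent_intervals
    (a := fun j : ℕ => (j : ℝ) * h) (n := J) (f := fun t => φ t * χ t) (μ := volume) hint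
  simp only [Nat.cast_zero, zero_mul, hJh] at hsum
  rw [← hsum]
  have hterm : ∀ j ∈ Finset.range J, (∫ t in ((j : ℝ) * h)..(((j + 1 : ℕ) : ℝ) * h), φ t * χ t) ≤
      h * (φ (j * h) * χ ((j + 1 : ℕ) * h)) + h * (2 * η) := by
    intro j hj
    have hj' : j < J := Finset.mem_range.1 hj
    have hb : ∀ t ∈ Icc ((j : ℝ) * h) (((j + 1 : ℕ) : ℝ) * h),
        φ t * χ t ≤ φ (j * h) * χ ((j + 1 : ℕ) * h) + 2 * η := by
      intro t ht
      have ht' := hsub j hj' ht
      have hdt : ((j + 1 : ℕ) : ℝ) * h - (j : ℝ) * h = h := by push_cast; ring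
      have a1 : φ t ≤ φ (j * h) + η := by
        have := k1 t ht' (j * h) (hmem j hj'.le) (by
          rw [Real.dist_eq, abs_of_nonneg (by linarith [ht.1])]
          linarith [ht.2])
        rw [Real.dist_eq] at this
        linarith [(abs_lt.1 this).2]
      have a2 : χ t ≤ χ ((j + 1 : ℕ) * h) + η := by
        have := k2 t ht' ((j + 1 : ℕ) * h) (hmem (j + 1) hj') (by
          rw [Real.dist_eq, abs_sub_comm, abs_of_nonneg (by linarith [ht.2])]
          linarith [ht.1])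
        rw [Real.dist_eq] at this
        linarith [(abs_lt.1 this).2]
      have b1 := hφ0 t ht'
      have b2 := hχ0 t ht'
      have b3 := hφ0 _ (hmem j hj'.le)
      have b4 := hχ0 _ (hmem (j + 1) hj')
      calc φ t * χ t ≤ (φ (j * h) + η) * χ t := mul_le_mul_of_nonneg_right a1 b2.1
        _ = φ (j * h) * χ t + η * χ t := by ring
        _ ≤ φ (j * h) * (χ ((j + 1 : ℕ) * h) + η) + η * 1 := by
            refine add_le_add (mul_le_mul_of_nonneg_left a2 b3.1)
              (mul_le_mul_of_nonneg_left b2.2 hη.le)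
        _ ≤ φ (j * h) * χ ((j + 1 : ℕ) * h) + 2 * η := by nlinarith [b3.2]
    have := intervalIntegral.integral_mono_on (hle j) (hint j hj')
      (intervalIntegrable_const (c := φ (j * h) * χ ((j + 1 : ℕ) * h) + 2 * η)) hb
    rw [intervalIntegral.integral_const, smul_eq_mul] at this
    refine this.trans (le_of_eq ?_)
    push_cast; ring
  have h5 := Finset.sum_le_sum hterm
  rw [Finset.sum_add_distrib, Finset.sum_const, Finset.card_range, nsmul_eq_mul] at h5
  have h6 : (J : ℝ) * (h * (2 * η)) = 2 * η * v := by rw [← hJh]; ring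
  rw [h6] at h5
  obtain ⟨K, rfl⟩ : ∃ K, J = K + 1 := ⟨J - 1, by omega⟩
  rw [Finset.sum_range_succ (fun j => h * (φ (j * h) * χ ((j + 1 : ℕ) * h)))] at h5
  have h7 : h * (φ (K * h) * χ ((K + 1 : ℕ) * h)) ≤ h := by
    have b3 := hφ0 _ (hmem K (by omega))
    have b4 := hχ0 _ (hmem (K + 1) le_rfl)
    have : φ (K * h) * χ ((K + 1 : ℕ) * h) ≤ 1 := mul_le_one₀ b3.2 b4.1 b4.2
    nlinarith
  simp only [Nat.add_sub_cancel]
  linarith

end Vale.Agent.P367.Cl
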