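import Vale.Agent.P367.Cl.FBlk2
import Vale.Agent.P146.Pw2.T1Blk0

/-!
# P367, classical half, full RSB: derivatives in `t` of the block averages
-/

open MeasureTheory ProbabilityTheory Filter Topology Set

namespace Vale.Agent.P367.Cl

open Vale.Agent.P157.Par
open Vale.Agent.P146.Gap
open Vale.Agent.P146.Pw2

variable {n l : ℕ} {m r : ℕ → ℝ} {t : ℝ}

/-! ### Differentiation and continuity under the nested averages -/

lemma fblk_tlt_deriv {L B : ℝ} {F M D : ℝ → ℝ} (h : Sm L B F M D) (g v x : ℝ) {a b : ℝ}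
    {f f' : ℝ → ℝ → ℝ} (hf : ∀ t ∈ Ioo a b, ∀ y, HasDerivAt (fun t => f t y) (f' t y) t)
    (hc : ∀ t ∈ Ioo a b, Continuous (f t)) (hc' : ∀ t ∈ Ioo a b, Continuous (f' t))
    {K : ℝ} (hB : ∀ t ∈ Ioo a b, ∀ y, |f t y| ≤ K ∧ |f' t y| ≤ K) {t : ℝ} (ht : t ∈ Ioo a b) :
    HasDerivAt (fun t => tlt g v F (f t) x) (tlt g v F (f' t) x) t := by
  have hF := h.cont
  have hnum : HasDerivAt
      (fun t => ∫ z, f t (x + √v * z) * Real.exp (g * F (x + √v * z)) ∂(gaussianReal 0 1))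
      (∫ z, f' t (x + √v * z) * Real.exp (g * F (x + √v * z)) ∂(gaussianReal 0 1)) t := by
    refine (hasDerivAt_integral_of_dominated_loc_of_deriv_le (s := Ioo a b)
      (F := fun t z => f t (x + √v * z) * Real.exp (g * F (x + √v * z)))
      (F' := fun t z => f' t (x + √v * z) * Real.exp (g * F (x + √v * z)))
      (bound := fun z => K * Real.exp (g * F (x + √v * z)))
      (isOpen_Ioo.mem_nhds ht) ?_ ?_ ?_ ?_ ?_ ?_).2
    · filter_upwards [isOpen_Ioo.mem_nhds ht] with s hs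
      have := hc s hs
      exact (by fun_prop : Continuous fun z =>
        f s (x + √v * z) * Real.exp (g * F (x + √v * z))).aestronglyMeasurable
    · exact h.integrable (hc t ht) (fun y => (hB t ht y).1) g v x
    · have := hc' t ht
      exact (by fun_prop : Continuous fun z =>
        f' t (x + √v * z) * Real.exp (g * F (x + √v * z))).aestronglyMeasurable
    · refine ae_of_all _ fun z s hs => ?_
      rw [norm_mul, Real.norm_eq_abs, Real.norm_eq_abs, abs_of_pos (Real.exp_pos _)]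
      exact mul_le_mul_of_nonneg_right (hB s hs _).2 (Real.exp_pos _).le
    · exact (h.integrable_exp g v x).const_mul K
    · exact ae_of_all _ fun z s hs => (hf s hs _).mul_const _
  exact hnum.div_const _

lemma fblk_tlt_contOn {L B : ℝ} {F M D : ℝ → ℝ} (h : Sm L B F M D) (g v x : ℝ) {s : Set ℝ}
    {f : ℝ → ℝ → ℝ} (hf : ∀ y, ContinuousOn (fun t => f t y) s)
    (hc : ∀ t ∈ s, Continuous (f t)) {K : ℝ} (hB : ∀ t ∈ s, ∀ y, |f t y| ≤ K) :
    ContinuousOn (fun t => tlt g v F (f t) x) s := by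
  have hF := h.cont
  have hnum : ContinuousOn
      (fun t => ∫ z, f t (x + √v * z) * Real.exp (g * F (x + √v * z)) ∂(gaussianReal 0 1)) s := by
    refine continuousOn_of_dominated (bound := fun z => K * Real.exp (g * F (x + √v * z)))
      ?_ ?_ ?_ ?_
    · intro t ht
      have := hc t ht
      exact (by fun_prop : Continuous fun z =>
        f t (x + √v * z) * Real.exp (g * F (x + √v * z))).aestronglyMeasurable
    · intro t ht
      refine ae_of_all _ fun z => ?_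
      rw [norm_mul, Real.norm_eq_abs, Real.norm_eq_abs, abs_of_pos (Real.exp_pos _)]
      exact mul_le_mul_of_nonneg_right (hB t ht _) (Real.exp_pos _).le
    · exact (h.integrable_exp g v x).const_mul K
    · exact ae_of_all _ fun z => (hf _).mul continuousOn_const
  exact hnum.div_const _

lemma fblk_chn_deriv (m r : ℕ → ℝ) (l : ℕ) (hm : Sp7Exp m l) {F M D : ℝ → ℝ} (h : Ec F M D)
    {a b : ℝ} {f f' : ℝ → ℝ → ℝ}
    (hf : ∀ t ∈ Ioo a b, ∀ y, HasDerivAt (fun t => f t y) (f' t y) t)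
    (hc : ∀ t ∈ Ioo a b, Continuous (f t)) (hc' : ∀ t ∈ Ioo a b, Continuous (f' t))
    {K : ℝ} (hB : ∀ t ∈ Ioo a b, ∀ y, |f t y| ≤ K ∧ |f' t y| ≤ K) {t : ℝ} (ht : t ∈ Ioo a b) :
    HasDerivAt (fun t => chn m r l F (f t)) (chn m r l F (f' t)) t := by
  induction l generalizing F M D f f' with
  | zero =>
    simp only [chn_zero_def]
    refine (hasDerivAt_integral_of_dominated_loc_of_deriv_le (s := Ioo a b)
      (F := fun t z => f t (√(r 0) * z)) (F' := fun t z => f' t (√(r 0) * z))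
      (bound := fun _ => K) (isOpen_Ioo.mem_nhds ht) ?_ ?_ ?_ ?_ ?_ ?_).2
    · filter_upwards [isOpen_Ioo.mem_nhds ht] with s hs
      have := hc s hs
      exact (by fun_prop : Continuous fun z => f s (√(r 0) * z)).aestronglyMeasurable
    · exact sp7_cb_int ⟨hc t ht, K, fun y => (hB t ht y).1⟩ _
    · have := hc' t ht
      exact (by fun_prop : Continuous fun z => f' t (√(r 0) * z)).aestronglyMeasurable
    · exact ae_of_all _ fun z s hs => (hB s hs _).2
    · exact integrable_const K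
    · exact ae_of_all _ fun z s hs => hf s hs _
  | succ l ih =>
    simp only [chn_succ_def]
    obtain ⟨hm0, hm1⟩ := hm l (Nat.lt_succ_self l)
    exact ih (sp7_exp_down hm) (h.step hm0 hm1 _)
      (fun t ht y => fblk_tlt_deriv h.sm _ _ y hf hc hc' hB ht)
      (fun t ht => h.sm.tlt_cont (hc t ht) (fun y => (hB t ht y).1) _ _)
      (fun t ht => h.sm.tlt_cont (hc' t ht) (fun y => (hB t ht y).2) _ _)
      (fun t ht y => ⟨h.sm.abs_tlt_le (hc t ht) (fun y => (hB t ht y).1) _ _ y,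
        h.sm.abs_tlt_le (hc' t ht) (fun y => (hB t ht y).2) _ _ y⟩)

lemma fblk_chn_contOn (m r : ℕ → ℝ) (l : ℕ) (hm : Sp7Exp m l) {F M D : ℝ → ℝ} (h : Ec F M D)
    {s : Set ℝ} {f : ℝ → ℝ → ℝ} (hf : ∀ y, ContinuousOn (fun t => f t y) s)
    (hc : ∀ t ∈ s, Continuous (f t)) {K : ℝ} (hB : ∀ t ∈ s, ∀ y, |f t y| ≤ K) :
    ContinuousOn (fun t => chn m r l F (f t)) s := by
  induction l generalizing F M D f with
  | zero =>
    simp only [chn_zero_def]
    refine continuousOn_of_dominated (bound := fun _ => K) ?_ ?_ ?_ ?_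
    · intro t ht
      have := hc t ht
      exact (by fun_prop : Continuous fun z => f t (√(r 0) * z)).aestronglyMeasurable
    · exact fun t ht => ae_of_all _ fun z => hB t ht _
    · exact integrable_const K
    · exact ae_of_all _ fun z => hf _
  | succ l ih =>
    simp only [chn_succ_def]
    obtain ⟨hm0, hm1⟩ := hm l (Nat.lt_succ_self l)
    exact ih (sp7_exp_down hm) (h.step hm0 hm1 _)
      (fun y => fblk_tlt_contOn h.sm _ _ y hf hc hB)
      (fun t ht => h.sm.tlt_cont (hc t ht) (hB t ht) _ _)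
      (fun t ht y => h.sm.abs_tlt_le (hc t ht) (hB t ht) _ _ y)

/-- derivative under the nested average -/
theorem ee_deriv (hm : Exponents n m) (hr : Path n r) (hl : l ≤ n) {a b : ℝ}
    {f f' : ℝ → ℝ → ℝ} (hf : ∀ t ∈ Ioo a b, ∀ y, HasDerivAt (fun t => f t y) (f' t y) t)
    (hc : ∀ t ∈ Ioo a b, Continuous (f t)) (hc' : ∀ t ∈ Ioo a b, Continuous (f' t))
    (hB : ∃ B, ∀ t ∈ Ioo a b, ∀ y, |f t y| ≤ B ∧ |f' t y| ≤ B) (ht : t ∈ Ioo a b) :
    HasDerivAt (fun t => Ee n m r l (f t)) (Ee n m r l (f' t)) t := by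
  obtain ⟨K, hK⟩ := hB
  exact fblk_chn_deriv m r l (nest_exp hm hl) (fl_ec hm hr hl) hf hc hc' hK ht

theorem ee_contOn (hm : Exponents n m) (hr : Path n r) (hl : l ≤ n) {s : Set ℝ}
    {f : ℝ → ℝ → ℝ} (hf : ∀ y, ContinuousOn (fun t => f t y) s)
    (hc : ∀ t ∈ s, Continuous (f t)) (hB : ∃ B, ∀ t ∈ s, ∀ y, |f t y| ≤ B) :
    ContinuousOn (fun t => Ee n m r l (f t)) s := by
  obtain ⟨K, hK⟩ := hB
  exact fblk_chn_contOn m r l (nest_exp hm hl) (fl_ec hm hr hl) hf hc hK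

/-! ### The averages at the time `r l + t` of a block -/

lemma fblk_adm (hm : Exponents n m) (hr : Path n r) (hl : l < n) :
    ∃ C, Adm C (Fl n m r (l + 1)) := by
  obtain ⟨C, hC⟩ := fl_good hm hr (show l + 1 ≤ n from hl)
  exact ⟨C, hC.adm⟩

lemma fblk_gb_adm (hm : Exponents n m) (hr : Path n r) (hl : l < n)
    (ht : t ∈ Icc 0 (r (l + 1) - r l)) : ∃ C, Adm C (Gb n m r l t) := by
  obtain ⟨C, hC⟩ := fblk_adm hm hr hl
  obtain ⟨g0, g1⟩ := sp7_exp_of hm l hl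
  exact ⟨_, hC.step g0 g1 (by linarith [ht.2])⟩

/-- the class of the observables is preserved -/
lemma fblk_bc (hm : Exponents n m) (hr : Path n r) (hl : l < n) {q : ℝ → ℝ → ℝ}
    (hq : first_Bc q) : ∃ K, ∀ t ∈ Icc 0 (r (l + 1) - r l),
      Continuous (tlt (m (l + 1)) t (Gb n m r l t) (q t)) ∧
      ∀ y, |tlt (m (l + 1)) t (Gb n m r l t) (q t) y| ≤ K := by
  obtain ⟨-, K, hK⟩ := id hq
  refine ⟨K, fun t ht => ?_⟩
  obtain ⟨C, hC⟩ := fblk_gb_adm hm hr hl ht
  have he := (adm_ec hC).sm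
  exact ⟨he.tlt_cont (hq.slice t) (hK t) _ _, fun y => he.abs_tlt_le (hq.slice t) (hK t) _ _ y⟩

/-- derivative of the average of a smooth family of observables -/
theorem bt_deriv (hm : Exponents n m) (hr : Path n r) (hl : l < n) {p p1 p2 ps : ℝ → ℝ → ℝ}
    (hp : first_P (r (l + 1) - r l) p p1 p2 ps) (ht : t ∈ Ioo 0 (r (l + 1) - r l)) :
    HasDerivAt (fun t => Bt n m r l t (p t)) (Bt n m r l t (fun x => ps t x + 1 / 2 * p2 t x
      + m (l + 1) * iteratedDeriv 1 (Gb n m r l t) x * p1 t x)) t := by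
  obtain ⟨C, hC⟩ := fblk_adm hm hr hl
  obtain ⟨g0, g1⟩ := sp7_exp_of hm l hl
  have b1 := first_f_bc hC g0 (r (l + 1) - r l) 0
  have hq : first_Bc (fun t x => ps t x + 1 / 2 * p2 t x
      + m (l + 1) * first_f (m (l + 1)) (r (l + 1) - r l) (Fl n m r (l + 1)) 1 t x * p1 t x) := by
    have := (hp.bs.add (hp.b2.smul (1 / 2))).add ((b1.smul (m (l + 1))).mul hp.b1)
    exact this
  obtain ⟨K, hK⟩ := fblk_bc hm hr hl hp.b0
  obtain ⟨K', hK'⟩ := fblk_bc hm hr hl hq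
  have hI : ∀ t ∈ Ioo 0 (r (l + 1) - r l), t ∈ Icc 0 (r (l + 1) - r l) :=
    fun t ht => Ioo_subset_Icc_self ht
  exact ee_deriv hm hr hl.le
    (f := fun t y => tlt (m (l + 1)) t (Gb n m r l t) (p t) y)
    (f' := fun t y => tlt (m (l + 1)) t (Gb n m r l t) (fun x => ps t x + 1 / 2 * p2 t x
      + m (l + 1) * first_f (m (l + 1)) (r (l + 1) - r l) (Fl n m r (l + 1)) 1 t x * p1 t x) y)
    (fun t ht y => blk_tlt_deriv hC g0 hp y ht)
    (fun t ht => (hK t (hI t ht)).1) (fun t ht => (hK' t (hI t ht)).1)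
    ⟨max K K', fun t ht y => ⟨((hK t (hI t ht)).2 y).trans (le_max_left _ _),
      ((hK' t (hI t ht)).2 y).trans (le_max_right _ _)⟩⟩ ht

theorem bt_contOn (hm : Exponents n m) (hr : Path n r) (hl : l < n) {p : ℝ → ℝ → ℝ}
    (hp : first_Bc p) :
    ContinuousOn (fun t => Bt n m r l t (p t)) (Icc 0 (r (l + 1) - r l)) := by
  obtain ⟨C, hC⟩ := fblk_adm hm hr hl
  obtain ⟨g0, g1⟩ := sp7_exp_of hm l hl
  obtain ⟨K, hK⟩ := fblk_bc hm hr hl hp
  exact ee_contOn hm hr hl.le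
    (f := fun t y => tlt (m (l + 1)) t (Gb n m r l t) (p t) y)
    (fun y => blk_tlt_cont hC g0 hp _ y)
    (fun t ht => (hK t ht).1) ⟨K, fun t ht y => (hK t ht).2 y⟩

/-! ### The families -/

lemma fblk_Rb_eq (n : ℕ) (m r : ℕ → ℝ) (l : ℕ) : Rb n m r l = fun t => Bt n m r l t (fun x =>
    first_f (m (l + 1)) (r (l + 1) - r l) (Fl n m r (l + 1)) 1 t x *
      first_f (m (l + 1)) (r (l + 1) - r l) (Fl n m r (l + 1)) 1 t x) := by
  funext t
  unfold Rb
  congr 1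
  funext x
  rw [sq]
  rfl

lemma fblk_Mb_eq (n : ℕ) (m r : ℕ → ℝ) (l : ℕ) : Mb n m r l = fun t => Bt n m r l t (fun x =>
    first_f (m (l + 1)) (r (l + 1) - r l) (Fl n m r (l + 1)) 2 t x *
      first_f (m (l + 1)) (r (l + 1) - r l) (Fl n m r (l + 1)) 2 t x) := by
  funext t
  unfold Mb
  congr 1
  funext x
  rw [sq]
  rfl

lemma fblk_M1b_eq (n : ℕ) (m r : ℕ → ℝ) (l : ℕ) : M1b n m r l = fun t => Bt n m r l t (fun x =>
    first_f (m (l + 1)) (r (l + 1) - r l) (Fl n m r (l + 1)) 3 t x *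
      first_f (m (l + 1)) (r (l + 1) - r l) (Fl n m r (l + 1)) 3 t x +
    -(2 * m (l + 1)) * (first_f (m (l + 1)) (r (l + 1) - r l) (Fl n m r (l + 1)) 2 t x *
      (first_f (m (l + 1)) (r (l + 1) - r l) (Fl n m r (l + 1)) 2 t x *
        first_f (m (l + 1)) (r (l + 1) - r l) (Fl n m r (l + 1)) 2 t x))) := by
  funext t
  unfold M1b
  congr 1
  funext x
  change first_f (m (l + 1)) (r (l + 1) - r l) (Fl n m r (l + 1)) 3 t x ^ 2 -
    2 * m (l + 1) * first_f (m (l + 1)) (r (l + 1) - r l) (Fl n m r (l + 1)) 2 t x ^ 3 = _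
  ring

theorem Rb_deriv (hm : Exponents n m) (hr : Path n r) (hl : l < n)
    (ht : t ∈ Ioo 0 (r (l + 1) - r l)) : HasDerivAt (Rb n m r l) (Mb n m r l t) t := by
  obtain ⟨C, hC⟩ := fblk_adm hm hr hl
  obtain ⟨g0, g1⟩ := sp7_exp_of hm l hl
  have h1 := first_P1 hC g0 (r (l + 1) - r l)
  rw [fblk_Rb_eq]
  refine (bt_deriv hm hr hl (h1.mul h1) ht).congr_deriv ?_
  rw [fblk_Mb_eq]
  congr 1
  funext x
  change _ + _ + m (l + 1) * first_f (m (l + 1)) (r (l + 1) - r l) (Fl n m r (l + 1)) 1 t x * _ = _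
  ring

theorem Mb_deriv (hm : Exponents n m) (hr : Path n r) (hl : l < n)
    (ht : t ∈ Ioo 0 (r (l + 1) - r l)) : HasDerivAt (Mb n m r l) (M1b n m r l t) t := by
  obtain ⟨C, hC⟩ := fblk_adm hm hr hl
  obtain ⟨g0, g1⟩ := sp7_exp_of hm l hl
  have h1 := first_P2 hC g0 (r (l + 1) - r l)
  rw [fblk_Mb_eq]
  refine (bt_deriv hm hr hl (h1.mul h1) ht).congr_deriv ?_
  rw [fblk_M1b_eq]
  congr 1
  funext x
  change _ + _ + m (l + 1) * first_f (m (l + 1)) (r (l + 1) - r l) (Fl n m r (l + 1)) 1 t x * _ = _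
  ring

theorem M1b_deriv (hm : Exponents n m) (hr : Path n r) (hl : l < n)
    (ht : t ∈ Ioo 0 (r (l + 1) - r l)) : HasDerivAt (M1b n m r l) (M2b n m r l t) t := by
  obtain ⟨C, hC⟩ := fblk_adm hm hr hl
  obtain ⟨g0, g1⟩ := sp7_exp_of hm l hl
  have h2 := first_P2 hC g0 (r (l + 1) - r l)
  have h3 := first_P3 hC g0 (r (l + 1) - r l)
  have hp := (h3.mul h3).add
    ((first_P.const (r (l + 1) - r l) (-(2 * m (l + 1)))).mul (h2.mul (h2.mul h2)))
  rw [fblk_M1b_eq]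
  refine (bt_deriv hm hr hl hp ht).congr_deriv ?_
  unfold M2b m2i
  congr 1
  funext x
  change _ + _ + m (l + 1) * first_f (m (l + 1)) (r (l + 1) - r l) (Fl n m r (l + 1)) 1 t x * _ =
    first_f (m (l + 1)) (r (l + 1) - r l) (Fl n m r (l + 1)) 4 t x ^ 2 -
      12 * m (l + 1) * first_f (m (l + 1)) (r (l + 1) - r l) (Fl n m r (l + 1)) 2 t x *
        first_f (m (l + 1)) (r (l + 1) - r l) (Fl n m r (l + 1)) 3 t x ^ 2 +
      6 * m (l + 1) ^ 2 * first_f (m (l + 1)) (r (l + 1) - r l) (Fl n m r (l + 1)) 2 t x ^ 4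
  ring

theorem Rb_cont (hm : Exponents n m) (hr : Path n r) (hl : l < n) :
    ContinuousOn (Rb n m r l) (Icc 0 (r (l + 1) - r l)) := by
  obtain ⟨C, hC⟩ := fblk_adm hm hr hl
  obtain ⟨g0, g1⟩ := sp7_exp_of hm l hl
  have b1 := first_f_bc hC g0 (r (l + 1) - r l) 0
  rw [fblk_Rb_eq]
  exact bt_contOn hm hr hl (b1.mul b1)

theorem Mb_cont (hm : Exponents n m) (hr : Path n r) (hl : l < n) :
    ContinuousOn (Mb n m r l) (Icc 0 (r (l + 1) - r l)) := by
  obtain ⟨C, hC⟩ := fblk_adm hm hr hl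
  obtain ⟨g0, g1⟩ := sp7_exp_of hm l hl
  have b2 := first_f_bc hC g0 (r (l + 1) - r l) 1
  rw [fblk_Mb_eq]
  exact bt_contOn hm hr hl (b2.mul b2)

theorem Ab_cont (hm : Exponents n m) (hr : Path n r) (hl : l < n) :
    ContinuousOn (Ab n m r l) (Icc 0 (r (l + 1) - r l)) := by
  obtain ⟨C, hC⟩ := fblk_adm hm hr hl
  obtain ⟨g0, g1⟩ := sp7_exp_of hm l hl
  exact bt_contOn hm hr hl (first_f_bc hC g0 (r (l + 1) - r l) 1)

end Vale.Agent.P367.Cl
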