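import Mathlib

/-!
# P367, classical half, full RSB: one real variable (FReal)
-/

open MeasureTheory Filter Topology Set

namespace Vale.Agent.P367.Cl

/-- a function with a zero and derivative bounded by `C` on `(0, V)` is bounded by `C V` -/
theorem freal_lip {C V : ℝ} {k k1 : ℝ → ℝ} (hk : ContinuousOn k (Icc 0 V))
    (h2 : ∀ t ∈ Ioo 0 V, HasDerivAt k (k1 t) t) (h3 : ∀ t ∈ Ioo 0 V, |k1 t| ≤ C) (hC : 0 ≤ C)
    {c : ℝ} (hc : c ∈ Icc 0 V) (hkc : k c = 0) {t : ℝ} (ht : t ∈ Icc 0 V) : |k t| ≤ C * V := by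
  rcases lt_trichotomy t c with h | h | h
  · obtain ⟨x, hx, hxe⟩ := exists_hasDerivAt_eq_slope k k1 h
      (hk.mono (Icc_subset_Icc ht.1 hc.2)) (fun x hx => h2 x ⟨lt_of_le_of_lt ht.1 hx.1,
        lt_of_lt_of_le hx.2 hc.2⟩)
    have hx' := h3 x ⟨lt_of_le_of_lt ht.1 hx.1, lt_of_lt_of_le hx.2 hc.2⟩
    have hct : 0 < c - t := by linarith
    have e : k t = -(k1 x * (c - t)) := by
      rw [hxe, hkc]; field_simp; ring
    rw [e, abs_neg, abs_mul, abs_of_pos hct]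
    have : c - t ≤ V := by linarith [hc.2, ht.1]
    calc |k1 x| * (c - t) ≤ C * (c - t) := mul_le_mul_of_nonneg_right hx' hct.le
      _ ≤ C * V := mul_le_mul_of_nonneg_left this hC
  · rw [h, hkc, abs_zero]
    exact mul_nonneg hC (le_trans hc.1 hc.2)
  · obtain ⟨x, hx, hxe⟩ := exists_hasDerivAt_eq_slope k k1 h
      (hk.mono (Icc_subset_Icc hc.1 ht.2)) (fun x hx => h2 x ⟨lt_of_le_of_lt hc.1 hx.1,
        lt_of_lt_of_le hx.2 ht.2⟩)
    have hx' := h3 x ⟨lt_of_le_of_lt hc.1 hx.1, lt_of_lt_of_le hx.2 ht.2⟩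
    have hct : 0 < t - c := by linarith
    have e : k t = k1 x * (t - c) := by
      rw [hxe, hkc]; field_simp; ring
    rw [e, abs_mul, abs_of_pos hct]
    have : t - c ≤ V := by linarith [hc.1, ht.2]
    calc |k1 x| * (t - c) ≤ C * (t - c) := mul_le_mul_of_nonneg_right hx' hct.le
      _ ≤ C * V := mul_le_mul_of_nonneg_left this hC

theorem freal_sq {x k' : ℝ} {f : ℝ → ℝ} (h : HasDerivAt f k' x) :
    HasDerivAt (fun s => f s ^ 2) (2 * (f x * k')) x := by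
  have h0 := (h.fun_pow 2).congr_deriv (g' := 2 * (f x * k')) (by push_cast; ring)
  exact h0

theorem freal_up {a b M : ℝ} {f k : ℝ → ℝ} (hab : a ≤ b) (hf : ContinuousOn f (Icc a b))
    (hk : ContinuousOn k (Icc a b)) (h1 : ∀ t ∈ Ioo a b, HasDerivAt f (k t) t)
    (hk0 : ∀ t ∈ Ioo a b, 0 ≤ k t) (hkM : ∀ t ∈ Icc a b, k t ≤ M) (hfa : f a = 0) :
    0 ≤ f b ∧ f b ^ 2 ≤ 2 * M * ∫ s in a..b, f s := by
  have hmono : MonotoneOn f (Icc a b) := by
    refine monotoneOn_of_hasDerivWithinAt_nonneg (convex_Icc a b) hf (f' := k) ?_ ?_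
    · intro x hx; rw [interior_Icc] at hx ⊢; exact (h1 x hx).hasDerivWithinAt
    · intro x hx; rw [interior_Icc] at hx; exact hk0 x hx
  have hfn : ∀ t ∈ Icc a b, 0 ≤ f t := fun t ht => by
    rw [← hfa]; exact hmono (left_mem_Icc.2 hab) ht ht.1
  refine ⟨hfn b (right_mem_Icc.2 hab), ?_⟩
  have hint : IntervalIntegrable (fun s => 2 * (f s * k s)) volume a b :=
    ((hf.mul hk).const_smul (2 : ℝ)).intervalIntegrable_of_Icc hab
  have h := intervalIntegral.integral_eq_sub_of_hasDerivAt_of_le hab (f := fun s => f s ^ 2)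
    (f' := fun s => 2 * (f s * k s)) (hf.pow 2)
    (fun x hx => freal_sq (h1 x hx)) hint
  have h' : f b ^ 2 = ∫ s in a..b, 2 * (f s * k s) := by
    rw [h, hfa]; ring
  rw [h', ← intervalIntegral.integral_const_mul]
  refine intervalIntegral.integral_mono_on hab hint
    ((hf.const_smul (2 * M)).intervalIntegrable_of_Icc hab) ?_
  intro x hx
  have := mul_le_mul_of_nonneg_left (hkM x hx) (hfn x hx)
  nlinarith

theorem freal_down {a b M : ℝ} {f k : ℝ → ℝ} (hab : a ≤ b) (hf : ContinuousOn f (Icc a b))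
    (hk : ContinuousOn k (Icc a b)) (h1 : ∀ t ∈ Ioo a b, HasDerivAt f (k t) t)
    (hk0 : ∀ t ∈ Ioo a b, 0 ≤ k t) (hkM : ∀ t ∈ Icc a b, k t ≤ M) (hfb : f b = 0) :
    f a ≤ 0 ∧ f a ^ 2 ≤ 2 * M * -∫ s in a..b, f s := by
  have hmono : MonotoneOn f (Icc a b) := by
    refine monotoneOn_of_hasDerivWithinAt_nonneg (convex_Icc a b) hf (f' := k) ?_ ?_
    · intro x hx; rw [interior_Icc] at hx ⊢; exact (h1 x hx).hasDerivWithinAt
    · intro x hx; rw [interior_Icc] at hx; exact hk0 x hx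
  have hfn : ∀ t ∈ Icc a b, f t ≤ 0 := fun t ht => by
    rw [← hfb]; exact hmono ht (right_mem_Icc.2 hab) ht.2
  refine ⟨hfn a (left_mem_Icc.2 hab), ?_⟩
  have hint : IntervalIntegrable (fun s => 2 * (f s * k s)) volume a b :=
    ((hf.mul hk).const_smul (2 : ℝ)).intervalIntegrable_of_Icc hab
  have h := intervalIntegral.integral_eq_sub_of_hasDerivAt_of_le hab (f := fun s => f s ^ 2)
    (f' := fun s => 2 * (f s * k s)) (hf.pow 2)
    (fun x hx => freal_sq (h1 x hx)) hint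
  have h' : f a ^ 2 = -∫ s in a..b, 2 * (f s * k s) := by
    rw [h, hfb]; ring
  rw [h']
  have h2 : 2 * M * -∫ s in a..b, f s = -∫ s in a..b, 2 * M * f s := by
    rw [intervalIntegral.integral_const_mul]; ring
  rw [h2, neg_le_neg_iff]
  refine intervalIntegral.integral_mono_on hab
    ((hf.const_smul (2 * M)).intervalIntegrable_of_Icc hab) hint ?_
  intro x hx
  have := mul_le_mul_of_nonpos_left (hkM x hx) (hfn x hx)
  nlinarith

/-- the sublevel set of a convex function with a zero -/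
theorem freal_sign {V : ℝ} {k : ℝ → ℝ} (hk : ContinuousOn k (Icc 0 V))
    (hc : ConvexOn ℝ (Icc 0 V) k) {c : ℝ} (hcm : c ∈ Icc 0 V) (hkc : k c = 0) :
    ∃ α β, 0 ≤ α ∧ α ≤ β ∧ β ≤ V ∧ (∀ t ∈ Ioo 0 α, 0 ≤ k t) ∧ (∀ t ∈ Icc α β, k t ≤ 0) ∧
      (∀ t ∈ Ioo β V, 0 ≤ k t) := by
  set P : Set ℝ := Icc 0 V ∩ k ⁻¹' Iic 0 with hP
  have hPc : IsClosed P := hk.preimage_isClosed_of_isClosed isClosed_Icc isClosed_Iic
  have hPk : IsCompact P := isCompact_Icc.of_isClosed_subset hPc inter_subset_left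
  have hne : P.Nonempty := ⟨c, hcm, by simp [hkc]⟩
  have hα := hPk.sInf_mem hne
  have hβ := hPk.sSup_mem hne
  have hle : sInf P ≤ sSup P := Real.sInf_le_sSup P hPk.bddBelow hPk.bddAbove
  refine ⟨sInf P, sSup P, hα.1.1, hle, hβ.1.2, ?_, ?_, ?_⟩
  · intro t ht
    by_contra hn
    push Not at hn
    have : t ∈ P := ⟨⟨ht.1.le, (ht.2.le.trans hle).trans hβ.1.2⟩, hn.le⟩
    exact absurd (csInf_le hPk.bddBelow this) (not_le.2 ht.2)
  · intro t ht
    have h := hc.le_max_of_mem_Icc hα.1 hβ.1 ht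
    exact h.trans (max_le hα.2 hβ.2)
  · intro t ht
    by_contra hn
    push Not at hn
    have : t ∈ P := ⟨⟨(hα.1.1.trans hle).trans ht.1.le, ht.2.le⟩, hn.le⟩
    exact absurd (le_csSup hPk.bddAbove this) (not_le.2 ht.1)

theorem real_block {C S : ℝ} (hC : 1 ≤ C) (hS : 0 < S) : ∃ C' : ℝ, 1 ≤ C' ∧
    ∀ (V d : ℝ) (f k k1 k2 : ℝ → ℝ), 0 < V → V ≤ S → 0 ≤ d → d ≤ 1 →
      ContinuousOn f (Icc 0 V) → ContinuousOn k (Icc 0 V) →
      (∀ t ∈ Ioo 0 V, HasDerivAt f (k t) t) → (∀ t ∈ Ioo 0 V, HasDerivAt k (k1 t) t) →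
      (∀ t ∈ Ioo 0 V, HasDerivAt k1 (k2 t) t) → (∀ t ∈ Ioo 0 V, 0 ≤ k2 t) →
      (∀ t ∈ Ioo 0 V, |k1 t| ≤ C) → f 0 = 0 → f V = 0 →
      (∀ t ∈ Icc 0 V, ∫ s in (0 : ℝ)..t, f s ≤ C * d * V ^ 2) →
      (∀ t ∈ Icc 0 V, -(C * d * V ^ 2) ≤ ∫ s in t..V, f s) →
      ∫ t in (0 : ℝ)..V, |k t| ≤ C' * √d * V := by
  refine ⟨1 + 4 * (C * √(2 * S)), by nlinarith [Real.sqrt_nonneg (2 * S)], ?_⟩
  intro V d f k k1 k2 hV hVS hd hd1 hf hk hfk hkk1 hk12 hk2 hk1C hf0 hfV hup hdn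
  obtain ⟨c, hcm, hkc⟩ := exists_hasDerivAt_eq_zero hV hf (by rw [hf0, hfV]) hfk
  have hcm' : c ∈ Icc 0 V := ⟨hcm.1.le, hcm.2.le⟩
  have hC0 : 0 ≤ C := by linarith
  have hkb : ∀ t ∈ Icc 0 V, |k t| ≤ C * V := fun t ht => freal_lip hk hkk1 hk1C hC0 hcm' hkc ht
  have hconv : ConvexOn ℝ (Icc 0 V) k := by
    refine convexOn_of_hasDerivWithinAt2_nonneg (convex_Icc 0 V) hk (f' := k1) (f'' := k2) ?_ ?_ ?_
    · intro x hx; rw [interior_Icc] at hx ⊢; exact (hkk1 x hx).hasDerivWithinAt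
    · intro x hx; rw [interior_Icc] at hx ⊢; exact (hk12 x hx).hasDerivWithinAt
    · intro x hx; rw [interior_Icc] at hx; exact hk2 x hx
  obtain ⟨α, β, hα0, hαβ, hβV, hs1, hs2, hs3⟩ := freal_sign hk hconv hcm' hkc
  have hαm : α ∈ Icc 0 V := ⟨hα0, hαβ.trans hβV⟩
  have hβm : β ∈ Icc 0 V := ⟨hα0.trans hαβ, hβV⟩
  have sub1 : Icc 0 α ⊆ Icc 0 V := Icc_subset_Icc le_rfl hαm.2
  have sub2 : Icc α β ⊆ Icc 0 V := Icc_subset_Icc hα0 hβV
  have sub3 : Icc β V ⊆ Icc 0 V := Icc_subset_Icc hβm.1 le_rfl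
  obtain ⟨hfα, hfα2⟩ := freal_up (M := C * V) hα0 (hf.mono sub1) (hk.mono sub1)
    (fun t ht => hfk t ⟨ht.1, lt_of_lt_of_le ht.2 hαm.2⟩) hs1
    (fun t ht => (le_abs_self _).trans (hkb t (sub1 ht))) hf0
  obtain ⟨hfβ, hfβ2⟩ := freal_down (M := C * V) hβV (hf.mono sub3) (hk.mono sub3)
    (fun t ht => hfk t ⟨lt_of_le_of_lt hβm.1 ht.1, ht.2⟩) hs3
    (fun t ht => (le_abs_self _).trans (hkb t (sub3 ht))) hfV
  -- the two bounds
  set E : ℝ := C * √(2 * S) * √d * V with hE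
  have hE0 : 0 ≤ E := by positivity
  have hE2 : 2 * (C * V) * (C * d * V ^ 2) ≤ E ^ 2 := by
    have e1 : E ^ 2 = C ^ 2 * (2 * S) * d * V ^ 2 := by
      rw [hE, mul_pow, mul_pow, mul_pow, Real.sq_sqrt (by positivity), Real.sq_sqrt hd]
    rw [e1]
    have : 2 * (C * V) * (C * d * V ^ 2) = C ^ 2 * (2 * V) * d * V ^ 2 := by ring
    rw [this]
    have : C ^ 2 * (2 * V) ≤ C ^ 2 * (2 * S) := by nlinarith [sq_nonneg C]
    exact mul_le_mul_of_nonneg_right (mul_le_mul_of_nonneg_right this hd) (by positivity)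
  have hCV : 0 ≤ 2 * (C * V) := by positivity
  have b1 : f α ≤ E := by
    have : f α ^ 2 ≤ E ^ 2 := hfα2.trans ((mul_le_mul_of_nonneg_left (hup α hαm) hCV).trans hE2)
    exact le_of_sq_le_sq this hE0
  have b2 : -f β ≤ E := by
    have h1 : -∫ s in β..V, f s ≤ C * d * V ^ 2 := by linarith [hdn β hβm]
    have : (-f β) ^ 2 ≤ E ^ 2 := by
      rw [neg_sq]
      exact hfβ2.trans ((mul_le_mul_of_nonneg_left h1 hCV).trans hE2)
    exact le_of_sq_le_sq this hE0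
  -- the integral of |k|
  have ha : ContinuousOn (fun t => |k t|) (Icc 0 V) := hk.abs
  have i1 : ∫ t in (0 : ℝ)..α, |k t| ≤ f α - f 0 := by
    rw [← intervalIntegral.integral_eq_sub_of_hasDerivAt_of_le hα0 (hf.mono sub1)
      (fun t ht => hfk t ⟨ht.1, lt_of_lt_of_le ht.2 hαm.2⟩)
      ((hk.mono sub1).intervalIntegrable_of_Icc hα0)]
    refine intervalIntegral.integral_mono_on_of_le_Ioo hα0
      ((ha.mono sub1).intervalIntegrable_of_Icc hα0)
      ((hk.mono sub1).intervalIntegrable_of_Icc hα0) ?_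
    intro x hx
    exact (abs_of_nonneg (hs1 x hx)).le
  have i2 : ∫ t in α..β, |k t| ≤ f α - f β := by
    have h := intervalIntegral.integral_eq_sub_of_hasDerivAt_of_le hαβ (hf.mono sub2)
      (fun t ht => hfk t ⟨lt_of_le_of_lt hα0 ht.1, lt_of_lt_of_le ht.2 hβV⟩)
      ((hk.mono sub2).intervalIntegrable_of_Icc hαβ)
    have h' : f α - f β = ∫ t in α..β, -k t := by
      rw [intervalIntegral.integral_neg, h]; ring
    rw [h']
    refine intervalIntegral.integral_mono_on hαβ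
      ((ha.mono sub2).intervalIntegrable_of_Icc hαβ)
      ((hk.mono sub2).neg.intervalIntegrable_of_Icc hαβ) ?_
    intro x hx
    exact (abs_of_nonpos (hs2 x hx)).le
  have i3 : ∫ t in β..V, |k t| ≤ f V - f β := by
    rw [← intervalIntegral.integral_eq_sub_of_hasDerivAt_of_le hβV (hf.mono sub3)
      (fun t ht => hfk t ⟨lt_of_le_of_lt hβm.1 ht.1, ht.2⟩)
      ((hk.mono sub3).intervalIntegrable_of_Icc hβV)]
    refine intervalIntegral.integral_mono_on_of_le_Ioo hβV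
      ((ha.mono sub3).intervalIntegrable_of_Icc hβV)
      ((hk.mono sub3).intervalIntegrable_of_Icc hβV) ?_
    intro x hx
    exact (abs_of_nonneg (hs3 x hx)).le
  have s1 : ∫ t in (0 : ℝ)..V, |k t| =
      (∫ t in (0 : ℝ)..α, |k t|) + (∫ t in α..β, |k t|) + ∫ t in β..V, |k t| := by
    rw [intervalIntegral.integral_add_adjacent_intervals
      ((ha.mono sub1).intervalIntegrable_of_Icc hα0)
      ((ha.mono sub2).intervalIntegrable_of_Icc hαβ),
      intervalIntegral.integral_add_adjacent_intervals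
      ((ha.mono (Icc_subset_Icc le_rfl hβV)).intervalIntegrable_of_Icc (hα0.trans hαβ))
      ((ha.mono sub3).intervalIntegrable_of_Icc hβV)]
  rw [s1]
  have hsd : 0 ≤ √d * V := by positivity
  have : (1 + 4 * (C * √(2 * S))) * √d * V = √d * V + 4 * E := by rw [hE]; ring
  rw [this]
  rw [hf0] at i1
  rw [hfV] at i3
  linarith

/-- for the first block, instead of the first variation -/
theorem real_first {V d : ℝ} {f k k1 : ℝ → ℝ} (hV : 0 < V) (hd : 0 ≤ d)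
    (hf : ContinuousOn f (Icc 0 V)) (hk : ContinuousOn k (Icc 0 V))
    (h1 : ∀ t ∈ Ioo 0 V, HasDerivAt f (k t) t) (h2 : ∀ t ∈ Ioo 0 V, HasDerivAt k (k1 t) t)
    (h3 : ∀ t ∈ Ioo 0 V, -(2 * d) ≤ k1 t) (hf0 : f 0 = 0) (hfV : f V = 0) :
    ∀ t ∈ Icc 0 V, ∫ s in (0 : ℝ)..t, f s ≤ 2 * d * V ^ 3 := by
  have hconv : ConvexOn ℝ (Icc 0 V) (fun t => f t - d * (t * (V - t))) := by
    refine convexOn_of_hasDerivWithinAt2_nonneg (convex_Icc 0 V) (by fun_prop)
      (f' := fun t => k t - d * (V - 2 * t)) (f'' := fun t => k1 t + 2 * d) ?_ ?_ ?_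
    · intro x hx; rw [interior_Icc] at hx ⊢
      have e0 : HasDerivAt (fun t : ℝ => t * (V - t)) (1 * (V - x) + x * (-1)) x :=
        (hasDerivAt_id' x).mul ((hasDerivAt_id' x).const_sub V)
      exact (((h1 x hx).sub (e0.const_mul d)).congr_deriv
        (g' := k x - d * (V - 2 * x)) (by ring)).hasDerivWithinAt
    · intro x hx; rw [interior_Icc] at hx ⊢
      have e0 : HasDerivAt (fun t : ℝ => V - 2 * t) (-(2 * 1)) x :=
        ((hasDerivAt_id' x).const_mul 2).const_sub V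
      exact (((h2 x hx).sub (e0.const_mul d)).congr_deriv
        (g' := k1 x + 2 * d) (by ring)).hasDerivWithinAt
    · intro x hx; rw [interior_Icc] at hx
      have := h3 x hx
      show 0 ≤ k1 x + 2 * d
      linarith
  have hfb : ∀ t ∈ Icc 0 V, f t ≤ d * V ^ 2 := by
    intro t ht
    have h := hconv.le_max_of_mem_Icc (left_mem_Icc.2 hV.le) (right_mem_Icc.2 hV.le) ht
    simp only [hf0, hfV] at h
    norm_num at h
    have e : d * (t * (V - t)) ≤ d * V ^ 2 := by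
      refine mul_le_mul_of_nonneg_left ?_ hd
      nlinarith [ht.1, ht.2]
    linarith
  intro t ht
  have sub : Icc 0 t ⊆ Icc 0 V := Icc_subset_Icc le_rfl ht.2
  calc ∫ s in (0 : ℝ)..t, f s ≤ ∫ _s in (0 : ℝ)..t, d * V ^ 2 :=
        intervalIntegral.integral_mono_on ht.1 ((hf.mono sub).intervalIntegrable_of_Icc ht.1)
          (continuousOn_const.intervalIntegrable_of_Icc ht.1) (fun x hx => hfb x (sub hx))
    _ = t * (d * V ^ 2) := by rw [intervalIntegral.integral_const, sub_zero, smul_eq_mul]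
    _ ≤ V * (d * V ^ 2) := mul_le_mul_of_nonneg_right ht.2 (by positivity)
    _ ≤ 2 * d * V ^ 3 := by nlinarith [mul_nonneg hd (pow_pos hV 3).le]

end Vale.Agent.P367.Cl
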