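import Vale.Agent.P367.Cl.FVar2

/-!
# P367, classical half: moving the upper level of a block down (`var_down`)
-/

open MeasureTheory ProbabilityTheory Filter Topology Set

namespace Vale.Agent.P367.Cl

open Vale.Agent.P157.Par
open Vale.Agent.P146.Gap
open Vale.Agent.P146.Pw2

/-- joint continuity of the tilted averages -/
theorem fvd_joint {C g W : ℝ} {F : ℝ → ℝ} (hF : Adm C F) (hg : 0 < g) (g' : ℝ) :
    ContinuousOn (fun p : ℝ × ℝ => tlt g' p.1 (gstep g (W - p.1) F)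
      (fun y => iteratedDeriv 1 (gstep g (W - p.1) F) y ^ 2) p.2) (Icc 0 W ×ˢ univ) := by
  have f1 := ex_fam1 (ex_ec hF) hg W
  obtain ⟨L, B, hL, hB, hsm⟩ := f1.sp2_sm
  have h1 := f1.tlt_cont (g := fun t y => tlt g (W + t * -1) F (iteratedDeriv 1 F) y ^ 2)
    (f1.c1.pow 2) (B := L ^ 2) (fun t ht y => by
      rw [abs_pow]
      exact pow_le_pow_left₀ (abs_nonneg _) ((hsm t ht).bM y) 2) g' 0 1
  simp only [ex_gstep_d1 hF hg]
  refine h1.congr fun p _ => ?_
  simp only [mul_one, mul_neg, ← sub_eq_add_neg, zero_add]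

/-- the path with the level `l + 1` moved to `r l + t` -/
lemma fvd_path {b : ℝ} {n : ℕ} {r : ℕ → ℝ} {l : ℕ} (h : BPath b n r) (hl : l < n) {t : ℝ}
    (ht : t ∈ Icc 0 (r (l + 1) - r l)) : BPath b n (Function.update r (l + 1) (r l + t)) := by
  have hne : ∀ i, i ≠ l + 1 → Function.update r (l + 1) (r l + t) i = r i := fun i hi =>
    Function.update_of_ne hi _ _
  have he : Function.update r (l + 1) (r l + t) (l + 1) = r l + t := Function.update_self _ _ _
  have h0 : Function.update r (l + 1) (r l + t) 0 = r 0 := hne 0 (by omega)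
  have ht1 : r l + t ≤ r (l + 1) := by linarith [ht.2]
  refine ⟨h0.trans h.1, ⟨?_, ?_⟩, ?_⟩
  · rw [h0]; exact h.2.1.1
  · intro i hi
    by_cases h1 : i = l + 1
    · subst h1
      rw [he, hne (l + 1 + 1) (by omega)]
      exact ht1.trans (h.2.1.2 (l + 1) hi)
    · rw [hne i h1]
      by_cases h2 : i + 1 = l + 1
      · have h3 : i = l := by omega
        subst h3
        rw [he]
        linarith [ht.1]
      · rw [hne (i + 1) h2]
        exact h.2.1.2 i hi
  · by_cases h1 : n = l + 1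
    · rw [h1, he]
      exact ht1.trans (long_r_le h (show l + 1 ≤ n by omega))
    · rw [hne n h1]
      exact h.2.2

/-- the quadratic part of the modified path -/
lemma fvd_sum {n : ℕ} {m r : ℕ → ℝ} {l : ℕ} (hl : l < n) (a : ℝ) :
    ∑ i ∈ Finset.range (n + 1), (m (i + 1) - m i) * Function.update r (l + 1) a i ^ 2 =
      ∑ i ∈ Finset.range (n + 1), (m (i + 1) - m i) * r i ^ 2 +
        (m (l + 2) - m (l + 1)) * (a ^ 2 - r (l + 1) ^ 2) := by
  have hmem : l + 1 ∈ Finset.range (n + 1) := by rw [Finset.mem_range]; omega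
  rw [← Finset.add_sum_erase _ _ hmem, ← Finset.add_sum_erase (Finset.range (n + 1))
    (fun i => (m (i + 1) - m i) * r i ^ 2) hmem]
  have h1 : ∑ i ∈ (Finset.range (n + 1)).erase (l + 1),
      (m (i + 1) - m i) * Function.update r (l + 1) a i ^ 2 =
      ∑ i ∈ (Finset.range (n + 1)).erase (l + 1), (m (i + 1) - m i) * r i ^ 2 := by
    refine Finset.sum_congr rfl fun i hi => ?_
    rw [Function.update_of_ne (Finset.ne_of_mem_erase hi)]
  rw [h1, Function.update_self]
  ring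

/-- the cascade of the modified path -/
lemma fvd_spin {b : ℝ} {n : ℕ} {m r : ℕ → ℝ} {l : ℕ} (hm : Exponents n m) (h : BPath b n r)
    (hl : l < n) {t : ℝ} (ht : t ∈ Icc 0 (r (l + 1) - r l)) :
    spinPart n m (Function.update r (l + 1) (r l + t)) =
      cascade m (Function.update r (l + 1) (r l + t)) (l + 1)
        (gstep (m (l + 2)) (r (l + 1) - r l - t) (Fl n m r (l + 1))) 0 - r n / 2 := by
  have hP := fvd_path h hl ht
  have hne : ∀ i, i ≠ l + 1 → Function.update r (l + 1) (r l + t) i = r i := fun i hi =>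
    Function.update_of_ne hi _ _
  have he : Function.update r (l + 1) (r l + t) (l + 1) = r l + t := Function.update_self _ _ _
  have hpos : ∀ i, 1 ≤ i → i ≤ n + 1 → 0 < m i := fun i h1 h2 => gapn_exp_pos hm h1 h2
  have hle1 : ∀ i, i ≤ n + 1 → m i ≤ 1 := fun i h2 => gapn_exp_le_one hm h2
  have hV : 0 ≤ r (l + 1) - r l - t := by linarith [ht.2]
  rw [minb_spin hP.1, fl_split (m := m) (r := Function.update r (l + 1) (r l + t))
    (show l + 1 ≤ n by omega)]
  by_cases h1 : n = l + 1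
  · subst h1
    rw [he]
    have e2 : Fl (l + 1) m (Function.update r (l + 1) (r l + t)) (l + 1) = lc := fl_last
    have e3 : Fl (l + 1) m r (l + 1) = lc := fl_last
    rw [e2, e3, show m (l + 2) = 1 from hm.2.1, minb_lc_step hV,
      minb_cascade_const (fun i h2 h3 => hpos i h2 (by omega)) (fun i h2 h3 => hle1 i (by omega))
        (fun i hi => hP.2.1.2 i (by omega)) adm_lc]
    ring
  · have hL1 : l + 1 < n := by omega
    rw [hne n h1, fl_succ hL1, he, hne (l + 1 + 1) (by omega)]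
    have e4 : Fl n m (Function.update r (l + 1) (r l + t)) (l + 1 + 1) = Fl n m r (l + 1 + 1) := by
      unfold Fl
      congr 1
      funext i
      exact hne _ (by omega)
    obtain ⟨C, hG⟩ := fl_good hm h.2.1 (l := l + 1 + 1) (by omega)
    rw [e4, fl_succ (m := m) (r := r) hL1, gstep_add hG.adm (hpos (l + 2) (by omega) (by omega)) hV
      (sub_nonneg.2 (h.2.1.2 (l + 1) hL1))]
    congr 4
    ring

/-- nested averages up to the level `l + 1` of the modified path -/
lemma fvd_chn {m r : ℕ → ℝ} {l : ℕ} (a : ℝ) (G ψ : ℝ → ℝ) :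
    chn m (Function.update r (l + 1) (r l + a)) (l + 1) G ψ =
      chn m r l (gstep (m (l + 1)) a G) (tlt (m (l + 1)) a G ψ) := by
  have hne : ∀ i, i ≠ l + 1 → Function.update r (l + 1) (r l + a) i = r i := fun i hi =>
    Function.update_of_ne hi _ _
  have hc : ∀ (c : ℕ), c ≤ l → ∀ H φ : ℝ → ℝ,
      chn m (Function.update r (l + 1) (r l + a)) c H φ = chn m r c H φ := by
    intro c
    induction c with
    | zero => intro _ H φ; rw [chn_zero_def, chn_zero_def, hne 0 (by omega)]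
    | succ c ih =>
      intro hcl H φ
      rw [chn_succ_def, chn_succ_def, hne (c + 1) (by omega), hne c (by omega), ih (by omega)]
  rw [chn_succ_def, Function.update_self, hne l (by omega), hc l le_rfl, add_sub_cancel_left]

lemma fvd_casc {m r : ℕ → ℝ} {l : ℕ} (a : ℝ) (G : ℝ → ℝ) :
    cascade m (Function.update r (l + 1) (r l + a)) (l + 1) G =
      cascade m r l (gstep (m (l + 1)) a G) := by
  have hne : ∀ i, i ≠ l + 1 → Function.update r (l + 1) (r l + a) i = r i := fun i hi =>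
    Function.update_of_ne hi _ _
  rw [cascade_succ_def, Function.update_self, hne l (by omega), add_sub_cancel_left]
  exact minb_congr (fun _ _ _ => rfl) (fun i hi => hne i (by omega)) _

theorem var_down {b : ℝ} (hb : 1 < b) : ∃ C : ℝ, 1 ≤ C ∧ ∀ (n : ℕ) (r : ℕ → ℝ) (l : ℕ),
    IsMin b n (gm n) r → l < n → ∀ t ∈ Icc 0 (r (l + 1) - r l),
      -(C / (n + 1) * (r (l + 1) - r l - t) ^ 2) ≤
        ∫ s in t..(r (l + 1) - r l), (Rb n (gm n) r l s - (r l + s) / b ^ 2) := by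
  have hb0 : 0 < b := by linarith
  obtain ⟨K, hK0, htilt⟩ := fvd_tilt (b ^ 2)
  refine ⟨1 + K + Real.exp (b ^ 2), ?_, ?_⟩
  · have := Real.exp_pos (b ^ 2)
    linarith
  intro n r l h hl t ht
  have hm := gm_exponents n
  have hpath := h.1.2.1
  have hg := long_gm_pos n l
  have hg1 : gm n (l + 1) ≤ 1 := long_gm_le (by omega)
  have hg2 := long_gm_pos n (l + 1)
  have hg21 : gm n (l + 1 + 1) ≤ 1 := long_gm_le (by omega)
  have hgg := long_gm_lt n (l + 1)
  have hδ := gm_sub n (l + 1)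
  have hr0 := long_r_nonneg h.1 hl.le
  have hrb := long_r_le h.1 hl.le
  have hrb1 := long_r_le h.1 (show l + 1 ≤ n by omega)
  have hFs := fl_aks hm hpath (show l + 1 ≤ n by omega)
  have hF := hFs.adm
  have hsucc := fl_succ (m := gm n) (r := r) hl
  have hP := fvd_path h.1 hl ht
  have hmin := h.2 _ hP
  unfold SKr at hmin
  rw [fvd_spin hm h.1 hl ht, minb_spin h.1.1, fvd_sum hl, fl_split (m := gm n) (r := r) hl.le,
    hsucc] at hmin
  have ht0 : 0 ≤ t := ht.1
  have hV : 0 ≤ r (l + 1) - r l - t := by linarith [ht.2]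
  have hgd2 : gm n (l + 2) = gm n (l + 1 + 1) := rfl
  rw [hgd2] at hmin
  have hRbd : ∀ s, Rb n (gm n) r l s = chn (gm n) r l (Fl n (gm n) r l)
      (tlt (gm n (l + 1)) s (gstep (gm n (l + 1)) (r (l + 1) - r l - s) (Fl n (gm n) r (l + 1)))
        (fun x => iteratedDeriv 1 (gstep (gm n (l + 1)) (r (l + 1) - r l - s)
          (Fl n (gm n) r (l + 1))) x ^ 2)) := fun s => rfl
  set F := Fl n (gm n) r (l + 1) with hFd
  set g := gm n (l + 1) with hgd
  set g₂ := gm n (l + 1 + 1) with hg₂d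
  set V := r (l + 1) - r l with hVd
  set W := V - t with hWd
  have hWb : W ≤ b ^ 2 := by linarith
  set r' := Function.update r (l + 1) (r l + t) with hr'd
  -- the two functions
  have hG1 := hF.step hg hg1 hV
  have hG2 := hF.step hg2 hg21 hV
  have e0 : cascade (gm n) r l (gstep g V F) = cascade (gm n) r' (l + 1) (gstep g W F) := by
    rw [hr'd, fvd_casc, ← hgd, gstep_add hF hg ht0 hV]
    congr 2
    rw [hWd]
    ring
  rw [e0] at hmin
  have hE1 : Sp7Exp (gm n) (l + 1) := fun i hi => ⟨long_gm_pos n i, long_gm_le (by omega)⟩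
  have hE0 : Sp7Exp (gm n) l := fun i hi => ⟨long_gm_pos n i, long_gm_le (by omega)⟩
  have hd0 : 0 < g₂ - g := by linarith
  set η : ℝ := 1 / 2 * (g₂ - g) * W with hηd
  have hη0 : 0 ≤ η := by positivity
  have hbd : ∀ x, |gstep g₂ W F x - gstep g W F x| ≤ η := by
    intro x
    have h1 := gstep_exp_mono hF hg hgg.le hg21 hV x
    have h2 := gstep_exp_lip hF hg hgg.le hg21 hV x
    rw [abs_le]
    constructor <;> linarith
  have hΔ0 : ∀ x, 0 ≤ gstep g₂ W F x - gstep g W F x := fun x => by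
    have h1 := gstep_exp_mono hF hg hgg.le hg21 hV x
    linarith
  have hconv := casc_convex (m := gm n) (r := r') (l := l + 1) hG1 hG2 hP.1
    hE1 (fun i hi => hP.2.1.2 i (by omega)) ⟨η, hbd⟩
  have cd : Sp7Cb (fun x => gstep g₂ W F x - gstep g W F x) :=
    ⟨(ex_ec hG2).sm.cont.sub (ex_ec hG1).sm.cont, η, hbd⟩
  -- change of the measure
  have hchg := fvd_chn_change (m := gm n) (r := r') (l := l + 1) (by simp [gm]) hE1
    (fun i hi => (long_gm_lt n i).le) hG2 hG1 (fun i hi => hP.2.1.2 i (by omega)) hbd cd hΔ0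
  -- the tilted averages
  set φ : ℝ → ℝ → ℝ := fun τ => tlt g₂ τ (gstep g (W - τ) F)
    (fun y => iteratedDeriv 1 (gstep g (W - τ) F) y ^ 2) with hφ
  set φ₁ : ℝ → ℝ → ℝ := fun τ => tlt g τ (gstep g (W - τ) F)
    (fun y => iteratedDeriv 1 (gstep g (W - τ) F) y ^ 2) with hφ₁
  have hφc : ContinuousOn (fun p : ℝ × ℝ => φ p.1 p.2) (Icc 0 W ×ˢ univ) :=
    fvd_joint hF hg g₂
  have hφ₁c : ContinuousOn (fun p : ℝ × ℝ => φ₁ p.1 p.2) (Icc 0 W ×ˢ univ) :=
    fvd_joint hF hg g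
  have hφm : ∀ τ x, 0 ≤ φ τ x ∧ φ τ x ≤ 1 := fun τ x => ex_tlt_mem hF hg hg1 (W - τ) τ x
  have hφ₁m : ∀ τ x, 0 ≤ φ₁ τ x ∧ φ₁ τ x ≤ 1 := fun τ x => ex_tlt_mem hF hg hg1 (W - τ) τ x
  have hφb : ∀ τ ∈ Icc 0 W, ∀ x, |φ τ x| ≤ 1 := fun τ _ x => by
    rw [abs_of_nonneg (hφm τ x).1]; exact (hφm τ x).2
  have hφ₁b : ∀ τ ∈ Icc 0 W, ∀ x, |φ₁ τ x| ≤ 1 := fun τ _ x => by
    rw [abs_of_nonneg (hφ₁m τ x).1]; exact (hφ₁m τ x).2
  have hdiff : ∀ x, gstep g₂ W F x - gstep g W F x =
      1 / 2 * (g₂ - g) * ∫ τ in (0 : ℝ)..W, φ τ x := fun x =>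
    gstep_diff hF hg hg1 hg2 hg21 hV x
  have hint := chn_integral (m := gm n) (r := r') (l := l + 1) hE1 (ex_ec hG1) hV hφc hφb
  have hint₁ := chn_integral (m := gm n) (r := r') (l := l + 1) hE1 (ex_ec hG1) hV hφ₁c hφ₁b
  obtain ⟨X, hX⟩ : ∃ X, X = ∫ τ in (0 : ℝ)..W, chn (gm n) r' (l + 1) (gstep g W F) (φ τ) := ⟨_, rfl⟩
  have hXe : chn (gm n) r' (l + 1) (gstep g W F) (fun x => gstep g₂ W F x - gstep g W F x) =
      1 / 2 * (g₂ - g) * X := by
    have e1 : (fun x => gstep g₂ W F x - gstep g W F x) =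
        fun x => 1 / 2 * (g₂ - g) * ∫ τ in (0 : ℝ)..W, φ τ x := funext hdiff
    rw [e1, long_chn_smul, hint.2, hX]
  -- the values of `Rb`
  have hRb : ∀ τ ∈ Icc 0 W, chn (gm n) r' (l + 1) (gstep g W F) (φ₁ τ) = Rb n (gm n) r l (t + τ) := by
    intro τ hτ
    have hτ' : 0 ≤ W - τ := by linarith [hτ.2]
    have hGτ := hF.step hg hg1 hτ'
    have e1 : gstep g W F = gstep g τ (gstep g (W - τ) F) := by
      rw [gstep_add hF hg hτ.1 hτ']
      congr 1
      ring
    have e2 : V - (t + τ) = W - τ := by rw [hWd]; ring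
    rw [hRbd, hr'd, fvd_chn, ← hgd, e2, hsucc, gstep_add hF hg ht0 hV]
    congr 1
    · congr 1
      rw [hWd]; ring
    · funext x
      simp only [hφ₁]
      rw [e1, tlt_comp hGτ hg ht0 hτ.1 (sp7_cb_sq (nest_cb1 hGτ))]
  -- comparison of the tilts
  have hle : ∀ τ ∈ Icc 0 W, chn (gm n) r' (l + 1) (gstep g W F) (φ τ) ≤
      Rb n (gm n) r l (t + τ) + K * (g₂ - g) * W := by
    intro τ hτ
    rw [← hRb τ hτ]
    have hτ' : 0 ≤ W - τ := by linarith [hτ.2]
    have hGτ := hF.step hg hg1 hτ'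
    have c1 : Sp7Cb (φ τ) := sp7_cb_tlt (ex_ec hGτ) (sp7_cb_sq (nest_cb1 hGτ)) _ _
    have c2 : Sp7Cb (φ₁ τ) := sp7_cb_tlt (ex_ec hGτ) (sp7_cb_sq (nest_cb1 hGτ)) _ _
    have h1 := sp7_chn_mono (gm n) r' (l + 1) hE1 (ex_ec hG1) c1
      (sp7_cb_add c2 (sp7_cb_const (K * (g₂ - g) * W))) (fun x => by
        have h2 := htilt _ _ _ _ hGτ hg hgg.le hg21 τ ⟨hτ.1, hτ.2.trans hWb⟩ x
        have h3 : K * (g₂ - g) * τ ≤ K * (g₂ - g) * W :=
          mul_le_mul_of_nonneg_left hτ.2 (mul_nonneg hK0 hd0.le)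
        have h4 := (abs_le.1 h2).2
        simp only [hφ, hφ₁]
        linarith)
    rwa [sp7_chn_add (gm n) r' (l + 1) hE1 (ex_ec hG1) c2 (sp7_cb_const _),
      sp7_chn_const (gm n) r' (l + 1) hE1 (ex_ec hG1)] at h1
  have hRc : ContinuousOn (fun τ => Rb n (gm n) r l (t + τ)) (Icc 0 W) :=
    hint₁.1.congr fun τ hτ => (hRb τ hτ).symm
  have hX0 : 0 ≤ X := by
    rw [hX]
    refine intervalIntegral.integral_nonneg hV fun τ hτ => ?_
    have hτ' : 0 ≤ W - τ := by linarith [hτ.2]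
    have hGτ := hF.step hg hg1 hτ'
    have h1 := sp7_chn_mono (gm n) r' (l + 1) hE1 (ex_ec hG1) (sp7_cb_const 0)
      (sp7_cb_tlt (ex_ec hGτ) (sp7_cb_sq (nest_cb1 hGτ)) g₂ τ) (fun x => (hφm τ x).1)
    rwa [sp7_chn_const (gm n) r' (l + 1) hE1 (ex_ec hG1)] at h1
  have hX1 : X ≤ W := by
    have h1 : X ≤ ∫ _τ in (0 : ℝ)..W, (1 : ℝ) := by
      rw [hX]
      refine intervalIntegral.integral_mono_on hV (hint.1.intervalIntegrable_of_Icc hV)
        intervalIntegrable_const fun τ hτ => ?_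
      have hτ' : 0 ≤ W - τ := by linarith [hτ.2]
      have hGτ := hF.step hg hg1 hτ'
      have h1 := sp7_chn_mono (gm n) r' (l + 1) hE1 (ex_ec hG1)
        (sp7_cb_tlt (ex_ec hGτ) (sp7_cb_sq (nest_cb1 hGτ)) g₂ τ) (sp7_cb_const 1)
        (fun x => (hφm τ x).2)
      rwa [sp7_chn_const (gm n) r' (l + 1) hE1 (ex_ec hG1)] at h1
    rwa [intervalIntegral.integral_const, smul_eq_mul, mul_one, sub_zero] at h1
  have hX2 : X ≤ (∫ s in t..V, Rb n (gm n) r l s) + K * (g₂ - g) * W ^ 2 := by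
    have h1 : X ≤ ∫ τ in (0 : ℝ)..W, (Rb n (gm n) r l (t + τ) + K * (g₂ - g) * W) := by
      rw [hX]
      refine intervalIntegral.integral_mono_on hV (hint.1.intervalIntegrable_of_Icc hV)
        ((hRc.intervalIntegrable_of_Icc hV).add intervalIntegrable_const) fun τ hτ => hle τ hτ
    rw [intervalIntegral.integral_add (hRc.intervalIntegrable_of_Icc hV) intervalIntegrable_const,
      intervalIntegral.integral_const, smul_eq_mul, sub_zero,
      intervalIntegral.integral_comp_add_left (fun s => Rb n (gm n) r l s) t, add_zero] at h1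
    have e1 : t + W = V := by rw [hWd]; ring
    rw [e1] at h1
    refine h1.trans (le_of_eq ?_)
    ring
  -- the inequality from the minimality
  have hexp : Real.exp (2 * η) ≤ 1 + Real.exp (b ^ 2) * ((g₂ - g) * W) := by
    have e1 : 2 * η = (g₂ - g) * W := by rw [hηd]; ring
    rw [e1]
    set u := (g₂ - g) * W with hu
    have hu0 : 0 ≤ u := mul_nonneg hd0.le hV
    have hu1 : u ≤ b ^ 2 := by
      have h1 : g₂ - g ≤ 1 := by linarith
      calc u ≤ 1 * W := mul_le_mul_of_nonneg_right h1 hV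
        _ ≤ b ^ 2 := by rw [one_mul]; exact hWb
    have h7 := Real.add_one_le_exp (-u)
    have h8 := Real.exp_pos u
    have h9 : Real.exp (-u) * Real.exp u = 1 := by rw [← Real.exp_add]; simp
    have h10 := mul_le_mul_of_nonneg_right h7 h8.le
    rw [h9] at h10
    have h11 : Real.exp u ≤ Real.exp (b ^ 2) := Real.exp_le_exp.2 hu1
    have h12 := mul_le_mul_of_nonneg_left h11 hu0
    linarith
  have hmain : (g₂ - g) * ((r (l + 1) ^ 2 - (r l + t) ^ 2) / (4 * b ^ 2)) ≤
      Real.exp (2 * η) * (1 / 2 * (g₂ - g) * X) := by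
    rw [hXe] at hchg
    have e2 : (∑ i ∈ Finset.range (n + 1), (gm n (i + 1) - gm n i) * r i ^ 2 +
        (g₂ - g) * ((r l + t) ^ 2 - r (l + 1) ^ 2)) / (4 * b ^ 2) =
        (∑ i ∈ Finset.range (n + 1), (gm n (i + 1) - gm n i) * r i ^ 2) / (4 * b ^ 2) -
          (g₂ - g) * ((r (l + 1) ^ 2 - (r l + t) ^ 2) / (4 * b ^ 2)) := by
      ring
    rw [e2] at hmin
    linarith
  have hmain2 : (r (l + 1) ^ 2 - (r l + t) ^ 2) / (2 * b ^ 2) ≤ Real.exp (2 * η) * X := by
    have e3 : (g₂ - g) * ((r (l + 1) ^ 2 - (r l + t) ^ 2) / (4 * b ^ 2)) =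
        (1 / 2 * (g₂ - g)) * ((r (l + 1) ^ 2 - (r l + t) ^ 2) / (2 * b ^ 2)) := by
      field_simp
      ring
    have e4 : Real.exp (2 * η) * (1 / 2 * (g₂ - g) * X) =
        (1 / 2 * (g₂ - g)) * (Real.exp (2 * η) * X) := by ring
    rw [e3, e4] at hmain
    exact le_of_mul_le_mul_left hmain (by linarith)
  have hmain3 : Real.exp (2 * η) * X ≤ X + Real.exp (b ^ 2) * (g₂ - g) * W ^ 2 := by
    have h1 := mul_le_mul_of_nonneg_right hexp hX0
    have h2 : Real.exp (b ^ 2) * ((g₂ - g) * W) * X ≤ Real.exp (b ^ 2) * ((g₂ - g) * W) * W :=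
      mul_le_mul_of_nonneg_left hX1
        (mul_nonneg (Real.exp_pos _).le (mul_nonneg hd0.le hV))
    have e1 : (1 + Real.exp (b ^ 2) * ((g₂ - g) * W)) * X =
        X + Real.exp (b ^ 2) * ((g₂ - g) * W) * X := by ring
    rw [e1] at h1
    refine h1.trans ?_
    have e5 : Real.exp (b ^ 2) * ((g₂ - g) * W) * W = Real.exp (b ^ 2) * (g₂ - g) * W ^ 2 := by ring
    linarith
  have htV : t ≤ V := ht.2
  have hRi : IntervalIntegrable (fun s => Rb n (gm n) r l s) volume t V := by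
    have h1 : ContinuousOn (fun s => Rb n (gm n) r l s) (Icc t V) := by
      have h2 := hRc.comp (f := fun s : ℝ => s - t) (s := Icc t V) (by fun_prop)
        (fun s hs => ⟨by linarith [hs.1], by rw [hWd]; linarith [hs.2]⟩)
      refine h2.congr fun s _ => ?_
      simp only [Function.comp_def, add_sub_cancel]
    exact h1.intervalIntegrable_of_Icc htV
  have hlin : ∫ s in t..V, (r l + s) / b ^ 2 = (r (l + 1) ^ 2 - (r l + t) ^ 2) / (2 * b ^ 2) := by
    rw [intervalIntegral.integral_div, intervalIntegral.integral_add intervalIntegrable_const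
      intervalIntegral.intervalIntegrable_id, intervalIntegral.integral_const, integral_id,
      smul_eq_mul]
    have e1 : r (l + 1) = V + r l := by rw [hVd]; ring
    rw [e1]
    field_simp
    ring
  rw [intervalIntegral.integral_sub hRi
    (ContinuousOn.intervalIntegrable_of_Icc htV (by fun_prop)), hlin]
  rw [hδ] at hX2 hmain3
  have hN : (0 : ℝ) < 1 / ((n : ℝ) + 1) := by positivity
  have e6 : (1 + K + Real.exp (b ^ 2)) / ((n : ℝ) + 1) * W ^ 2 =
      1 / ((n : ℝ) + 1) * W ^ 2 + K * (1 / ((n : ℝ) + 1)) * W ^ 2 +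
        Real.exp (b ^ 2) * (1 / ((n : ℝ) + 1)) * W ^ 2 := by ring
  rw [e6]
  have h20 : 0 ≤ 1 / ((n : ℝ) + 1) * W ^ 2 := by positivity
  linarith

end Vale.Agent.P367.Cl
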