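import Vale.Agent.P367.Cl.FSum0
import Vale.Agent.P367.Cl.FRep
import Vale.Agent.P367.Cl.FBlk
import Vale.Agent.P367.Cl.FBlk2
import Vale.Agent.P367.Cl.FVarUp
import Vale.Agent.P367.Cl.FVarDown
import Vale.Agent.P367.Cl.FReal

/-!
# P367, classical half, section SUM: full replica symmetry breaking
-/

open MeasureTheory ProbabilityTheory Filter Topology Set

namespace Vale.Agent.P367.Cl

open Vale.Agent.P157.Par
open Vale.Agent.P146.Gap
open Vale.Agent.P146.Pw2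

theorem sumHyp {b : ℝ} (hb : 1 < b) : SumHyp b where
  m2 := fun _ _ _ _ _ hm hr h0 hl ht hrt => M2b_nonneg hm hr h0 hl ht hrt
  rd := fun _ _ _ _ _ hm hr hl ht => Rb_deriv hm hr hl ht
  md := fun _ _ _ _ _ hm hr hl ht => Mb_deriv hm hr hl ht
  m1d := fun _ _ _ _ _ hm hr hl ht => M1b_deriv hm hr hl ht
  rc := fun _ _ _ _ hm hr hl => Rb_cont hm hr hl
  mc := fun _ _ _ _ hm hr hl => Mb_cont hm hr hl
  r0 := fun _ _ _ _ hm hr hl => Rb_zero hm hr hl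
  rv := fun _ _ _ _ hm hr hl => Rb_last hm hr hl
  m0 := fun _ _ _ _ hm hr hl => Mb_zero hm hr hl
  mv := fun _ _ _ _ hm hr hl => Mb_last hm hr hl
  low := fun _ _ _ _ _ hm hr hl ht => M1b_low hm hr hl ht
  bd := M1b_bd b
  up := var_up hb
  down := var_down hb
  block := fun hC hS => real_block hC hS
  first := fun hV hd hf hk h1 h2 h3 hf0 hfV => real_first hV hd hf hk h1 h2 h3 hf0 hfV

theorem full_rsb {b : ℝ} (hb : 1 < b) : ∃ C : ℝ, 1 ≤ C ∧ ∀ (n : ℕ) (r : ℕ → ℝ),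
    IsMin b n (gm n) r → ∑ l ∈ Finset.range n, ∫ t in (0 : ℝ)..(r (l + 1) - r l),
      |Mb n (gm n) r l t - 1 / b ^ 2| ≤ C / √((n : ℝ) + 1) :=
  full_rsb_of hb (sumHyp hb)

/-- the last level: `Ml n ≤ 1/b² + small` (`Mb` is Lipschitz and `r n` is bounded below) -/
theorem last_level {b : ℝ} (hb : 1 < b) : ∃ C : ℝ, 1 ≤ C ∧ ∀ (n : ℕ) (r : ℕ → ℝ),
    C ≤ (n : ℝ) → IsMin b n (gm n) r →
      (b ^ 2 - r n) ^ 2 / b ^ 2 ≤ 1 + C / (((n : ℝ) + 1) ^ (1 / 4 : ℝ)) :=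
  last_level_of hb (sumHyp hb)

end Vale.Agent.P367.Cl
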