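import Vale.Agent.P367.Cl.FVal0
import Vale.Agent.P367.Cl.FSum

/-!
# P367, classical half: the value of the martingale algorithm
-/

open MeasureTheory ProbabilityTheory Filter Topology Set

namespace Vale.Agent.P367.Cl

open Vale.Agent.P157.Par
open Vale.Agent.P146.Gap
open Vale.Agent.P146.Pw2

/-- The output of the classical half: the value of the martingale algorithm. -/
theorem value_main {ε : ℝ} (hε : 0 < ε) : ∃ b₀ : ℝ, 1 < b₀ ∧ ∀ b, b₀ ≤ b → ∃ n₀ : ℕ, ∀ n, n₀ ≤ n →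
    ∀ r, IsMin b n (gm n) r →
      (SKr b n (gm n) r + Real.log 2) / b - ε ≤
        ∑ l ∈ Finset.range n, ∫ t in (0 : ℝ)..(r (l + 1) - r l),
          √(Mb n (gm n) r l t) * Ab n (gm n) r l t := by
  have hlog : 0 ≤ Real.log 2 := Real.log_nonneg (by norm_num)
  refine ⟨max 2 (2 * (1 / 4 + Real.log 2) / ε), lt_max_of_lt_left (by norm_num), fun b hb => ?_⟩
  have hb2 : 2 ≤ b := (le_max_left _ _).trans hb
  have hb1 : 1 < b := by linarith
  have hb0 : 0 < b := by linarith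
  have hbε : (1 / 4 + Real.log 2) / b ≤ ε / 2 := by
    have h1 := (le_max_right _ _).trans hb
    rw [div_le_iff₀ hε] at h1
    rw [div_le_iff₀ hb0]
    linarith
  obtain ⟨C, hC1, hC⟩ := full_rsb hb1
  obtain ⟨C', hC'1, hC'⟩ := last_level hb1
  have hcast : Tendsto (fun n : ℕ => ((n : ℝ) + 1)) atTop atTop :=
    tendsto_atTop_add_const_right _ _ tendsto_natCast_atTop_atTop
  have l1 : Tendsto (fun n : ℕ => C' / (((n : ℝ) + 1) ^ (1 / 4 : ℝ))) atTop (𝓝 0) :=
    ((tendsto_rpow_atTop (by norm_num)).comp hcast).const_div_atTop C'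
  have l2 : Tendsto (fun n : ℕ => C / √((n : ℝ) + 1)) atTop (𝓝 0) :=
    (Real.tendsto_sqrt_atTop.comp hcast).const_div_atTop C
  have l3 : Tendsto (fun n : ℕ => C' / (((n : ℝ) + 1) ^ (1 / 4 : ℝ))
      + 3 / 2 * b * (C / √((n : ℝ) + 1))) atTop (𝓝 0) := by
    have := l1.add (l2.const_mul (3 / 2 * b))
    rwa [mul_zero, add_zero] at this
  have l4 := (l3.eventually (eventually_le_nhds (show (0 : ℝ) < ε / 2 by linarith))).and
    (tendsto_natCast_atTop_atTop.eventually (eventually_ge_atTop C'))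
  obtain ⟨n₀, hn₀⟩ := eventually_atTop.1 l4
  refine ⟨n₀, fun n hn r hr => ?_⟩
  obtain ⟨hsmall, hbig⟩ := hn₀ n hn
  have hm := gm_exponents n
  have hpath : Path n r := hr.1.2.1
  have e := value_id hb0 hm hpath hr.1.1
  have hL := hC' n r hbig hr
  have hS := hC n r hr
  have h2 := fval_S2 hb0 hm hr
  have hA := fval_SA hb0 hm hpath
  have hl := fval_last hm hpath
  set SA := ∑ l ∈ Finset.range n, ∫ t in (0 : ℝ)..(r (l + 1) - r l), Ab n (gm n) r l t
  set SM := ∑ l ∈ Finset.range n, ∫ t in (0 : ℝ)..(r (l + 1) - r l),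
    √(Mb n (gm n) r l t) * Ab n (gm n) r l t
  set SD := ∑ l ∈ Finset.range n, ∫ t in (0 : ℝ)..(r (l + 1) - r l),
    |Mb n (gm n) r l t - 1 / b ^ 2|
  set S2 := ∑ l ∈ Finset.range n, ∫ t in (0 : ℝ)..(r (l + 1) - r l),
    gm n (l + 1) / 2 * (Rb n (gm n) r l t - (r l + t) / b ^ 2)
  set E1 := Ee n (gm n) r n (fun x => lc x - x * Real.tanh x)
  set X := C' / (((n : ℝ) + 1) ^ (1 / 4 : ℝ)) with hX
  set Y := C / √((n : ℝ) + 1) with hY
  have hX0 : 0 ≤ X := by positivity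
  have hY0 : 0 ≤ Y := by positivity
  have hSD : S2 ≤ b ^ 2 / 2 * Y := h2.trans (mul_le_mul_of_nonneg_left hS (by positivity))
  have hAM : SA / b ≤ SM + b * Y := by
    have := mul_le_mul_of_nonneg_left hS hb0.le
    linarith
  have hQ : (b ^ 2 - r n) ^ 2 / (4 * b ^ 2) ≤ (1 + X) / 4 := by
    have : (b ^ 2 - r n) ^ 2 / (4 * b ^ 2) = (b ^ 2 - r n) ^ 2 / b ^ 2 / 4 := by
      field_simp
    rw [this]
    linarith
  have hT : (SKr b n (gm n) r + Real.log 2) / b ≤
      SA / b + (1 / 4 + Real.log 2) / b + X + b / 2 * Y := by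
    have h3 : SKr b n (gm n) r + Real.log 2 ≤
        SA + (1 / 4 + Real.log 2) + b * X + b * (b / 2 * Y) := by
      have h4 : X / 4 ≤ b * X := by nlinarith
      have h5 : b ^ 2 / 2 * Y = b * (b / 2 * Y) := by ring
      rw [e]
      linarith
    rw [div_le_iff₀ hb0]
    have h6 : (SA / b + (1 / 4 + Real.log 2) / b + X + b / 2 * Y) * b =
        SA + (1 / 4 + Real.log 2) + b * X + b * (b / 2 * Y) := by
      field_simp
    rw [h6]
    exact h3
  linarith

end Vale.Agent.P367.Cl
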