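import Vale.Agent.P367.Cl.EAsm0
import Vale.Agent.P367.Cl.EGue
import Vale.Agent.P367.Cl.ERie
import Vale.Agent.P367.Cl.FVal

/-!
# P367, classical half: Theorem C
-/

open MeasureTheory ProbabilityTheory Filter Topology Set

namespace Vale.Agent.P367.Cl

open Vale.Agent.P157.Par
open Vale.Agent.P146.Gap
open Vale.Agent.P146.Pw2

/-- the pairs of neighbours inside the blocks -/
theorem asm_sum {a : ℕ → ℝ} (ha : ∀ k, 0 ≤ a k) {J : ℕ} (hJ : 1 ≤ J) : ∀ n : ℕ, 1 ≤ n →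
    ∑ l ∈ Finset.range n, ∑ j ∈ Finset.range (J - 1), a (l * J + j) ≤
      ∑ k ∈ Finset.range (n * J - 1), a k
  | 0, h => absurd h (by omega)
  | 1, _ => by simp
  | n + 2, _ => by
    have ih := asm_sum ha hJ (n + 1) (by omega)
    have e : (n + 2) * J - 1 = (n + 1) * J + (J - 1) := by
      have : (n + 2) * J = (n + 1) * J + J := by ring
      omega
    rw [Finset.sum_range_succ, e, Finset.sum_range_add a ((n + 1) * J) (J - 1)]
    refine add_le_add (ih.trans ?_) le_rfl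
    exact Finset.sum_le_sum_of_subset_of_nonneg (Finset.range_mono (Nat.sub_le _ _))
      fun _ _ _ => ha _

theorem asm_prod {p q P Q e e' : ℝ} (hQ : 0 ≤ P) (hP : P ≤ 1) (hq0 : 0 ≤ q) (hq : q ≤ 1)
    (he : 0 ≤ e) (he' : 0 ≤ e') (h1 : P - e' ≤ p) (h2 : Q - e ≤ q) :
    P * Q - (e + e') ≤ p * q := by
  have h3 : P * (Q - q) ≤ e := by nlinarith
  have h4 : q * (P - p) ≤ e' := by nlinarith
  nlinarith

theorem asm_sqrt {x y e : ℝ} (hx : 0 ≤ x) (he : 0 ≤ e) (h : y - e ≤ x) : √y - √e ≤ √x := by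
  have h1 : √y ≤ √(x + e) := Real.sqrt_le_sqrt (by linarith)
  have h2 : √(x + e) ≤ √x + √e := by
    refine Real.sqrt_le_iff.2 ⟨by positivity, ?_⟩
    nlinarith [Real.sq_sqrt hx, Real.sq_sqrt he,
      mul_nonneg (Real.sqrt_nonneg x) (Real.sqrt_nonneg e)]
  linarith

section J

variable {b : ℝ} {n : ℕ} {m r : ℕ → ℝ} {J : ℕ} {B C : ℝ}

theorem asm_adm
    (hst : ∀ k < n * J, St B (eμ m J k) (eδ n r J k) (eH n m r J k) (eH n m r J (k + 1))) (k : ℕ) :
    ∃ C, Adm C (eH n m r J k) := by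
  by_cases hk : k < n * J
  · exact ⟨B, (hst k hk).adm⟩
  · refine ⟨2, ?_⟩
    unfold eH
    rw [if_neg hk]
    exact adm_lc

theorem asm_δ0 (hr : BPath b n r) (k : ℕ) : 0 ≤ eδ n r J k := by
  unfold eδ
  split_ifs with h
  · have h1 : k / J < n := Nat.div_lt_of_lt_mul (by rwa [mul_comm] at h)
    have := hr.2.1.2 _ h1
    exact div_nonneg (by linarith) (Nat.cast_nonneg _)
  · exact le_rfl

theorem asm_r (hr : BPath b n r) {l : ℕ} (hl : l ≤ n) : 0 ≤ r l ∧ r l ≤ b ^ 2 := by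
  constructor
  · have := minb_mono hr.2.1.2 (Nat.zero_le l) hl
    rwa [hr.1] at this
  · exact (minb_mono hr.2.1.2 hl le_rfl).trans hr.2.2

theorem asm_δ1 (hr : BPath b n r) {k : ℕ} (hJ : 0 < J) : eδ n r J k ≤ b ^ 2 / J := by
  unfold eδ
  split_ifs with h
  · have h1 : k / J < n := Nat.div_lt_of_lt_mul (by rwa [mul_comm] at h)
    have h2 := (asm_r hr (l := k / J + 1) h1).2
    have h3 := (asm_r hr (l := k / J) h1.le).1
    have : (0 : ℝ) < J := by exact_mod_cast hJ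
    gcongr
    linarith
  · positivity

/-- one neighbouring pair -/
theorem asm_pair (hm : Exponents n m) (hr : BPath b n r) (hJ : 0 < J)
    (hst : ∀ k < n * J, St B (eμ m J k) (eδ n r J k) (eH n m r J k) (eH n m r J (k + 1)))
    {η : ℝ} (hη : 0 ≤ η) (hw : ∀ k ≤ n * J, ∀ ψ : ℝ → ℝ, Continuous ψ → (∀ x, |ψ x| ≤ 1) →
      |tE (eμ m J) (eδ n r J) (eH n m r J) k ψ -
        ∫ G, ψ (cX (eF (eμ m J) (eδ n r J) (eH n m r J)) (fun k => √(eδ n r J k)) (ext G) k)
          ∂(γN (n * J))| ≤ η)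
    {a : ℝ} (ha : 0 ≤ a) {l j : ℕ} (hl : l < n) (hj : j + 1 < J) :
    (r (l + 1) - r l) / J * (√(Mb n m r l (j * ((r (l + 1) - r l) / J))) *
        Ab n m r l ((j + 1 : ℕ) * ((r (l + 1) - r l) / J)) - (η + √η)) ≤
      cs (n * J) (eF (eμ m J) (eδ n r J) (eH n m r J)) (fun k => √(eδ n r J k))
        (fun k x => (√(eδ n r J k) + a) * iteratedDeriv 2 (eH n m r J k) x) (l * J + j) *
      ca (n * J) (eF (eμ m J) (eδ n r J) (eH n m r J)) (fun k => √(eδ n r J k))
        (fun k x => (√(eδ n r J k) + a) * iteratedDeriv 2 (eH n m r J k) x) (l * J + j + 1) := by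
  set f := eF (eμ m J) (eδ n r J) (eH n m r J) with hf
  set c := fun k => √(eδ n r J k) with hc
  set H := eH n m r J with hH
  have hJ0 : (0 : ℝ) < J := by exact_mod_cast hJ
  have hv : 0 ≤ r (l + 1) - r l := by linarith [hr.2.1.2 l hl]
  have hm1 : m (l + 1) ≠ 0 := (sp7_exp_of hm l hl).1.ne'
  have hk1 : l * J + j < n * J := lnk_lt hl (by omega)
  have hk2 : l * J + (j + 1) < n * J := lnk_lt hl hj
  obtain ⟨C1, hA1⟩ := asm_adm hst (l * J + j)
  obtain ⟨C2, hA2⟩ := asm_adm hst (l * J + (j + 1))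
  -- tilted values
  have cb1 : Sp7Cb (fun x => iteratedDeriv 2 (H (l * J + j)) x ^ 2) :=
    ⟨(adm_cont hA1.smb.smooth 2).pow 2, 1, fun x => by
      rw [abs_of_nonneg (sq_nonneg _)]
      exact (sq_le_one_iff_abs_le_one _).2 (adm_d2_le hA1 x)⟩
  have cb2 : Sp7Cb (iteratedDeriv 2 (H (l * J + (j + 1)))) :=
    ⟨adm_cont hA2.smb.smooth 2, 1, fun x => adm_d2_le hA2 x⟩
  have eG : ∀ i : ℕ, i < J → H (l * J + i) = Gb n m r l (i * ((r (l + 1) - r l) / J)) :=
    fun i hi => by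
      rw [hH, lnk_eH hJ hl hi.le hm1]
      rfl
  have t1 : tE (eμ m J) (eδ n r J) H (l * J + j)
      (fun x => iteratedDeriv 2 (H (l * J + j)) x ^ 2) =
      Mb n m r l (j * ((r (l + 1) - r l) / J)) := by
    rw [hH, eH_tE hm hr hJ hl (by omega) cb1, eG j (by omega)]
    rfl
  have t2 : tE (eμ m J) (eδ n r J) H (l * J + (j + 1))
      (iteratedDeriv 2 (H (l * J + (j + 1)))) =
      Ab n m r l ((j + 1 : ℕ) * ((r (l + 1) - r l) / J)) := by
    rw [hH, eH_tE hm hr hJ hl hj cb2, eG (j + 1) hj]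
    rfl
  have w1 := hw (l * J + j) hk1.le _ cb1.1 fun x => by
    rw [abs_of_nonneg (sq_nonneg _)]
    exact (sq_le_one_iff_abs_le_one _).2 (adm_d2_le hA1 x)
  have w2 := hw (l * J + (j + 1)) hk2.le _ cb2.1 fun x => adm_d2_le hA2 x
  rw [t1] at w1
  rw [t2] at w2
  set I1 := ∫ G, iteratedDeriv 2 (H (l * J + j)) (cX f c (ext G) (l * J + j)) ^ 2
    ∂(γN (n * J)) with hI1
  set I2 := ∫ G, iteratedDeriv 2 (H (l * J + (j + 1))) (cX f c (ext G) (l * J + (j + 1)))
    ∂(γN (n * J)) with hI2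
  have hI10 : 0 ≤ I1 := integral_nonneg fun _ => sq_nonneg _
  have hI20 : 0 ≤ I2 := integral_nonneg fun _ => (hA2.pos _).le
  have hI21 : I2 ≤ 1 := by
    have h1 : I2 ≤ ∫ _ : Fin (n * J) → ℝ, (1 : ℝ) ∂(γN (n * J)) :=
      integral_mono_of_nonneg (ae_of_all _ fun _ => (hA2.pos _).le) (integrable_const _)
        (ae_of_all _ fun G => (le_abs_self _).trans (adm_d2_le hA2 _))
    simpa using h1
  have hMm : Mb n m r l (j * ((r (l + 1) - r l) / J)) ≤ 1 ∧
      0 ≤ Mb n m r l (j * ((r (l + 1) - r l) / J)) := by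
    have ht : (j * ((r (l + 1) - r l) / J) : ℝ) ∈ Icc 0 (r (l + 1) - r l) := by
      constructor
      · positivity
      · rw [mul_div_assoc', div_le_iff₀ hJ0, mul_comm]
        have : (j : ℝ) ≤ J := by exact_mod_cast (by omega : j ≤ J)
        exact mul_le_mul_of_nonneg_left this hv
    have := Mb_mem hm hr.2.1 hl ht
    exact ⟨this.2, this.1⟩
  have hAm : 0 ≤ Ab n m r l ((j + 1 : ℕ) * ((r (l + 1) - r l) / J)) := by
    have ht : ((j + 1 : ℕ) * ((r (l + 1) - r l) / J) : ℝ) ∈ Icc 0 (r (l + 1) - r l) := by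
      constructor
      · positivity
      · rw [mul_div_assoc', div_le_iff₀ hJ0, mul_comm]
        have : ((j + 1 : ℕ) : ℝ) ≤ J := by exact_mod_cast hj.le
        exact mul_le_mul_of_nonneg_left this hv
    exact (Ab_mem hm hr.2.1 hl ht).1
  have h1 : √(Mb n m r l (j * ((r (l + 1) - r l) / J))) - √η ≤ √I1 :=
    asm_sqrt hI10 hη (by linarith [(abs_le.1 w1).2])
  have h2 : Ab n m r l ((j + 1 : ℕ) * ((r (l + 1) - r l) / J)) - η ≤ I2 := by
    linarith [(abs_le.1 w2).2]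
  have h3 := asm_prod (Real.sqrt_nonneg _) (Real.sqrt_le_one.2 hMm.1) hI20 hI21 hη
    (Real.sqrt_nonneg η) h1 h2
  -- the two factors
  set δ := (r (l + 1) - r l) / J with hδ
  have hδ0 : 0 ≤ δ := div_nonneg hv hJ0.le
  have ed1 : eδ n r J (l * J + j) = δ := lnk_eδ hl (by omega)
  have ed2 : eδ n r J (l * J + (j + 1)) = δ := lnk_eδ hl hj
  have hcs : √δ * √I1 ≤ cs (n * J) f c
      (fun k x => (√(eδ n r J k) + a) * iteratedDeriv 2 (H k) x) (l * J + j) := by
    unfold cs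
    have e : ∀ G : Fin (n * J) → ℝ, ((√(eδ n r J (l * J + j)) + a) *
        iteratedDeriv 2 (H (l * J + j)) (cX f c (ext G) (l * J + j))) ^ 2 =
        (√δ + a) ^ 2 * iteratedDeriv 2 (H (l * J + j)) (cX f c (ext G) (l * J + j)) ^ 2 :=
      fun G => by rw [ed1, mul_pow]
    simp only [e]
    rw [integral_const_mul, Real.sqrt_mul (sq_nonneg _), Real.sqrt_sq (by positivity)]
    exact mul_le_mul_of_nonneg_right (by linarith) (Real.sqrt_nonneg _)
  have hca : √δ * I2 ≤ ca (n * J) f c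
      (fun k x => (√(eδ n r J k) + a) * iteratedDeriv 2 (H k) x) (l * J + j + 1) := by
    unfold ca
    show √δ * I2 ≤ ∫ G, (√(eδ n r J (l * J + (j + 1))) + a) *
      iteratedDeriv 2 (H (l * J + (j + 1))) (cX f c (ext G) (l * J + (j + 1))) ∂(γN (n * J))
    rw [ed2, integral_const_mul]
    exact mul_le_mul_of_nonneg_right (by linarith) hI20
  have h4 : δ * (√I1 * I2) = (√δ * √I1) * (√δ * I2) := by
    have : √δ * √δ = δ := Real.mul_self_sqrt hδ0
    calc δ * (√I1 * I2) = (√δ * √δ) * (√I1 * I2) := by rw [this]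
      _ = _ := by ring
  calc δ * (√(Mb n m r l (j * δ)) * Ab n m r l ((j + 1 : ℕ) * δ) - (η + √η))
      ≤ δ * (√I1 * I2) := mul_le_mul_of_nonneg_left h3 hδ0
    _ = (√δ * √I1) * (√δ * I2) := h4
    _ ≤ _ := mul_le_mul hcs hca (by positivity)
      ((mul_nonneg (Real.sqrt_nonneg _) (Real.sqrt_nonneg _)).trans hcs)

end J

theorem euler_main {b : ℝ} (hb : 1 < b) {n : ℕ} (hn : 1 ≤ n) {m r : ℕ → ℝ}
    (hm : Exponents n m) (hr : BPath b n r) {ε : ℝ} (hε : 0 < ε) :
    ∃ (N : ℕ) (f : ℕ → ℝ → ℝ) (c : ℕ → ℝ) (g : ℕ → ℝ → ℝ), 2 ≤ N ∧ Ctl N f c g ∧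
    (∫ G, (max (|cM f c g (ext G) N| - 1) 0) ^ 2 ∂(γN N)) ≤ ε ∧
    (∑ l ∈ Finset.range n, ∫ t in (0 : ℝ)..(r (l + 1) - r l),
          √(Mb n m r l t) * Ab n m r l t) - ε ≤
      ∑ k ∈ Finset.range (N - 1), cs N f c g k * ca N f c g (k + 1) := by
  obtain ⟨B, hB, hst⟩ := eH_st b
  obtain ⟨C₁, hC₁, hweak⟩ := euler_weak B
  obtain ⟨C₂, hC₂, hstrong⟩ := euler_strong B
  have hn0 : (0 : ℝ) < n := by exact_mod_cast hn
  have hb2 : 0 < b ^ 2 := by positivity
  -- limits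
  have tJ : Tendsto (fun J : ℕ => (J : ℝ)) atTop atTop := tendsto_natCast_atTop_atTop
  have tη : Tendsto (fun J : ℕ => √(Real.exp (C₁ * (n * b ^ 4 / J)) - 1)) atTop (𝓝 0) := by
    have h1 : Tendsto (fun J : ℕ => C₁ * (n * b ^ 4 / (J : ℝ))) atTop (𝓝 (C₁ * 0)) :=
      (tendsto_const_nhds.div_atTop tJ).const_mul _
    have h2 : Tendsto (fun J : ℕ => Real.exp (C₁ * (n * b ^ 4 / (J : ℝ))) - 1) atTop
        (𝓝 (Real.exp (C₁ * 0) - 1)) := ((Real.continuous_exp.tendsto _).comp h1).sub_const 1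
    rw [mul_zero, Real.exp_zero, sub_self] at h2
    have h3 := (Real.continuous_sqrt.tendsto 0).comp h2
    rwa [Real.sqrt_zero] at h3
  have tη2 : Tendsto (fun J : ℕ => n * b ^ 2 * (√(Real.exp (C₁ * (n * b ^ 4 / J)) - 1) +
      √(√(Real.exp (C₁ * (n * b ^ 4 / J)) - 1)))) atTop (𝓝 0) := by
    have h1 := (Real.continuous_sqrt.tendsto 0).comp tη
    rw [Real.sqrt_zero] at h1
    have h2 := (tη.add h1).const_mul (n * b ^ 2)
    rw [add_zero, mul_zero] at h2
    exact h2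
  have tS : Tendsto (fun J : ℕ => 2 * (C₂ * Real.exp (n * b ^ 2) * (n * b ^ 4 / J)) +
      2 * (n / J)) atTop (𝓝 0) := by
    have h1 : Tendsto (fun J : ℕ => (n * b ^ 4 / (J : ℝ))) atTop (𝓝 0) :=
      tendsto_const_nhds.div_atTop tJ
    have h2 : Tendsto (fun J : ℕ => (n / (J : ℝ))) atTop (𝓝 0) :=
      tendsto_const_nhds.div_atTop tJ
    have h3 := ((h1.const_mul (C₂ * Real.exp (n * b ^ 2))).const_mul 2).add (h2.const_mul 2)
    simpa using h3
  have ev1 := tη2.eventually (gt_mem_nhds (show (0 : ℝ) < ε / 2 by positivity))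
  have ev2 := tS.eventually (gt_mem_nhds hε)
  have ev3 : ∀ᶠ J : ℕ in atTop, ∀ l ∈ Finset.range n,
      (∫ t in (0 : ℝ)..(r (l + 1) - r l), √(Mb n m r l t) * Ab n m r l t) - ε / (2 * n) ≤
      ∑ j ∈ Finset.range (J - 1), (r (l + 1) - r l) / J *
        (√(Mb n m r l (j * ((r (l + 1) - r l) / J))) *
          Ab n m r l ((j + 1 : ℕ) * ((r (l + 1) - r l) / J))) := by
    rw [Filter.eventually_all_finset]
    intro l hl
    have hl' := Finset.mem_range.1 hl
    have hv : 0 ≤ r (l + 1) - r l := by linarith [hr.2.1.2 l hl']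
    exact riemann_low hv (Mb_cont hm hr.2.1 hl').sqrt (Ab_cont hm hr.2.1 hl')
      (fun t ht => ⟨Real.sqrt_nonneg _, Real.sqrt_le_one.2 (Mb_mem hm hr.2.1 hl' ht).2⟩)
      (fun t ht => Ab_mem hm hr.2.1 hl' ht) (by positivity)
  obtain ⟨J, h1, h2, h3, hJb, hJ2⟩ := (ev1.and (ev2.and (ev3.and
    ((tJ.eventually_ge_atTop (b ^ 2)).and (eventually_ge_atTop 2))))).exists
  have hJ : 0 < J := by omega
  have hJ0 : (0 : ℝ) < J := by exact_mod_cast hJ
  have hst' := hst n m r hm hr J hJb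
  have hN1 : 1 ≤ n * J := by nlinarith
  have ha : (0 : ℝ) < 1 / J := by positivity
  -- sums of the steps
  have s2 : ∑ j ∈ Finset.range (n * J), eδ n r J j ^ 2 ≤ n * b ^ 4 / J := by
    calc ∑ j ∈ Finset.range (n * J), eδ n r J j ^ 2
        ≤ ∑ _j ∈ Finset.range (n * J), (b ^ 2 / J) ^ 2 :=
          Finset.sum_le_sum fun j _ => pow_le_pow_left₀ (asm_δ0 hr j) (asm_δ1 hr hJ) 2
      _ = n * b ^ 4 / J := by
          rw [Finset.sum_const, Finset.card_range, nsmul_eq_mul]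
          push_cast
          field_simp
  have s1 : ∑ j ∈ Finset.range (n * J), eδ n r J j ≤ n * b ^ 2 := by
    calc ∑ j ∈ Finset.range (n * J), eδ n r J j
        ≤ ∑ _j ∈ Finset.range (n * J), (b ^ 2 / J) :=
          Finset.sum_le_sum fun j _ => asm_δ1 hr hJ
      _ = n * b ^ 2 := by
          rw [Finset.sum_const, Finset.card_range, nsmul_eq_mul]
          push_cast
          field_simp
  have s20 : 0 ≤ ∑ j ∈ Finset.range (n * J), eδ n r J j ^ 2 :=
    Finset.sum_nonneg fun _ _ => sq_nonneg _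
  refine ⟨n * J, eF (eμ m J) (eδ n r J) (eH n m r J), fun k => √(eδ n r J k),
    fun k x => (√(eδ n r J k) + 1 / J) * iteratedDeriv 2 (eH n m r J k) x, by nlinarith,
    ctl_of ha (asm_adm hst'), ?_, ?_⟩
  · have h4 := hstrong (n * J) (eμ m J) (eδ n r J) (eH n m r J) hN1 hst'
    refine (c2_of hN1 hst' h4).trans (le_trans ?_ h2.le)
    have h5 : C₂ * Real.exp (∑ j ∈ Finset.range (n * J), eδ n r J j) *
        ∑ j ∈ Finset.range (n * J), eδ n r J j ^ 2 ≤
        C₂ * Real.exp (n * b ^ 2) * (n * b ^ 4 / J) := by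
      refine mul_le_mul (mul_le_mul_of_nonneg_left (Real.exp_le_exp.2 s1) (by linarith)) s2 s20
        (by positivity)
    have h6 : (1 / (J : ℝ)) ^ 2 * ((n * J : ℕ) : ℝ) = n / J := by
      push_cast
      field_simp
    rw [h6]
    linarith
  · set η := √(Real.exp (C₁ * (n * b ^ 4 / J)) - 1) with hηdef
    have hη : 0 ≤ η := Real.sqrt_nonneg _
    have hw : ∀ k ≤ n * J, ∀ ψ : ℝ → ℝ, Continuous ψ → (∀ x, |ψ x| ≤ 1) →
      |tE (eμ m J) (eδ n r J) (eH n m r J) k ψ -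
        ∫ G, ψ (cX (eF (eμ m J) (eδ n r J) (eH n m r J)) (fun k => √(eδ n r J k)) (ext G) k)
          ∂(γN (n * J))| ≤ η := fun k hk ψ hψ hψ1 => by
      refine (hweak (n * J) _ _ _ hst' k hk ψ hψ hψ1).trans (Real.sqrt_le_sqrt ?_)
      have := Real.exp_le_exp.2 (mul_le_mul_of_nonneg_left s2 (by linarith : (0 : ℝ) ≤ C₁))
      linarith
    have hctl := ctl_of (N := n * J) (μ := eμ m J) (δ := eδ n r J) ha (asm_adm hst')
    set f := eF (eμ m J) (eδ n r J) (eH n m r J) with hf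
    set c := fun k => √(eδ n r J k) with hc
    set g := fun (k : ℕ) (x : ℝ) => (√(eδ n r J k) + 1 / (J : ℝ)) *
      iteratedDeriv 2 (eH n m r J k) x with hg
    have hnn : ∀ k, 0 ≤ cs (n * J) f c g k * ca (n * J) f c g (k + 1) := fun k =>
      mul_nonneg (Real.sqrt_nonneg _) (integral_nonneg fun G => (hctl.gp _ _).le)
    refine le_trans ?_ (asm_sum hnn (by omega) n hn)
    have h7 : ∀ l ∈ Finset.range n,
        (∫ t in (0 : ℝ)..(r (l + 1) - r l), √(Mb n m r l t) * Ab n m r l t) - ε / (2 * n) -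
          b ^ 2 * (η + √η) ≤
        ∑ j ∈ Finset.range (J - 1), cs (n * J) f c g (l * J + j) *
          ca (n * J) f c g (l * J + j + 1) := fun l hl => by
      have hl' := Finset.mem_range.1 hl
      have hv : 0 ≤ r (l + 1) - r l := by linarith [hr.2.1.2 l hl']
      have hvb : r (l + 1) - r l ≤ b ^ 2 := by
        have e1 := (asm_r hr (l := l + 1) hl').2
        have e2 := (asm_r hr (l := l) hl'.le).1
        linarith
      have h8 : ∑ j ∈ Finset.range (J - 1), (r (l + 1) - r l) / J *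
          (√(Mb n m r l (j * ((r (l + 1) - r l) / J))) *
            Ab n m r l ((j + 1 : ℕ) * ((r (l + 1) - r l) / J)) - (η + √η)) ≤
          ∑ j ∈ Finset.range (J - 1), cs (n * J) f c g (l * J + j) *
            ca (n * J) f c g (l * J + j + 1) := by
        refine Finset.sum_le_sum fun j hj => ?_
        have hj' := Finset.mem_range.1 hj
        exact asm_pair hm hr hJ hst' hη hw ha.le hl' (by omega)
      refine le_trans ?_ h8
      have h9 : ∑ j ∈ Finset.range (J - 1), (r (l + 1) - r l) / J *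
          (√(Mb n m r l (j * ((r (l + 1) - r l) / J))) *
            Ab n m r l ((j + 1 : ℕ) * ((r (l + 1) - r l) / J)) - (η + √η)) =
          (∑ j ∈ Finset.range (J - 1), (r (l + 1) - r l) / J *
          (√(Mb n m r l (j * ((r (l + 1) - r l) / J))) *
            Ab n m r l ((j + 1 : ℕ) * ((r (l + 1) - r l) / J)))) -
          ((J - 1 : ℕ) : ℝ) * ((r (l + 1) - r l) / J * (η + √η)) := by
        simp only [mul_sub]
        rw [Finset.sum_sub_distrib, Finset.sum_const, Finset.card_range, nsmul_eq_mul]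
      rw [h9]
      have h10 : ((J - 1 : ℕ) : ℝ) * ((r (l + 1) - r l) / J * (η + √η)) ≤ b ^ 2 * (η + √η) := by
        rw [← mul_assoc]
        refine mul_le_mul_of_nonneg_right ?_ (by positivity)
        rw [mul_div_assoc', div_le_iff₀ hJ0]
        have h11 : ((J - 1 : ℕ) : ℝ) ≤ J := by exact_mod_cast Nat.sub_le _ _
        calc ((J - 1 : ℕ) : ℝ) * (r (l + 1) - r l) ≤ J * (r (l + 1) - r l) :=
              mul_le_mul_of_nonneg_right h11 hv
          _ ≤ J * b ^ 2 := mul_le_mul_of_nonneg_left hvb hJ0.le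
          _ = b ^ 2 * J := mul_comm _ _
      linarith [h3 l hl]
    have h12 := Finset.sum_le_sum h7
    rw [Finset.sum_sub_distrib, Finset.sum_sub_distrib, Finset.sum_const, Finset.sum_const,
      Finset.card_range, nsmul_eq_mul, nsmul_eq_mul] at h12
    have h13 : (n : ℝ) * (ε / (2 * n)) = ε / 2 := by field_simp
    rw [h13] at h12
    have h14 : (n : ℝ) * (b ^ 2 * (η + √η)) = n * b ^ 2 * (η + √η) := by ring
    rw [h14] at h12
    linarith

/-- **Theorem C.** -/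
theorem thmC : ThmC := by
  intro P hP ε hε
  obtain ⟨b₀, hb₀, hv⟩ := value_main (half_pos hε)
  obtain ⟨n₀, hn₀⟩ := hv b₀ le_rfl
  set n := max n₀ 1 with hn
  have hn1 : 1 ≤ n := le_max_right _ _
  have hb0 : 0 < b₀ := by linarith
  obtain ⟨r, hr, hmin⟩ := exists_min hb0 (gm_exponents n)
  have h1 := hn₀ n (le_max_left _ _) r ⟨hr, hmin⟩
  have h2 : P ≤ (SKr b₀ n (gm n) r + Real.log 2) / b₀ :=
    le_of_tendsto hP ((eventually_ge_atTop 1).mono fun N hN =>
      ground_le hb0 hN (gm_exponents n) hr)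
  obtain ⟨N, f, c, g, hN, hC, hc2, hc3⟩ := euler_main hb₀ hn1 (gm_exponents n) hr (half_pos hε)
  exact ⟨N, f, c, g, hN, hC, hc2.trans (by linarith), by linarith⟩

end Vale.Agent.P367.Cl
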