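import Vale.Agent.P367.Cl.ESim
import Vale.Agent.P367.Cl.EAsm
import Vale.Agent.P367.Lim.Main

/-! P367, classical half: the form of Theorem C consumed by block B (final value). -/

open MeasureTheory ProbabilityTheory Filter Topology Set

namespace Vale.Agent.P367.Cl

variable {n : ℕ}

lemma evl_odd_int {F : (Fin (n + 1) → ℝ) → ℝ} (hF : ∀ z, F (-z) = -F z) :
    ∫ z, F z ∂(γN (n + 1)) = 0 := by
  have hmp : MeasurePreserving (MeasurableEquiv.neg (Fin (n + 1) → ℝ)) (γN (n + 1))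
      (γN (n + 1)) := ⟨(MeasurableEquiv.neg _).measurable, gauss_pi_neg (n + 1)⟩
  have h : ∫ z, F z ∂(γN (n + 1)) = ∫ z, F (-z) ∂(γN (n + 1)) :=
    (hmp.integral_comp' (fun z => F z)).symm
  simp only [hF, integral_neg] at h
  linarith

/-- **Theorem C, final form**: simple orthonormal controls with mean zero and a simple
magnetisation with mean zero whose value is close to the ground-state energy. -/
theorem val_scheme {d : ℝ} (hd : 0 < d) :
    ∃ (n : ℕ) (ψ : Fin n → (Fin (n + 1) → ℝ) → ℝ) (m : (Fin (n + 1) → ℝ) → ℝ), 1 ≤ n ∧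
      (∀ k, Measurable (ψ k)) ∧ (∀ k, (range (ψ k)).Finite) ∧
      (∀ (k : Fin n) z z', (∀ j : Fin (n + 1), (j : ℕ) ≤ (k : ℕ) → z j = z' j) →
        ψ k z = ψ k z') ∧
      (∀ j k, ∫ z, ψ j z * ψ k z ∂(γN (n + 1)) = if j = k then 1 else 0) ∧
      (∀ k, ∫ z, ψ k z ∂(γN (n + 1)) = 0) ∧
      Measurable m ∧ (range m).Finite ∧ (∀ z, |m z| ≤ 1) ∧ (∫ z, m z ∂(γN (n + 1)) = 0) ∧
      (∀ k z, ψ k (-z) = -ψ k z) ∧ (∀ z, m (-z) = -m z) ∧
      Gap.Pstar - d ≤ sval n ψ m := by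
  obtain ⟨n, ψ, m, hn, h, h1⟩ := sim_value thmC Lim.tendsto_Pstar hd
  exact ⟨n, ψ, m, hn, h.meas, h.fin, h.dep, h.orth, fun k => evl_odd_int (h.odd k), h.mmeas,
    h.mfin, h.mbd, evl_odd_int h.modd, h.odd, h.modd, h1⟩

end Vale.Agent.P367.Cl
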