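import Vale.Agent.P367.Cl.EClip

/-!
# P367, classical half: bounded schemes

The form of Theorem C consumed by the quantum side: bounded continuous orthonormal `ψ k`, where
`ψ k` depends on the first `k + 1` fields, and a bounded magnetisation `m`.
-/

open MeasureTheory ProbabilityTheory Filter Topology Set

namespace Vale.Agent.P367.Cl

/-- the data of a bounded scheme with the fields `z 0, …, z n` -/
structure Scheme (n : ℕ) (ψ : Fin n → (Fin (n + 1) → ℝ) → ℝ) (m : (Fin (n + 1) → ℝ) → ℝ) :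
    Prop where
  cont : ∀ k, Continuous (ψ k)
  bdd : ∀ k, ∃ C, ∀ z, |ψ k z| ≤ C
  dep : ∀ (k : Fin n) z z', (∀ j : Fin (n + 1), (j : ℕ) ≤ (k : ℕ) → z j = z' j) → ψ k z = ψ k z'
  odd : ∀ k z, ψ k (-z) = -ψ k z
  orth : ∀ j k, ∫ z, ψ j z * ψ k z ∂(γN (n + 1)) = if j = k then 1 else 0
  mcont : Continuous m
  mbd : ∀ z, |m z| ≤ 1
  modd : ∀ z, m (-z) = -m z

/-- the value of a scheme -/
noncomputable def sval (n : ℕ) (ψ : Fin n → (Fin (n + 1) → ℝ) → ℝ) (m : (Fin (n + 1) → ℝ) → ℝ) :
    ℝ :=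
  ∑ k : Fin n, (∫ z, ψ k z * m z ∂(γN (n + 1))) * (∫ z, z k.succ * m z ∂(γN (n + 1)))

/-- truncation -/
noncomputable def trn (R x : ℝ) : ℝ := max (-R) (min R x)

lemma trn_cont (R : ℝ) : Continuous (trn R) := by
  unfold trn
  fun_prop

lemma trn_le {R : ℝ} (hR : 0 ≤ R) (x : ℝ) : |trn R x| ≤ R := by
  unfold trn
  rw [abs_le]
  exact ⟨le_max_left _ _, max_le (by linarith) (min_le_left _ _)⟩

lemma trn_le_abs {R : ℝ} (hR : 0 ≤ R) (x : ℝ) : |trn R x| ≤ |x| := by
  unfold trn
  rcases le_total x (-R) with h | h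
  · rw [min_eq_right (by linarith), max_eq_left h, abs_neg, abs_of_nonneg hR,
      abs_of_nonpos (by linarith)]
    linarith
  · rcases le_total x R with h1 | h1
    · rw [min_eq_right h1, max_eq_right h]
    · rw [min_eq_left h1, max_eq_right (by linarith), abs_of_nonneg hR, abs_of_nonneg (by linarith)]
      exact h1

lemma trn_neg {R : ℝ} (hR : 0 ≤ R) (x : ℝ) : trn R (-x) = -trn R x := by
  unfold trn
  rcases le_total x (-R) with h | h
  · rw [min_eq_left (by linarith), max_eq_right (by linarith), min_eq_right (by linarith),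
      max_eq_left h, neg_neg]
  · rcases le_total x R with h1 | h1
    · rw [min_eq_right (by linarith), max_eq_right (by linarith), min_eq_right h1,
        max_eq_right h]
    · rw [min_eq_right (by linarith), max_eq_left (by linarith), min_eq_left h1,
        max_eq_right (by linarith)]

lemma trn_eq {R x : ℝ} (h : |x| ≤ R) : trn R x = x := by
  unfold trn
  rw [abs_le] at h
  rw [min_eq_right h.2, max_eq_right h.1]

lemma int_trn {R : ℝ} (hR : 0 ≤ R) : ∫ x, trn R x ∂(gaussianReal 0 1) = 0 := by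
  have h : ∫ x, trn R x ∂(gaussianReal 0 1) = ∫ x, trn R (-x) ∂(gaussianReal 0 1) := by
    have hmp : MeasurePreserving (MeasurableEquiv.neg ℝ) (gaussianReal 0 1) (gaussianReal 0 1) := by
      refine ⟨(MeasurableEquiv.neg ℝ).measurable, ?_⟩
      have := gaussianReal_map_neg (μ := 0) (v := 1)
      rw [neg_zero] at this
      exact this
    exact (hmp.integral_comp' (fun x => trn R x)).symm
  simp only [trn_neg hR, integral_neg] at h
  linarith

/-- the norm of the truncated Gaussian -/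
noncomputable def tR (R : ℝ) : ℝ := √(∫ x, trn R x ^ 2 ∂(gaussianReal 0 1))

lemma tendsto_trn (x : ℝ) : Tendsto (fun R : ℕ => trn R x) atTop (𝓝 x) := by
  refine tendsto_const_nhds.congr' ?_
  obtain ⟨k, hk⟩ := exists_nat_ge |x|
  filter_upwards [eventually_ge_atTop k] with R hR
  rw [trn_eq]
  exact hk.trans (by exact_mod_cast hR)

lemma tendsto_tR : Tendsto (fun R : ℕ => tR R) atTop (𝓝 1) := by
  have h : Tendsto (fun R : ℕ => ∫ x, trn R x ^ 2 ∂(gaussianReal 0 1)) atTop
      (𝓝 (∫ x : ℝ, x ^ 2 ∂(gaussianReal 0 1))) := by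
    refine tendsto_integral_of_dominated_convergence (fun x => x ^ 2) ?_ ?_ ?_ ?_
    · intro R
      exact ((trn_cont R).pow 2).aestronglyMeasurable
    · have := memLp_id_gaussianReal (μ := 0) (v := 1) 2
      exact this.integrable_sq
    · intro R
      refine Filter.Eventually.of_forall fun x => ?_
      rw [Real.norm_eq_abs, abs_of_nonneg (sq_nonneg _)]
      exact sq_le_sq.2 (trn_le_abs (Nat.cast_nonneg R) x)
    · exact Filter.Eventually.of_forall fun x => (tendsto_trn x).pow 2
  rw [int_sq] at h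
  have h2 := (Real.continuous_sqrt.tendsto 1).comp h
  rw [Real.sqrt_one] at h2
  exact h2

variable {n : ℕ} {f : ℕ → ℝ → ℝ} {c : ℕ → ℝ} {g : ℕ → ℝ → ℝ}

/-- the truncated increments -/
noncomputable def psR (n : ℕ) (f : ℕ → ℝ → ℝ) (c : ℕ → ℝ) (g : ℕ → ℝ → ℝ) (R : ℝ) (k : Fin n)
    (z : Fin (n + 1) → ℝ) : ℝ :=
  g k (cX f c (ext z) k) * trn R (z k.castSucc) / (cs (n + 1) f c g k * tR R)

/-- the clipped magnetisation -/
noncomputable def mcl (n : ℕ) (f : ℕ → ℝ → ℝ) (c : ℕ → ℝ) (g : ℕ → ℝ → ℝ)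
    (z : Fin (n + 1) → ℝ) : ℝ := clip (cM f c g (ext z) (n + 1))

lemma ext_cont {N : ℕ} (k : ℕ) : Continuous (fun z : Fin N → ℝ => ext z k) := by
  unfold ext
  split_ifs with h
  · exact continuous_apply _
  · exact continuous_const

lemma cX_cont {N : ℕ} (hf : ∀ k, Continuous (f k)) (k : ℕ) :
    Continuous (fun z : Fin N → ℝ => cX f c (ext z) k) := by
  induction k with
  | zero => exact continuous_const
  | succ k ih =>
    change Continuous (fun z : Fin N → ℝ => cX f c (ext z) k + f k (cX f c (ext z) k) +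
      c k * ext z k)
    exact (ih.add ((hf k).comp ih)).add (continuous_const.mul (ext_cont k))

lemma cv_cont {N : ℕ} (h : Ctl N f c g) (k : ℕ) :
    Continuous (fun z : Fin N → ℝ => cv f c g (ext z) k) :=
  ((h.gs k).smooth.continuous.comp (cX_cont (fun j => (h.fs j).smooth.continuous) k)).mul
    (ext_cont k)

lemma cM_cont {N : ℕ} (h : Ctl N f c g) (k : ℕ) :
    Continuous (fun z : Fin N → ℝ => cM f c g (ext z) k) :=
  continuous_finsetSum _ fun j _ => cv_cont h j

lemma ext_neg {N : ℕ} (z : Fin N → ℝ) (k : ℕ) : ext (-z) k = -ext z k := by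
  unfold ext
  split_ifs
  · rfl
  · simp

lemma cX_neg {N : ℕ} (h : Ctl N f c g) (z : Fin N → ℝ) (k : ℕ) :
    cX f c (ext (-z)) k = -cX f c (ext z) k := by
  induction k with
  | zero => exact neg_zero.symm
  | succ k ih =>
    change cX f c (ext (-z)) k + f k (cX f c (ext (-z)) k) + c k * ext (-z) k = _
    rw [ih, h.fo, ext_neg]
    change _ = -(cX f c (ext z) k + f k (cX f c (ext z) k) + c k * ext z k)
    ring

lemma cM_neg {N : ℕ} (h : Ctl N f c g) (z : Fin N → ℝ) (k : ℕ) :
    cM f c g (ext (-z)) k = -cM f c g (ext z) k := by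
  unfold cM cv
  rw [← Finset.sum_neg_distrib]
  refine Finset.sum_congr rfl fun j _ => ?_
  rw [cX_neg h, h.ge, ext_neg]
  ring

lemma clip_neg (x : ℝ) : clip (-x) = -clip x := trn_neg zero_le_one x

lemma ext_castSucc (z : Fin (n + 1) → ℝ) (k : Fin n) : ext z (k : ℕ) = z k.castSucc :=
  ext_fin z k.castSucc

lemma ext_succ (z : Fin (n + 1) → ℝ) (k : Fin n) : ext z ((k : ℕ) + 1) = z k.succ :=
  ext_fin z k.succ

lemma ind_psR (R : ℝ) {j k : Fin n} (hjk : j < k) : Ind k.castSucc (psR n f c g R j) := by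
  intro z x
  unfold psR
  have e1 : cX f c (ext (Function.update z k.castSucc x)) j = cX f c (ext z) j :=
    eX_congr f c fun i hi => ext_update z k.castSucc x (by
      have h1 : (j : ℕ) < k := hjk
      have h2 : ((k.castSucc : Fin (n + 1)) : ℕ) = k := rfl
      omega)
  have e2 : Function.update z k.castSucc x j.castSucc = z j.castSucc :=
    Function.update_of_ne (fun e => hjk.ne (Fin.castSucc_injective _ e)) _ _
  rw [e1, e2]

lemma psR_lt {R : ℝ} (hR : 0 ≤ R) {j k : Fin n} (hjk : j < k) :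
    ∫ z, psR n f c g R j z * psR n f c g R k z ∂(γN (n + 1)) = 0 := by
  have h1 : Ind k.castSucc (fun z => psR n f c g R j z *
      (fun z => g k (cX f c (ext z) k) / (cs (n + 1) f c g k * tR R)) z) :=
    (ind_psR (f := f) (c := c) (g := g) R hjk).mul (ind_gX (f := f) (c := c) k.castSucc
      (show (k : ℕ) ≤ k.castSucc from le_rfl) (fun x => g k x / (cs (n + 1) f c g k * tR R)))
  have h := pi_split k.castSucc h1 (trn R)
  rw [int_trn hR, mul_zero] at h
  rw [← h]
  refine integral_congr_ae (Filter.Eventually.of_forall fun z => ?_)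
  change psR n f c g R j z * (g k (cX f c (ext z) k) * trn R (z k.castSucc) /
    (cs (n + 1) f c g k * tR R)) = psR n f c g R j z *
      (g k (cX f c (ext z) k) / (cs (n + 1) f c g k * tR R)) * trn R (z k.castSucc)
  ring

lemma cs_sq (k : ℕ) : ∫ z, g k (cX f c (ext z) k) ^ 2 ∂(γN n) = cs n f c g k ^ 2 := by
  unfold cs
  exact (Real.sq_sqrt (integral_nonneg fun G => sq_nonneg _)).symm

lemma tR_sq (R : ℝ) : ∫ x, trn R x ^ 2 ∂(gaussianReal 0 1) = tR R ^ 2 := by
  unfold tR
  exact (Real.sq_sqrt (integral_nonneg fun G => sq_nonneg _)).symm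

lemma psR_self {R : ℝ} (h : Ctl (n + 1) f c g) (ht : 0 < tR R) (k : Fin n) :
    ∫ z, psR n f c g R k z * psR n f c g R k z ∂(γN (n + 1)) = 1 := by
  have hs := cs_pos h k
  have h1 := pi_split k.castSucc (ind_gX (f := f) (c := c) k.castSucc
      (show (k : ℕ) ≤ k.castSucc from le_rfl) (fun x => g k x ^ 2)) (fun x => trn R x ^ 2)
  rw [tR_sq, cs_sq (n := n + 1) (k : ℕ)] at h1
  have h2 : ∫ z, psR n f c g R k z * psR n f c g R k z ∂(γN (n + 1)) =
      ∫ z, (cs (n + 1) f c g k * tR R)⁻¹ ^ 2 * (g k (cX f c (ext z) k) ^ 2 *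
        trn R (z k.castSucc) ^ 2) ∂(γN (n + 1)) := by
    refine integral_congr_ae (Filter.Eventually.of_forall fun z => ?_)
    change g k (cX f c (ext z) k) * trn R (z k.castSucc) / (cs (n + 1) f c g k * tR R) *
      (g k (cX f c (ext z) k) * trn R (z k.castSucc) / (cs (n + 1) f c g k * tR R)) = _
    rw [div_eq_mul_inv]
    ring
  rw [h2, integral_const_mul, h1]
  field_simp

lemma psR_scheme (h : Ctl (n + 1) f c g) {R : ℝ} (hR : 0 ≤ R) (ht : 0 < tR R) :
    Scheme n (psR n f c g R) (mcl n f c g) := by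
  have hs : ∀ k, 0 < cs (n + 1) f c g k := cs_pos h
  refine ⟨?_, ?_, ?_, ?_, ?_, ?_, ?_, ?_⟩
  · intro k
    refine Continuous.div_const (Continuous.mul ?_ ?_) _
    · exact (h.gs k).smooth.continuous.comp (cX_cont (fun j => (h.fs j).smooth.continuous) k)
    · exact (trn_cont R).comp (continuous_apply _)
  · intro k
    obtain ⟨C, hC⟩ := h.gb k
    refine ⟨C * R / (cs (n + 1) f c g k * tR R), fun z => ?_⟩
    unfold psR
    rw [abs_div, abs_mul, abs_of_pos (mul_pos (hs k) ht)]
    have h1 := hC (cX f c (ext z) k)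
    have h2 := trn_le hR (z k.castSucc)
    have h3 := hs k
    gcongr
    exact (abs_nonneg _).trans h1
  · intro k z z' hz
    unfold psR
    have e1 : cX f c (ext z) k = cX f c (ext z') k := by
      refine eX_congr f c fun j hj => ?_
      have hj' : j < n + 1 := by have := k.2; omega
      have := hz ⟨j, hj'⟩ hj.le
      unfold ext
      rw [dif_pos hj', dif_pos hj', this]
    rw [e1, hz k.castSucc le_rfl]
  · intro k z
    unfold psR
    rw [cX_neg h, h.ge]
    change g k _ * trn R (-z k.castSucc) / _ = _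
    rw [trn_neg hR]
    ring
  · intro j k
    split_ifs with hjk
    · rw [hjk]
      exact psR_self h ht k
    · rcases lt_or_gt_of_ne hjk with h1 | h1
      · exact psR_lt hR h1
      · rw [← psR_lt (f := f) (c := c) (g := g) hR h1]
        exact integral_congr_ae (Filter.Eventually.of_forall fun z => mul_comm _ _)
  · exact clip_cont.comp (cM_cont h _)
  · exact fun z => clip_le _
  · intro z
    unfold mcl
    rw [cM_neg h, clip_neg]

lemma tendsto_psR (h : Ctl (n + 1) f c g) (k : Fin n) :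
    Tendsto (fun R : ℕ => ∫ z, psR n f c g R k z * mcl n f c g z ∂(γN (n + 1))) atTop
      (𝓝 (∫ z, psi (n + 1) f c g (ext z) k * clip (cM f c g (ext z) (n + 1)) ∂(γN (n + 1)))) := by
  obtain ⟨C, hC⟩ := h.gb k
  have hs := cs_pos h k
  have hC0 : 0 ≤ C := (abs_nonneg _).trans (hC 0)
  have hev : ∀ᶠ R : ℕ in atTop, (1 / 2 : ℝ) ≤ tR R :=
    tendsto_tR.eventually (eventually_ge_nhds (by norm_num))
  refine tendsto_integral_filter_of_dominated_convergence
    (fun z => C * |z k.castSucc| / (cs (n + 1) f c g k * (1 / 2))) ?_ ?_ ?_ ?_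
  · refine Filter.Eventually.of_forall fun R => ?_
    have h1 : Continuous (psR n f c g R k) := by
      refine Continuous.div_const (Continuous.mul ?_ ?_) _
      · exact (h.gs k).smooth.continuous.comp (cX_cont (fun j => (h.fs j).smooth.continuous) k)
      · exact (trn_cont R).comp (continuous_apply _)
    exact (h1.mul (clip_cont.comp (cM_cont h _))).aestronglyMeasurable
  · filter_upwards [hev] with R hR
    refine Filter.Eventually.of_forall fun z => ?_
    rw [norm_mul, Real.norm_eq_abs, Real.norm_eq_abs]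
    have h1 : |mcl n f c g z| ≤ 1 := clip_le _
    have h2 : |psR n f c g R k z| ≤ C * |z k.castSucc| / (cs (n + 1) f c g k * (1 / 2)) := by
      unfold psR
      have ht : 0 < tR R := by linarith
      rw [abs_div, abs_mul, abs_of_pos (mul_pos hs ht)]
      have h3 := hC (cX f c (ext z) k)
      have h4 := trn_le_abs (Nat.cast_nonneg R) (z k.castSucc)
      gcongr
    calc _ ≤ |psR n f c g R k z| * 1 := mul_le_mul_of_nonneg_left h1 (abs_nonneg _)
      _ ≤ _ := by rw [mul_one]; exact h2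
  · have h1 : Integrable (fun z : Fin (n + 1) → ℝ => ext z k) (γN (n + 1)) :=
      (ext_memLp (N := n + 1) (k : ℕ)).integrable (by norm_num)
    have h2 := (h1.abs.const_mul C).div_const (cs (n + 1) f c g k * (1 / 2))
    refine h2.congr (Filter.Eventually.of_forall fun z => ?_)
    change C * |ext z k| / _ = _
    rw [ext_castSucc]
  · refine Filter.Eventually.of_forall fun z => ?_
    refine Tendsto.mul ?_ tendsto_const_nhds
    unfold psR psi cv
    rw [ext_castSucc]
    have h1 := (tendsto_trn (z k.castSucc)).const_mul (g k (cX f c (ext z) k))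
    have h2 := tendsto_tR.const_mul (cs (n + 1) f c g k)
    rw [mul_one] at h2
    exact h1.div h2 hs.ne'

/-- **Theorem C for bounded schemes.** -/
theorem bd_value (hC : ThmC) {P : ℝ} (hP : Tendsto Gap.groundValue atTop (𝓝 P)) {ε : ℝ}
    (hε : 0 < ε) : ∃ (n : ℕ) (ψ : Fin n → (Fin (n + 1) → ℝ) → ℝ) (m : (Fin (n + 1) → ℝ) → ℝ),
      1 ≤ n ∧ Scheme n ψ m ∧ P - ε ≤ sval n ψ m := by
  obtain ⟨n, f, c, g, hn, h, h1⟩ := clip_value hC hP (half_pos hε)
  have hev : ∀ᶠ R : ℕ in atTop, (1 / 2 : ℝ) ≤ tR R :=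
    tendsto_tR.eventually (eventually_ge_nhds (by norm_num))
  have hlim : Tendsto (fun R : ℕ => sval n (psR n f c g R) (mcl n f c g)) atTop
      (𝓝 (∑ k : Fin n,
        (∫ z, psi (n + 1) f c g (ext z) k * clip (cM f c g (ext z) (n + 1)) ∂(γN (n + 1))) *
        (∫ z, z k.succ * mcl n f c g z ∂(γN (n + 1))))) :=
    tendsto_finsetSum _ fun k _ => (tendsto_psR h k).mul_const _
  have he : ∑ k : Fin n,
        (∫ z, psi (n + 1) f c g (ext z) k * clip (cM f c g (ext z) (n + 1)) ∂(γN (n + 1))) *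
        (∫ z, z k.succ * mcl n f c g z ∂(γN (n + 1))) = ∑ k ∈ Finset.range n,
        (∫ G, psi (n + 1) f c g (ext G) k * clip (cM f c g (ext G) (n + 1)) ∂(γN (n + 1))) *
        (∫ G, ext G (k + 1) * clip (cM f c g (ext G) (n + 1)) ∂(γN (n + 1))) := by
    rw [← Fin.sum_univ_eq_sum_range fun k =>
        (∫ G, psi (n + 1) f c g (ext G) k * clip (cM f c g (ext G) (n + 1)) ∂(γN (n + 1))) *
        (∫ G, ext G (k + 1) * clip (cM f c g (ext G) (n + 1)) ∂(γN (n + 1)))]
    refine Finset.sum_congr rfl fun k _ => ?_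
    simp only [ext_succ]
    rfl
  rw [he] at hlim
  have hlt : P - ε < ∑ k ∈ Finset.range n,
        (∫ G, psi (n + 1) f c g (ext G) k * clip (cM f c g (ext G) (n + 1)) ∂(γN (n + 1))) *
        (∫ G, ext G (k + 1) * clip (cM f c g (ext G) (n + 1)) ∂(γN (n + 1))) := by linarith
  obtain ⟨R, h2, h3⟩ := (hev.and (hlim.eventually (lt_mem_nhds hlt))).exists
  exact ⟨n, _, _, hn, psR_scheme h (Nat.cast_nonneg R) (by linarith), h3.le⟩

end Vale.Agent.P367.Cl
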