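import Vale.Agent.P367.Cl.EStep
import Vale.Agent.P146.Pw2.T1Nest2
import Vale.Agent.P146.Gap.Jets

/-!
# P367, classical half, Euler scheme: the refined chain of the Parisi recursion
-/

open MeasureTheory ProbabilityTheory Filter Topology Set

namespace Vale.Agent.P367.Cl

open Vale.Agent.P157.Par
open Vale.Agent.P146.Gap
open Vale.Agent.P146.Pw2

theorem lnk_tlt_zero (g : ℝ) (F ψ : ℝ → ℝ) : tlt g 0 F ψ = ψ := by
  funext x
  unfold tlt
  simp only [Real.sqrt_zero, zero_mul, add_zero, integral_const, probReal_univ, one_smul]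
  exact mul_div_cancel_right₀ _ (Real.exp_pos _).ne'

/-- semigroup property of the tilts -/
theorem tlt_semi {C g s t : ℝ} {F ψ : ℝ → ℝ} (hF : Adm C F) (hg : 0 < g) (_hg1 : g ≤ 1)
    (hs : 0 ≤ s) (ht : 0 ≤ t) (hψ : Sp7Cb ψ) (x : ℝ) :
    tlt g s (gstep g t F) (tlt g t F ψ) x = tlt g (s + t) F ψ x := by
  obtain ⟨hc, K, hK⟩ := hψ
  have hsm := (adm_ec hF).sm
  have hFc := hsm.cont
  have hpos : ∀ y, 0 < ∫ w, Real.exp (g * F (y + √t * w)) ∂(gaussianReal 0 1) :=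
    hsm.int_exp_pos g t
  have hexp : ∀ y, Real.exp (g * gstep g t F y) =
      ∫ w, Real.exp (g * F (y + √t * w)) ∂(gaussianReal 0 1) := by
    intro y
    unfold gstep
    rw [← mul_assoc, mul_one_div_cancel hg.ne', one_mul, Real.exp_log (hpos y)]
  have h1 : ∀ y, tlt g t F ψ y * (∫ w, Real.exp (g * F (y + √t * w)) ∂(gaussianReal 0 1)) =
      ∫ w, ψ (y + √t * w) * Real.exp (g * F (y + √t * w)) ∂(gaussianReal 0 1) := by
    intro y
    unfold tlt
    exact div_mul_cancel₀ _ (hpos y).ne'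
  have h2 := comp_conv (h := fun u => ψ (x + u) * Real.exp (g * F (x + u)))
    (by fun_prop : Continuous fun u => ψ (x + u) * Real.exp (g * F (x + u))).measurable hs ht
    (hsm.integrable hc hK g (s + t) x)
  have h3 := comp_conv (h := fun u => Real.exp (g * F (x + u)))
    (by fun_prop : Continuous fun u => Real.exp (g * F (x + u))).measurable hs ht
    (hsm.integrable_exp g (s + t) x)
  change (∫ z, tlt g t F ψ (x + √s * z) * Real.exp (g * gstep g t F (x + √s * z))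
    ∂(gaussianReal 0 1)) / (∫ z, Real.exp (g * gstep g t F (x + √s * z)) ∂(gaussianReal 0 1)) =
    (∫ z, ψ (x + √(s + t) * z) * Real.exp (g * F (x + √(s + t) * z)) ∂(gaussianReal 0 1)) /
      ∫ z, Real.exp (g * F (x + √(s + t) * z)) ∂(gaussianReal 0 1)
  rw [← h2, ← h3]
  simp only [hexp, h1]
  simp only [add_assoc]

section Blk

variable {n : ℕ} {m r : ℕ → ℝ} {J l j : ℕ}

theorem lnk_div (hj : j < J) : (l * J + j) / J = l := by
  rw [mul_comm, Nat.mul_add_div (by omega), Nat.div_eq_of_lt hj, add_zero]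

theorem lnk_mod (hj : j < J) : (l * J + j) % J = j := by
  rw [mul_comm, Nat.mul_add_mod, Nat.mod_eq_of_lt hj]

theorem lnk_lt (hl : l < n) (hj : j < J) : l * J + j < n * J := by
  have h1 : (l + 1) * J ≤ n * J := Nat.mul_le_mul_right J hl
  have h2 : (l + 1) * J = l * J + J := by ring
  omega

theorem lnk_eμ (hj : j < J) : eμ m J (l * J + j) = m (l + 1) := by
  unfold eμ
  rw [lnk_div hj]

theorem lnk_eδ (hl : l < n) (hj : j < J) :
    eδ n r J (l * J + j) = (r (l + 1) - r l) / J := by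
  unfold eδ
  rw [if_pos (lnk_lt hl hj), lnk_div hj]

theorem lnk_eH (hJ : 0 < J) (hl : l < n) (hj : j ≤ J) (hm : m (l + 1) ≠ 0) :
    eH n m r J (l * J + j) =
      gstep (m (l + 1)) ((r (l + 1) - r l) - j * ((r (l + 1) - r l) / J)) (Fl n m r (l + 1)) := by
  rcases hj.lt_or_eq with h | h
  · unfold eH
    rw [if_pos (lnk_lt hl h), lnk_div h, lnk_mod h]
    rfl
  · have hJ' : (J : ℝ) ≠ 0 := by positivity
    rw [h, mul_div_cancel₀ _ hJ', sub_self, Vale.Agent.P146.Gap.gstep_zero hm]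
    have e : l * J + J = (l + 1) * J := by ring
    unfold eH
    rw [e]
    by_cases h1 : l + 1 < n
    · have h2 : (l + 1) * J < n * J := Nat.mul_lt_mul_of_pos_right h1 hJ
      rw [if_pos h2, Nat.mul_div_cancel _ hJ, Nat.mul_mod_left]
      unfold Gb
      rw [Nat.cast_zero, zero_mul, sub_zero, ← fl_succ h1]
    · have h3 : l + 1 = n := by omega
      rw [h3, if_neg (lt_irrefl _), fl_last]

end Blk

/-- the derivative in the variance -/
theorem lnk_d1 {K g v a c : ℝ} {F : ℝ → ℝ} (hF : Adm K F) (hK : 1 ≤ K)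
    (hB : BK K g v F) (hg : 0 < g) (hg1 : g ≤ 1) (ha : 0 ≤ a) (hac : a ≤ c) (hc : c ≤ v)
    (x : ℝ) : |iteratedDeriv 1 (gstep g a F) x - iteratedDeriv 1 (gstep g c F) x| ≤
      2 * K * (c - a) := by
  rcases hac.eq_or_lt with h | h
  · rw [h]
    simp
  have hcont : ContinuousOn (fun s => fj g F 1 s x) (Icc a c) := by
    have h1 := fj_cont hF.smb hg 1
    exact (h1.comp (by fun_prop : Continuous fun s : ℝ => ((s, x) : ℝ × ℝ))).continuousOn
  have hder : ∀ s ∈ Ioo a c, HasDerivAt (fun s => fj g F 1 s x)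
      (1 / 2 * fj g F 3 s x + g * (fj g F 1 s x * fj g F 2 s x)) s :=
    fun s hs => fj_s1 hF.smb hg (ha.trans_lt hs.1) x
  obtain ⟨s, hs, hseq⟩ := exists_hasDerivAt_eq_slope _ _ h hcont hder
  have hA := (hB s ⟨ha.trans hs.1.le, hs.2.le.trans hc⟩).adm
  have p2 := hA.pos x
  have p1 := hA.le1 x
  have p3 := hA.r3 x
  have q1 : |fj g F 1 s x| ≤ 1 := by
    unfold fj
    refine abs_le_one_iff_mul_self_le_one.2 ?_
    nlinarith
  have q2 : |fj g F 2 s x| ≤ 1 := by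
    unfold fj
    rw [abs_of_pos p2]
    nlinarith [sq_nonneg (iteratedDeriv 1 (gstep g s F) x)]
  have q2' : iteratedDeriv 2 (gstep g s F) x ≤ 1 := by
    nlinarith [sq_nonneg (iteratedDeriv 1 (gstep g s F) x)]
  have q3 : |fj g F 3 s x| ≤ K := by
    unfold fj
    refine p3.trans ?_
    nlinarith
  have q4 : |1 / 2 * fj g F 3 s x + g * (fj g F 1 s x * fj g F 2 s x)| ≤ 2 * K := by
    refine (abs_add_le _ _).trans ?_
    rw [abs_mul, abs_mul, abs_mul, abs_of_pos hg, abs_of_pos (by norm_num : (0 : ℝ) < 1 / 2)]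
    have h5 : |fj g F 1 s x| * |fj g F 2 s x| ≤ 1 := mul_le_one₀ q1 (abs_nonneg _) q2
    have h6 : g * (|fj g F 1 s x| * |fj g F 2 s x|) ≤ 1 :=
      mul_le_one₀ hg1 (by positivity) h5
    linarith
  rw [hseq, abs_div, abs_of_pos (sub_pos.2 h), div_le_iff₀ (sub_pos.2 h)] at q4
  rw [abs_sub_comm]
  exact q4

theorem eH_st (b : ℝ) : ∃ B : ℝ, 1 ≤ B ∧ ∀ (n : ℕ) (m r : ℕ → ℝ), Exponents n m → BPath b n r →
    ∀ J : ℕ, b ^ 2 ≤ J → ∀ k < n * J,
      St B (eμ m J k) (eδ n r J k) (eH n m r J k) (eH n m r J (k + 1)) := by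
  obtain ⟨K, hK1, hK⟩ := fl_bk b
  refine ⟨2 * K, by linarith, fun n m r hm hr J hJb k hk => ?_⟩
  obtain ⟨hA, hB⟩ := hK n m r hm hr
  have hJ : 0 < J := by
    rcases Nat.eq_zero_or_pos J with h | h
    · rw [h, Nat.mul_zero] at hk
      omega
    · exact h
  have hJ' : (0 : ℝ) < J := by exact_mod_cast hJ
  obtain ⟨l, j, hj, hl, rfl⟩ : ∃ l j, j < J ∧ l < n ∧ k = l * J + j := by
    refine ⟨k / J, k % J, Nat.mod_lt _ hJ, Nat.div_lt_of_lt_mul (by rwa [mul_comm] at hk), ?_⟩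
    rw [mul_comm]
    exact (Nat.div_add_mod k J).symm
  obtain ⟨g0, g1⟩ := sp7_exp_of hm l hl
  obtain ⟨h0, hp, hb⟩ := hr
  have hv : 0 ≤ r (l + 1) - r l := sub_nonneg.2 (hp.2 l hl)
  have hrl : 0 ≤ r l := by
    have := minb_mono hp.2 (Nat.zero_le l) hl.le
    rwa [h0] at this
  have hrl1 : r (l + 1) ≤ b ^ 2 := (minb_mono hp.2 hl le_rfl).trans hb
  set v := r (l + 1) - r l with hvdef
  set w := v / J with hw
  have hw0 : 0 ≤ w := by positivity
  have hw1 : w ≤ 1 := by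
    rw [hw, div_le_one hJ']
    linarith
  have hJw : (J : ℝ) * w = v := mul_div_cancel₀ _ hJ'.ne'
  have hjJ : (j : ℝ) + 1 ≤ J := by exact_mod_cast hj
  have hj0 : (0 : ℝ) ≤ j := by positivity
  have e1 : (j : ℝ) * w + w ≤ v := by
    have : ((j : ℝ) + 1) * w ≤ J * w := mul_le_mul_of_nonneg_right hjJ hw0
    linarith
  have e2 : 0 ≤ (j : ℝ) * w := by positivity
  have hF : Adm K (Fl n m r (l + 1)) := (hA (l + 1) hl).adm
  have hBl := hB l hl
  rw [lnk_eμ hj, lnk_eδ hl hj, lnk_eH hJ hl hj.le g0.ne', add_assoc,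
    lnk_eH (j := j + 1) hJ hl hj g0.ne', ← hvdef, ← hw]
  have e3 : ((j + 1 : ℕ) : ℝ) * w = j * w + w := by push_cast; ring
  rw [e3]
  have m1 : v - j * w ∈ Icc 0 v := ⟨by linarith, by linarith⟩
  have m2 : v - (j * w + w) ∈ Icc 0 v := ⟨by linarith, by linarith⟩
  have up : ∀ {H : ℝ → ℝ}, Adm K H → Adm (2 * K) H := fun {H} h =>
    { smb := h.smb, even := h.even, pos := h.pos, le1 := h.le1,
      r3 := fun x => (h.r3 x).trans (by nlinarith [h.pos x]), r4 := h.r4 }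
  exact
    { B1 := by linarith
      m0 := g0
      m1 := g1
      d0 := hw0
      d1 := hw1
      adm := up (hBl _ m1).adm
      adm' := up (hBl _ m2).adm
      eq := by
        rw [gstep_add hF g0 hw0 m2.1]
        congr 1
        ring
      df0 := fun x => by
        refine (gstep_var_lip hF g0 g1 m2.1 m1.1 x).trans ?_
        rw [abs_sub_comm, abs_of_nonneg (by linarith)]
        nlinarith
      df1 := fun x => by
        refine (lnk_d1 hF hK1 hBl g0 g1 m2.1 (by linarith) m1.2 x).trans ?_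
        have : v - j * w - (v - (j * w + w)) = w := by ring
        rw [this] }

/-- one step inside a block -/
theorem lnk_step {b : ℝ} {n : ℕ} {m r : ℕ → ℝ} (hm : Exponents n m) (hr : BPath b n r) {J : ℕ}
    (hJ : 0 < J) {l : ℕ} (hl : l < n) {j : ℕ} (hj : j < J)
    (ih : ∀ ψ : ℝ → ℝ, Sp7Cb ψ → tE (eμ m J) (eδ n r J) (eH n m r J) (l * J + j) ψ =
      Ee n m r l (tlt (m (l + 1)) (j * ((r (l + 1) - r l) / J))
        (gstep (m (l + 1)) ((r (l + 1) - r l) - j * ((r (l + 1) - r l) / J))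
          (Fl n m r (l + 1))) ψ)) (ψ : ℝ → ℝ) (hψ : Sp7Cb ψ) :
    tE (eμ m J) (eδ n r J) (eH n m r J) (l * J + (j + 1)) ψ =
      Ee n m r l (tlt (m (l + 1)) ((j + 1 : ℕ) * ((r (l + 1) - r l) / J))
        (gstep (m (l + 1)) ((r (l + 1) - r l) - (j + 1 : ℕ) * ((r (l + 1) - r l) / J))
          (Fl n m r (l + 1))) ψ) := by
  obtain ⟨K, hK1, hK⟩ := fl_bk b
  obtain ⟨hA, hB⟩ := hK n m r hm hr
  obtain ⟨g0, g1⟩ := sp7_exp_of hm l hl
  obtain ⟨h0, hp, hb⟩ := hr
  have hJ' : (0 : ℝ) < J := by exact_mod_cast hJ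
  have hv : 0 ≤ r (l + 1) - r l := sub_nonneg.2 (hp.2 l hl)
  set v := r (l + 1) - r l with hvdef
  set w := v / J with hw
  have hw0 : 0 ≤ w := by positivity
  have hJw : (J : ℝ) * w = v := mul_div_cancel₀ _ hJ'.ne'
  have hjJ : (j : ℝ) + 1 ≤ J := by exact_mod_cast hj
  have e1 : (j : ℝ) * w + w ≤ v := by
    have : ((j : ℝ) + 1) * w ≤ J * w := mul_le_mul_of_nonneg_right hjJ hw0
    linarith
  have e2 : 0 ≤ (j : ℝ) * w := by positivity
  have e3 : ((j + 1 : ℕ) : ℝ) * w = j * w + w := by push_cast; ring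
  have m2 : v - (j * w + w) ∈ Icc 0 v := ⟨by linarith, by linarith⟩
  have hF : Adm K (Fl n m r (l + 1)) := (hA (l + 1) hl).adm
  have hF' : Adm K (gstep (m (l + 1)) (v - (j * w + w)) (Fl n m r (l + 1))) := (hB l hl _ m2).adm
  have e4 : gstep (m (l + 1)) (v - j * w) (Fl n m r (l + 1)) =
      gstep (m (l + 1)) w (gstep (m (l + 1)) (v - (j * w + w)) (Fl n m r (l + 1))) := by
    rw [gstep_add hF g0 hw0 m2.1]
    congr 1
    ring
  change tE (eμ m J) (eδ n r J) (eH n m r J) (l * J + j)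
    (tlt (eμ m J (l * J + j)) (eδ n r J (l * J + j)) (eH n m r J (l * J + j + 1)) ψ) = _
  rw [lnk_eμ hj, lnk_eδ hl hj, add_assoc (l * J) j 1, lnk_eH (j := j + 1) hJ hl hj g0.ne',
    ← hvdef, ← hw, e3, ih _ (sp7_cb_tlt (adm_ec hF') hψ _ _), e4]
  congr 1
  funext x
  exact tlt_semi hF' g0 g1 e2 hw0 hψ x

theorem lnk_tE {b : ℝ} {n : ℕ} {m r : ℕ → ℝ} (hm : Exponents n m) (hr : BPath b n r) {J : ℕ}
    (hJ : 0 < J) {l : ℕ} (hl : l < n) : ∀ j ≤ J, ∀ ψ : ℝ → ℝ, Sp7Cb ψ →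
    tE (eμ m J) (eδ n r J) (eH n m r J) (l * J + j) ψ =
      Ee n m r l (tlt (m (l + 1)) (j * ((r (l + 1) - r l) / J))
        (gstep (m (l + 1)) ((r (l + 1) - r l) - j * ((r (l + 1) - r l) / J))
          (Fl n m r (l + 1))) ψ) := by
  have hJ' : (0 : ℝ) < J := by exact_mod_cast hJ
  induction l with
  | zero =>
    intro j
    induction j with
    | zero =>
      intro _ ψ _
      rw [Nat.cast_zero, zero_mul ((r (0 + 1) - r 0) / (J : ℝ)), sub_zero, lnk_tlt_zero,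
        ee_zero hr.1, Nat.zero_mul]
      rfl
    | succ j ih =>
      intro hj ψ hψ
      exact lnk_step hm hr hJ hl hj (ih (by omega)) ψ hψ
  | succ l ihl =>
    intro j
    induction j with
    | zero =>
      intro _ ψ hψ
      obtain ⟨g0, g1⟩ := sp7_exp_of hm l (by omega)
      have h := ihl (by omega) J le_rfl ψ hψ
      rw [mul_div_cancel₀ _ hJ'.ne', sub_self, Vale.Agent.P146.Gap.gstep_zero g0.ne',
        ← ee_succ (by omega)] at h
      rw [Nat.cast_zero, zero_mul, sub_zero, lnk_tlt_zero, ← h]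
      congr 1
      ring
    | succ j ih =>
      intro hj ψ hψ
      exact lnk_step hm hr hJ hl hj (ih (by omega)) ψ hψ

theorem eH_tE {b : ℝ} {n : ℕ} {m r : ℕ → ℝ} (hm : Exponents n m) (hr : BPath b n r) {J : ℕ}
    (hJ : 0 < J) {l j : ℕ} (hl : l < n) (hj : j < J) {ψ : ℝ → ℝ} (hψ : Sp7Cb ψ) :
    tE (eμ m J) (eδ n r J) (eH n m r J) (l * J + j) ψ =
      Bt n m r l (j * ((r (l + 1) - r l) / J)) ψ :=
  lnk_tE hm hr hJ hl j hj.le ψ hψ

end Vale.Agent.P367.Cl
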