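import Vale.Agent.P367.Cl.EChn
import Vale.Agent.P367.Cl.ELnk

/-!
# P367, classical half, Euler scheme: preparations for the assembly of Theorem C
-/

open MeasureTheory ProbabilityTheory Filter Topology Set

namespace Vale.Agent.P367.Cl

open Vale.Agent.P157.Par
open Vale.Agent.P146.Gap
open Vale.Agent.P146.Pw2

/-! ### Regularity of the controls -/

theorem smb_deriv1 {F : ℝ → ℝ} (h : SmB F) : SmB (iteratedDeriv 1 F) := by
  have e : ∀ j, iteratedDeriv j (iteratedDeriv 1 F) = iteratedDeriv (j + 1) F := fun j => by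
    rw [iteratedDeriv_one, ← iteratedDeriv_succ']
  refine ⟨?_, fun j => ?_⟩
  · rw [iteratedDeriv_one]
    exact (contDiff_infty_iff_deriv.1 h.smooth).2
  · rw [e]
    exact h.bd (j + 1)

theorem smb_cmul {F : ℝ → ℝ} (h : SmB F) (c : ℝ) : SmB (fun x => c * F x) := by
  refine ⟨contDiff_const.mul h.smooth, fun j => ?_⟩
  obtain ⟨C, hC⟩ := h.bd j
  refine ⟨|c| * C, fun x => ?_⟩
  have e : iteratedDeriv (j + 1) (fun x => c * F x) x = c * iteratedDeriv (j + 1) F x := by
    simp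
  rw [e, abs_mul]
  exact mul_le_mul_of_nonneg_left (hC x) (abs_nonneg _)

theorem smb_deriv2 {F : ℝ → ℝ} (h : SmB F) : SmB (iteratedDeriv 2 F) := by
  have e : iteratedDeriv 2 F = iteratedDeriv 1 (iteratedDeriv 1 F) := by
    rw [iteratedDeriv_one (f := iteratedDeriv 1 F), iteratedDeriv_one, iteratedDeriv_succ,
      iteratedDeriv_one]
  rw [e]
  exact smb_deriv1 (smb_deriv1 h)

theorem adm_d1_le {C : ℝ} {F : ℝ → ℝ} (h : Adm C F) (x : ℝ) : |iteratedDeriv 1 F x| ≤ 1 := by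
  have h1 := h.le1 x
  have h2 := h.pos x
  rw [← sq_le_one_iff_abs_le_one]
  linarith

theorem adm_d2_le {C : ℝ} {F : ℝ → ℝ} (h : Adm C F) (x : ℝ) : |iteratedDeriv 2 F x| ≤ 1 := by
  rw [abs_of_pos (h.pos x)]
  have h1 := h.le1 x
  have h2 := sq_nonneg (iteratedDeriv 1 F x)
  linarith

theorem ctl_of {N : ℕ} {μ δ : ℕ → ℝ} {H : ℕ → ℝ → ℝ} {a : ℝ} (ha : 0 < a)
    (hH : ∀ k, ∃ C, Adm C (H k)) :
    Ctl N (eF μ δ H) (fun k => √(δ k)) (fun k x => (√(δ k) + a) * iteratedDeriv 2 (H k) x) := by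
  have ha' : ∀ k, 0 < √(δ k) + a := fun k => by positivity
  refine ⟨fun k => ?_, fun k => ?_, fun k => ?_, fun k => ?_, fun k x => ?_, fun k x => ?_,
    fun k x => ?_, fun k => Real.sqrt_nonneg _⟩
  · obtain ⟨C, hC⟩ := hH k
    refine ⟨|δ k| * |μ k|, fun x => ?_⟩
    unfold eF
    rw [abs_mul, abs_mul]
    exact mul_le_mul_of_nonneg_left (mul_le_of_le_one_right (abs_nonneg _) (adm_d1_le hC x))
      (abs_nonneg _)
  · obtain ⟨C, hC⟩ := hH k
    refine ⟨√(δ k) + a, fun x => ?_⟩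
    rw [abs_mul, abs_of_pos (ha' k)]
    exact mul_le_of_le_one_right (ha' k).le (adm_d2_le hC x)
  · obtain ⟨C, hC⟩ := hH k
    unfold eF
    exact smb_cmul (smb_cmul (smb_deriv1 hC.smb) (μ k)) (δ k)
  · obtain ⟨C, hC⟩ := hH k
    exact smb_cmul (smb_deriv2 hC.smb) _
  · obtain ⟨C, hC⟩ := hH k
    unfold eF
    rw [cint_parity hC 1 x]
    ring
  · obtain ⟨C, hC⟩ := hH k
    show (√(δ k) + a) * _ = (√(δ k) + a) * _
    rw [cint_parity hC 2 x]
    ring
  · obtain ⟨C, hC⟩ := hH k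
    exact mul_pos (ha' k) (hC.pos x)

/-! ### The noise of the regularisation -/

variable {N : ℕ} {μ δ : ℕ → ℝ} {H : ℕ → ℝ → ℝ} {B : ℝ}

/-- The sum `∑ H_k''(X_k) G_k`. -/
noncomputable def eW (μ δ : ℕ → ℝ) (H : ℕ → ℝ → ℝ) (G : ℕ → ℝ) (k : ℕ) : ℝ :=
  ∑ j ∈ Finset.range k, iteratedDeriv 2 (H j) (eS μ δ H G j) * G j

theorem eW_upd (G : Fin N → ℝ) {k : ℕ} (hk : k < N) (z : ℝ) :
    eW μ δ H (ext (Function.update G ⟨k, hk⟩ z)) (k + 1) =
      eW μ δ H (ext G) k + iteratedDeriv 2 (H k) (eS μ δ H (ext G) k) * z := by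
  unfold eW
  rw [Finset.sum_range_succ, eS_upd G hk le_rfl, ext_upd G hk]
  congr 1
  refine Finset.sum_congr rfl fun j hj => ?_
  have hj' := Finset.mem_range.1 hj
  rw [eS_upd G hk hj'.le, ext_upd_lt G hk hj']

theorem d2_eg (h : ∀ k < N, St B (μ k) (δ k) (H k) (H (k + 1))) {k : ℕ} (hk : k < N) :
    EG N (fun G => iteratedDeriv 2 (H k) (eS μ δ H (ext G) k)) :=
  EG.of_bdd ((adm_cont (h k hk).adm.smb.smooth 2).measurable.comp (eS_meas h hk.le))
    fun _ => adm_d2_le (h k hk).adm _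

theorem eW_eg (h : ∀ k < N, St B (μ k) (δ k) (H k) (H (k + 1))) : ∀ k ≤ N,
    EG N (fun G => eW μ δ H (ext G) k)
  | 0, _ => by simpa [eW] using EG.const (N := N) 0
  | k + 1, hk => by
    have h1 := (eW_eg h k (by omega)).add ((d2_eg h (k := k) (by omega)).mul (EG.ext k))
    simpa only [eW, Finset.sum_range_succ] using h1

theorem gauss_lin (s a : ℝ) : ∫ z, (s + a * z) ^ 2 ∂(gaussianReal 0 1) = s ^ 2 + a ^ 2 := by
  have hz2 : Integrable (fun z : ℝ => z ^ 2) (gaussianReal 0 1) := by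
    refine gauss_poly.mono' (by fun_prop) (ae_of_all _ fun z => ?_)
    rw [Real.norm_eq_abs, abs_of_nonneg (sq_nonneg _)]
    nlinarith [sq_nonneg z]
  have hz1 : Integrable (fun z : ℝ => z) (gaussianReal 0 1) := by
    refine gauss_poly.mono' (by fun_prop) (ae_of_all _ fun z => ?_)
    rw [Real.norm_eq_abs]
    nlinarith [sq_nonneg (|z| - 1), sq_abs z, sq_nonneg z, abs_nonneg z]
  have e : ∀ z : ℝ, (s + a * z) ^ 2 = s ^ 2 + (2 * s * a) * z + a ^ 2 * z ^ 2 := fun z => by ring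
  simp only [e]
  have i1 : Integrable (fun z : ℝ => (2 * s * a) * z) (gaussianReal 0 1) := hz1.const_mul _
  have i2 : Integrable (fun z : ℝ => s ^ 2 + (2 * s * a) * z) (gaussianReal 0 1) :=
    (integrable_const _).add i1
  have i3 : Integrable (fun z : ℝ => a ^ 2 * z ^ 2) (gaussianReal 0 1) := hz2.const_mul _
  rw [integral_add i2 i3, integral_add (integrable_const _) i1, integral_const_mul,
    integral_const_mul, integral_const]
  have h1 : ∫ z : ℝ, z ∂(gaussianReal 0 1) = 0 := by simp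
  have h2 : ∫ z : ℝ, z ^ 2 ∂(gaussianReal 0 1) = 1 := by
    have h3 := variance_eq_sub (μ := gaussianReal 0 1) (X := id) (memLp_id_gaussianReal 2)
    simp only [variance_id_gaussianReal, NNReal.coe_one, id_eq, Pi.pow_apply] at h3
    rw [h1] at h3
    simpa using h3.symm
  rw [h1, h2]
  simp

theorem eW_sq (h : ∀ k < N, St B (μ k) (δ k) (H k) (H (k + 1))) : ∀ k ≤ N,
    ∫ G, eW μ δ H (ext G) k ^ 2 ∂(γN N) ≤ k
  | 0, _ => by simp [eW]
  | k + 1, hk => by
    have hk' : k < N := by omega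
    have ih := eW_sq h k (by omega)
    rw [int_upd ⟨k, hk'⟩ (eW_eg h (k + 1) hk).pow_two.integrable]
    have h1 : ∀ G : Fin N → ℝ, ∫ z, eW μ δ H (ext (Function.update G ⟨k, hk'⟩ z)) (k + 1) ^ 2
        ∂(gaussianReal 0 1) ≤ eW μ δ H (ext G) k ^ 2 + 1 := fun G => by
      simp only [eW_upd G hk']
      rw [gauss_lin]
      have h2 := adm_d2_le (h k hk').adm (eS μ δ H (ext G) k)
      have h3 := (sq_le_one_iff_abs_le_one _).2 h2
      linarith
    have i1 : Integrable (fun G => eW μ δ H (ext G) k ^ 2 + 1) (γN N) :=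
      (eW_eg h k (by omega)).pow_two.integrable.add (integrable_const _)
    have h2 := integral_mono (int_upd_integrable ⟨k, hk'⟩
      (eW_eg h (k + 1) hk).pow_two.integrable) i1 h1
    refine h2.trans ?_
    rw [integral_add (eW_eg h k (by omega)).pow_two.integrable (integrable_const _),
      integral_const]
    simp only [probReal_univ, one_smul]
    push_cast
    linarith

/-! ### (C2) -/

theorem c2_of {a : ℝ} (hN : 1 ≤ N) (h : ∀ k < N, St B (μ k) (δ k) (H k) (H (k + 1)))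
    {C : ℝ} (hS : ∫ G, (iteratedDeriv 1 (H N) (cX (eF μ δ H) (fun k => √(δ k)) (ext G) N) -
      ∑ k ∈ Finset.range N, √(δ k) *
        iteratedDeriv 2 (H k) (cX (eF μ δ H) (fun k => √(δ k)) (ext G) k) * ext G k) ^ 2 ∂(γN N)
      ≤ C) :
    ∫ G, (max (|cM (eF μ δ H) (fun k => √(δ k))
      (fun k x => (√(δ k) + a) * iteratedDeriv 2 (H k) x) (ext G) N| - 1) 0) ^ 2 ∂(γN N) ≤
      2 * C + 2 * (a ^ 2 * N) := by
  have hN1 : N - 1 < N := by omega
  have hadm : Adm B (H N) := by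
    have h1 := (h (N - 1) hN1).adm'
    rwa [Nat.sub_add_cancel hN] at h1
  -- the two functions
  have e1 : ∀ G : Fin N → ℝ, iteratedDeriv 1 (H N) (cX (eF μ δ H) (fun k => √(δ k)) (ext G) N) -
      ∑ k ∈ Finset.range N, √(δ k) *
        iteratedDeriv 2 (H k) (cX (eF μ δ H) (fun k => √(δ k)) (ext G) k) * ext G k =
      iteratedDeriv 1 (H N) (eS μ δ H (ext G) N) -
      ∑ k ∈ Finset.range N, √(δ k) *
        iteratedDeriv 2 (H k) (eS μ δ H (ext G) k) * ext G k := fun G => by simp only [eS]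
  have e2 : ∀ G : Fin N → ℝ, cM (eF μ δ H) (fun k => √(δ k))
      (fun k x => (√(δ k) + a) * iteratedDeriv 2 (H k) x) (ext G) N =
      (∑ k ∈ Finset.range N, √(δ k) * iteratedDeriv 2 (H k) (eS μ δ H (ext G) k) * ext G k) +
        a * eW μ δ H (ext G) N := fun G => by
    unfold cM cv eW
    rw [Finset.mul_sum, ← Finset.sum_add_distrib]
    refine Finset.sum_congr rfl fun k _ => ?_
    simp only [eS]
    ring
  simp only [e1] at hS
  simp only [e2]
  have gT : EG N (fun G => ∑ k ∈ Finset.range N, √(δ k) *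
      iteratedDeriv 2 (H k) (eS μ δ H (ext G) k) * ext G k) := by
    refine EG.sum _ fun k hk => ?_
    have hk' := Finset.mem_range.1 hk
    exact ((d2_eg h hk').const_mul _).mul (EG.ext k)
  have gH : EG N (fun G => iteratedDeriv 1 (H N) (eS μ δ H (ext G) N)) :=
    EG.of_bdd ((adm_cont hadm.smb.smooth 1).measurable.comp (eS_meas h le_rfl))
      fun _ => adm_d1_le hadm _
  have gD := (gH.sub gT).pow_two
  have gW := (eW_eg h N le_rfl).pow_two
  have hpt : ∀ G : Fin N → ℝ, (max (|(∑ k ∈ Finset.range N, √(δ k) *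
      iteratedDeriv 2 (H k) (eS μ δ H (ext G) k) * ext G k) + a * eW μ δ H (ext G) N| - 1) 0) ^ 2
      ≤ 2 * (iteratedDeriv 1 (H N) (eS μ δ H (ext G) N) -
      ∑ k ∈ Finset.range N, √(δ k) *
        iteratedDeriv 2 (H k) (eS μ δ H (ext G) k) * ext G k) ^ 2 +
        2 * a ^ 2 * eW μ δ H (ext G) N ^ 2 := fun G => by
    set T := ∑ k ∈ Finset.range N, √(δ k) *
      iteratedDeriv 2 (H k) (eS μ δ H (ext G) k) * ext G k with hT
    set D := iteratedDeriv 1 (H N) (eS μ δ H (ext G) N) with hDdef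
    set W := eW μ δ H (ext G) N with hW
    have hD1 : |D| ≤ 1 := adm_d1_le hadm _
    have h3 : max (|T + a * W| - 1) 0 ≤ |(D - T) - a * W| := by
      refine max_le ?_ (abs_nonneg _)
      have h4 : |T + a * W| ≤ |D| + |(D - T) - a * W| := by
        have h5 : T + a * W = D - ((D - T) - a * W) := by ring
        rw [h5]
        exact abs_sub _ _
      linarith
    have h6 : 0 ≤ max (|T + a * W| - 1) 0 := le_max_right _ _
    have h7 := pow_le_pow_left₀ h6 h3 2
    rw [sq_abs] at h7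
    nlinarith [sq_nonneg ((D - T) + a * W)]
  have i1 : Integrable (fun G => 2 * (iteratedDeriv 1 (H N) (eS μ δ H (ext G) N) -
      ∑ k ∈ Finset.range N, √(δ k) *
        iteratedDeriv 2 (H k) (eS μ δ H (ext G) k) * ext G k) ^ 2) (γN N) :=
    gD.integrable.const_mul 2
  have i2 : Integrable (fun G => 2 * a ^ 2 * eW μ δ H (ext G) N ^ 2) (γN N) :=
    gW.integrable.const_mul _
  have hm : Integrable (fun G : Fin N → ℝ => (max (|(∑ k ∈ Finset.range N, √(δ k) *
      iteratedDeriv 2 (H k) (eS μ δ H (ext G) k) * ext G k) + a * eW μ δ H (ext G) N| - 1) 0) ^ 2)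
      (γN N) := by
    refine (i1.add i2).mono' ?_ (ae_of_all _ fun G => ?_)
    · have m1 := gT.1
      have m2 := (eW_eg h N le_rfl).1
      exact (((m1.add (m2.const_mul a)).abs.sub_const 1).max measurable_const |>.pow_const
        2).aestronglyMeasurable
    · rw [Real.norm_eq_abs, abs_of_nonneg (sq_nonneg _)]
      exact hpt G
  refine (integral_mono hm (i1.add i2) hpt).trans ?_
  have h8 := integral_add i1 i2
  have h9 : ∫ G, 2 * a ^ 2 * eW μ δ H (ext G) N ^ 2 ∂(γN N) ≤ 2 * a ^ 2 * N := by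
    rw [integral_const_mul]
    exact mul_le_mul_of_nonneg_left (eW_sq h N le_rfl) (by positivity)
  have h10 : ∫ G, 2 * (iteratedDeriv 1 (H N) (eS μ δ H (ext G) N) -
      ∑ k ∈ Finset.range N, √(δ k) *
        iteratedDeriv 2 (H k) (eS μ δ H (ext G) k) * ext G k) ^ 2 ∂(γN N) ≤ 2 * C := by
    rw [integral_const_mul]
    exact mul_le_mul_of_nonneg_left hS (by norm_num)
  refine (le_of_eq h8).trans ?_
  linarith

end Vale.Agent.P367.Cl
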