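import Vale.Agent.P367.Cl.EOneA

/-!
# P367, classical half, Theorem C: the remainder of the martingale increment
-/

open MeasureTheory ProbabilityTheory Filter Topology Set

namespace Vale.Agent.P367.Cl

open Vale.Agent.P157.Par
open Vale.Agent.P146.Gap
open Vale.Agent.P146.Pw2

variable {B m δ : ℝ} {H H' ψ : ℝ → ℝ}

theorem e1b_adm3 {C : ℝ} (hC : 1 ≤ C) {F : ℝ → ℝ} (h : Adm C F) (x : ℝ) :
    |iteratedDeriv 3 F x| ≤ C := by
  have h1 := h.r3 x
  have h2 := e1_adm2 h x
  have h3 := h.pos x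
  rw [abs_of_pos h3] at h2
  refine h1.trans ?_
  calc C * iteratedDeriv 2 F x ≤ C * 1 := mul_le_mul_of_nonneg_left h2 (by linarith)
    _ = C := mul_one C

theorem e1b_F2 {C : ℝ} (hC : 1 ≤ C) {F : ℝ → ℝ} (h : Adm C F) (x y : ℝ) :
    |iteratedDeriv 2 F y - iteratedDeriv 2 F x| ≤ C * |y - x| :=
  e1_lip (adm_hasD h.smb.smooth 2) (e1b_adm3 hC h) x y

theorem e1b_tay {C : ℝ} (hC : 1 ≤ C) {F : ℝ → ℝ} (h : Adm C F) (x d : ℝ) :
    |iteratedDeriv 1 F (x + d) - iteratedDeriv 1 F x - iteratedDeriv 2 F x * d| ≤ C * d ^ 2 := by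
  have hC0 : 0 < C := by linarith
  have h1 := e1_tay (f := fun y => iteratedDeriv 1 F y / C) (f' := fun y => iteratedDeriv 2 F y / C)
    (fun y => (adm_hasD h.smb.smooth 1 y).div_const C)
    (fun y z => by
      rw [← sub_div, abs_div, abs_of_pos hC0, div_le_iff₀ hC0, mul_comm |z - y| C]
      exact e1b_F2 hC h y z) x d
  have h2 : iteratedDeriv 1 F (x + d) / C - iteratedDeriv 1 F x / C - iteratedDeriv 2 F x / C * d =
      (iteratedDeriv 1 F (x + d) - iteratedDeriv 1 F x - iteratedDeriv 2 F x * d) / C := by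
    field_simp
  rw [h2, abs_div, abs_of_pos hC0, div_le_iff₀ hC0] at h1
  linarith

theorem e1b_dsq (h : St B m δ H H') (x z : ℝ) :
    (eX m δ H x z - x) ^ 2 ≤ 2 * (δ * (1 + z ^ 2)) := by
  have h1 := e1_d h x z
  have h2 := pow_le_pow_left₀ (abs_nonneg _) h1 2
  rw [sq_abs, mul_pow, Real.sq_sqrt h.d0] at h2
  refine h2.trans ?_
  have h3 : (1 + |z|) ^ 2 ≤ 2 * (1 + z ^ 2) := by
    have := sq_abs z
    nlinarith [sq_nonneg (1 - |z|)]
  calc δ * (1 + |z|) ^ 2 ≤ δ * (2 * (1 + z ^ 2)) := mul_le_mul_of_nonneg_left h3 h.d0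
    _ = 2 * (δ * (1 + z ^ 2)) := by ring

theorem e1b_rh (h : St B m δ H H') (x z : ℝ) : |rh m δ H H' x z| ≤ (3 * B + 1) * δ * (1 + z ^ 2) := by
  have hB := h.B1
  have hd0 := h.d0
  set d := eX m δ H x z - x with hd
  have e0 : x + d = eX m δ H x z := by rw [hd]; ring
  have h1 := h.df1 (eX m δ H x z)
  have h2 := e1b_tay hB h.adm x d
  have h3 := e1b_dsq h x z
  have h4 : |iteratedDeriv 2 H x * (δ * (m * iteratedDeriv 1 H x))| ≤ δ := by
    rw [abs_mul, abs_mul, abs_of_nonneg hd0]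
    have e1 := e1_adm2 h.adm x
    have e2 := e1_ma h x
    have e3 : δ * |m * iteratedDeriv 1 H x| ≤ δ * 1 := mul_le_mul_of_nonneg_left e2 hd0
    calc |iteratedDeriv 2 H x| * (δ * |m * iteratedDeriv 1 H x|) ≤ 1 * (δ * 1) :=
          mul_le_mul e1 e3 (by positivity) (by norm_num)
      _ = δ := by ring
  have h5 : rh m δ H H' x z = (iteratedDeriv 1 H' (eX m δ H x z) - iteratedDeriv 1 H (eX m δ H x z)) +
      (iteratedDeriv 1 H (x + d) - iteratedDeriv 1 H x - iteratedDeriv 2 H x * d) +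
      iteratedDeriv 2 H x * (δ * (m * iteratedDeriv 1 H x)) := by
    rw [e0]
    unfold rh
    have : d = δ * (m * iteratedDeriv 1 H x) + √δ * z := by
      rw [hd]; unfold eX; ring
    rw [this]
    ring
  rw [h5]
  have h6 : B * d ^ 2 ≤ B * (2 * (δ * (1 + z ^ 2))) := mul_le_mul_of_nonneg_left h3 (by linarith)
  have h7 : 0 ≤ δ * z ^ 2 := by positivity
  have h8 : 0 ≤ B * (δ * z ^ 2) := by positivity
  refine (abs_add_le _ _).trans ?_
  have h9 := abs_add_le (iteratedDeriv 1 H' (eX m δ H x z) - iteratedDeriv 1 H (eX m δ H x z))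
    (iteratedDeriv 1 H (x + d) - iteratedDeriv 1 H x - iteratedDeriv 2 H x * d)
  nlinarith

theorem rh_bd (B : ℝ) : ∃ C : ℝ, 1 ≤ C ∧ ∀ (m δ : ℝ) (H H' : ℝ → ℝ), St B m δ H H' →
    ∀ x z, |rh m δ H H' x z| ≤ C * δ * (1 + z ^ 2) := by
  refine ⟨3 * |B| + 1, by linarith [abs_nonneg B], fun m δ H H' h x z => ?_⟩
  refine (e1b_rh h x z).trans ?_
  have hd := h.d0
  have : (3 * B + 1) * δ ≤ (3 * |B| + 1) * δ :=
    mul_le_mul_of_nonneg_right (by linarith [le_abs_self B]) hd
  exact mul_le_mul_of_nonneg_right this (by positivity)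

/-- `|H₁'(y) - H₁(x)| ≤ √δ (B + 1 + |z|)`. -/
theorem e1b_inc (h : St B m δ H H') (x z : ℝ) :
    |iteratedDeriv 1 H' (eX m δ H x z) - iteratedDeriv 1 H x| ≤ √δ * ((B + 1) * (1 + |z|)) := by
  have h1 := h.df1 (eX m δ H x z)
  have h2 := e1_F1 h.adm x (eX m δ H x z)
  have h3 := e1_d h x z
  have h4 := abs_sub_le (iteratedDeriv 1 H' (eX m δ H x z)) (iteratedDeriv 1 H (eX m δ H x z))
    (iteratedDeriv 1 H x)
  have h5 : δ ≤ √δ := by
    have e1 := e1_sqrt h
    have e2 := Real.sqrt_nonneg δ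
    have e3 : √δ * √δ = δ := Real.mul_self_sqrt h.d0
    nlinarith
  have hB := h.B1
  have hz := abs_nonneg z
  have h6 : B * δ ≤ B * √δ := mul_le_mul_of_nonneg_left h5 (by linarith)
  have h7 : 0 ≤ √δ * (B * |z|) := by positivity
  nlinarith

theorem e1b_cont (h : St B m δ H H') (x : ℝ) :
    Continuous (fun z => iteratedDeriv 1 H' (eX m δ H x z) - iteratedDeriv 1 H x) := by
  have c1 := adm_cont h.adm'.smb.smooth 1
  unfold eX
  fun_prop

theorem rh_mean (B : ℝ) : ∃ C : ℝ, 1 ≤ C ∧ ∀ (m δ : ℝ) (H H' : ℝ → ℝ), St B m δ H H' →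
    ∀ x, |∫ z, rh m δ H H' x z ∂(gaussianReal 0 1)| ≤ C * (δ * √δ) := by
  obtain ⟨C, hC1, hC⟩ := ell_sub B
  set K := ∫ z : ℝ, (1 + z ^ 2) ^ 2 * Real.exp (C * (1 + |z|)) ∂(gaussianReal 0 1) with hK
  have hK0 : 0 ≤ K := integral_nonneg fun z => by positivity
  have hB0 := abs_nonneg B
  refine ⟨1 + C * (2 * (|B| + 1)) * K, by
    have : 0 ≤ C * (2 * (|B| + 1)) * K := by positivity
    linarith, fun m δ H H' h x => ?_⟩
  have hδ := h.d0
  have hBB := h.B1
  set D : ℝ → ℝ := fun z => iteratedDeriv 1 H' (eX m δ H x z) - iteratedDeriv 1 H x with hD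
  have hDc : Continuous D := e1b_cont h x
  -- integrability
  have hDi : Integrable D (gaussianReal 0 1) := by
    refine (integrable_const (2 : ℝ)).mono' hDc.aestronglyMeasurable (ae_of_all _ fun z => ?_)
    rw [Real.norm_eq_abs]
    have h1 := e1_adm1 h.adm' (eX m δ H x z)
    have h2 := e1_adm1 h.adm x
    refine (abs_sub _ _).trans ?_
    linarith
  have hle : Integrable (fun z => ell m δ H H' x z * D z) (gaussianReal 0 1) := by
    refine ((e1_int h x).const_mul 2).mono' ((e1_cont_z h x).mul hDc).aestronglyMeasurable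
      (ae_of_all _ fun z => ?_)
    rw [Real.norm_eq_abs, abs_mul, abs_of_pos (ell_pos x z), mul_comm]
    refine mul_le_mul_of_nonneg_right ?_ (ell_pos x z).le
    have h1 := e1_adm1 h.adm' (eX m δ H x z)
    have h2 := e1_adm1 h.adm x
    refine (abs_sub _ _).trans ?_
    linarith
  -- `∫ ell D = 0`
  have hz : ∫ z, ell m δ H H' x z * D z ∂(gaussianReal 0 1) = 0 := by
    have hcb : Sp7Cb (iteratedDeriv 1 H') :=
      ⟨adm_cont h.adm'.smb.smooth 1, 1, fun y => e1_adm1 h.adm' y⟩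
    have h1 := ell_tlt h hcb x
    have h2 : tlt m δ H' (iteratedDeriv 1 H') x = iteratedDeriv 1 H x := by
      have h3 := congrFun (ex_gstep_d1 h.adm' h.m0 δ) x
      rw [← h3, ← h.eq]
    have h4 : Integrable (fun z => ell m δ H H' x z * iteratedDeriv 1 H' (eX m δ H x z))
        (gaussianReal 0 1) := by
      refine (hle.add ((e1_int h x).mul_const (iteratedDeriv 1 H x))).congr
        (ae_of_all _ fun z => ?_)
      simp only [hD, Pi.add_apply]
      ring
    have h5 : (fun z => ell m δ H H' x z * D z) = fun z =>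
        ell m δ H H' x z * iteratedDeriv 1 H' (eX m δ H x z) -
          ell m δ H H' x z * iteratedDeriv 1 H x := by
      funext z
      simp only [hD]
      ring
    rw [h5, integral_sub h4 ((e1_int h x).mul_const _), integral_mul_const, ell_one h x, h1, h2]
    ring
  -- `∫ rh = ∫ D`
  have hid : Integrable (fun z : ℝ => z) (gaussianReal 0 1) := by
    have := memLp_id_gaussianReal (μ := 0) (v := 1) 1
    exact memLp_one_iff_integrable.1 this
  have hmean : ∫ z, z ∂(gaussianReal 0 1) = 0 := integral_id_gaussianReal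
  have hr : ∫ z, rh m δ H H' x z ∂(gaussianReal 0 1) = ∫ z, D z ∂(gaussianReal 0 1) := by
    have h1 : (fun z => rh m δ H H' x z) = fun z => D z - √δ * iteratedDeriv 2 H x * z := by
      funext z
      rfl
    rw [h1, integral_sub hDi (hid.const_mul _), integral_const_mul, hmean]
    ring
  have hr2 : ∫ z, D z ∂(gaussianReal 0 1) =
      -∫ z, (ell m δ H H' x z - 1) * D z ∂(gaussianReal 0 1) := by
    have h1 : (fun z => (ell m δ H H' x z - 1) * D z) = fun z => ell m δ H H' x z * D z - D z := by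
      funext z
      ring
    rw [h1, integral_sub hle hDi, hz]
    ring
  rw [hr, hr2, abs_neg]
  have hb : ∀ z, |(ell m δ H H' x z - 1) * D z| ≤
      (C * δ * (√δ * (2 * (|B| + 1)))) * ((1 + z ^ 2) ^ 2 * Real.exp (C * (1 + |z|))) := by
    intro z
    have h1 := hC m δ H H' h x z
    have h2 := e1b_inc h x z
    have h3 : 1 + |z| ≤ 2 * (1 + z ^ 2) := by
      have := sq_abs z
      nlinarith [sq_nonneg (|z| - 1), abs_nonneg z]
    have h4 : |D z| ≤ √δ * (2 * (|B| + 1)) * (1 + z ^ 2) := by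
      refine h2.trans ?_
      have e1 : (B + 1) * (1 + |z|) ≤ (|B| + 1) * (2 * (1 + z ^ 2)) :=
        mul_le_mul (by linarith [le_abs_self B]) h3 (by positivity) (by positivity)
      have e2 := mul_le_mul_of_nonneg_left e1 (Real.sqrt_nonneg δ)
      refine e2.trans (le_of_eq ?_)
      ring
    rw [abs_mul]
    calc |ell m δ H H' x z - 1| * |D z| ≤
        (C * δ * (1 + z ^ 2) * Real.exp (C * (1 + |z|))) * (√δ * (2 * (|B| + 1)) * (1 + z ^ 2)) :=
          mul_le_mul h1 h4 (abs_nonneg _) (by positivity)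
      _ = _ := by ring
  have hfin : |∫ z, (ell m δ H H' x z - 1) * D z ∂(gaussianReal 0 1)| ≤
      (C * δ * (√δ * (2 * (|B| + 1)))) * K := by
    rw [hK, ← integral_const_mul, ← Real.norm_eq_abs]
    exact norm_integral_le_of_norm_le ((e1_poly_exp C).const_mul _)
      (ae_of_all _ fun z => by rw [Real.norm_eq_abs]; exact hb z)
  refine hfin.trans ?_
  have h9 : 0 ≤ δ * √δ := by positivity
  have h10 : C * δ * (√δ * (2 * (|B| + 1))) * K = (C * (2 * (|B| + 1)) * K) * (δ * √δ) := by ring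
  rw [h10]
  nlinarith

end Vale.Agent.P367.Cl
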