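import Vale.Agent.P367.Cl.EChn0
import Vale.Agent.P367.Cl.EOneB

/-!
# P367, classical half, Euler scheme: the Euler chain against the tilted chain
-/

open MeasureTheory ProbabilityTheory Filter Topology Set

namespace Vale.Agent.P367.Cl

open Vale.Agent.P157.Par
open Vale.Agent.P146.Gap
open Vale.Agent.P146.Pw2

/-- The state of the Euler chain. -/
noncomputable def eS (μ δ : ℕ → ℝ) (H : ℕ → ℝ → ℝ) (G : ℕ → ℝ) (k : ℕ) : ℝ :=
  cX (eF μ δ H) (fun k => √(δ k)) G k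

/-- The density of the tilted chain with respect to the Euler chain. -/
noncomputable def eZ (μ δ : ℕ → ℝ) (H : ℕ → ℝ → ℝ) (G : ℕ → ℝ) (k : ℕ) : ℝ :=
  ∏ j ∈ Finset.range k, ell (μ j) (δ j) (H j) (H (j + 1)) (eS μ δ H G j) (G j)

/-- The sum of the remainders. -/
noncomputable def eR (μ δ : ℕ → ℝ) (H : ℕ → ℝ → ℝ) (G : ℕ → ℝ) (k : ℕ) : ℝ :=
  ∑ j ∈ Finset.range k, rh (μ j) (δ j) (H j) (H (j + 1)) (eS μ δ H G j) (G j)

variable {N : ℕ} {μ δ : ℕ → ℝ} {H : ℕ → ℝ → ℝ} {B : ℝ}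

theorem eS_succ (G : ℕ → ℝ) (k : ℕ) :
    eS μ δ H G (k + 1) = eX (μ k) (δ k) (H k) (eS μ δ H G k) (G k) := rfl

theorem eS_upd (G : Fin N → ℝ) {k j : ℕ} (hk : k < N) (hj : j ≤ k) (z : ℝ) :
    eS μ δ H (ext (Function.update G ⟨k, hk⟩ z)) j = eS μ δ H (ext G) j :=
  cX_upd _ _ G ⟨k, hk⟩ z hj

theorem ext_upd (G : Fin N → ℝ) {k : ℕ} (hk : k < N) (z : ℝ) :
    ext (Function.update G ⟨k, hk⟩ z) k = z := ext_upd_same G ⟨k, hk⟩ z

theorem ext_upd_lt (G : Fin N → ℝ) {k j : ℕ} (hk : k < N) (hj : j < k) (z : ℝ) :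
    ext (Function.update G ⟨k, hk⟩ z) j = ext G j :=
  ext_upd_ne G ⟨k, hk⟩ z (Nat.ne_of_lt hj)

theorem eS_upd_succ (G : Fin N → ℝ) {k : ℕ} (hk : k < N) (z : ℝ) :
    eS μ δ H (ext (Function.update G ⟨k, hk⟩ z)) (k + 1) =
      eX (μ k) (δ k) (H k) (eS μ δ H (ext G) k) z := by
  rw [eS_succ, eS_upd G hk le_rfl, ext_upd G hk]

theorem eZ_upd (G : Fin N → ℝ) {k : ℕ} (hk : k < N) (z : ℝ) :
    eZ μ δ H (ext (Function.update G ⟨k, hk⟩ z)) (k + 1) =
      eZ μ δ H (ext G) k * ell (μ k) (δ k) (H k) (H (k + 1)) (eS μ δ H (ext G) k) z := by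
  unfold eZ
  rw [Finset.prod_range_succ, eS_upd G hk le_rfl, ext_upd G hk]
  congr 1
  refine Finset.prod_congr rfl fun j hj => ?_
  have hj' := Finset.mem_range.1 hj
  rw [eS_upd G hk hj'.le, ext_upd_lt G hk hj']

theorem eR_upd (G : Fin N → ℝ) {k : ℕ} (hk : k < N) (z : ℝ) :
    eR μ δ H (ext (Function.update G ⟨k, hk⟩ z)) (k + 1) =
      eR μ δ H (ext G) k + rh (μ k) (δ k) (H k) (H (k + 1)) (eS μ δ H (ext G) k) z := by
  unfold eR
  rw [Finset.sum_range_succ, eS_upd G hk le_rfl, ext_upd G hk]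
  congr 1
  refine Finset.sum_congr rfl fun j hj => ?_
  have hj' := Finset.mem_range.1 hj
  rw [eS_upd G hk hj'.le, ext_upd_lt G hk hj']

attribute [local irreducible] ell rh eS

theorem eF_meas (h : ∀ k < N, St B (μ k) (δ k) (H k) (H (k + 1))) {k : ℕ} (hk : k < N) :
    Measurable (eF μ δ H k) := by
  have := (adm_cont (h k hk).adm.smb.smooth 1).measurable
  unfold eF
  fun_prop

theorem eS_meas (h : ∀ k < N, St B (μ k) (δ k) (H k) (H (k + 1))) {k : ℕ} (hk : k ≤ N) :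
    Measurable (fun G : Fin N → ℝ => eS μ δ H (ext G) k) := by
  unfold eS
  exact measurable_cX _ k fun _ hj => eF_meas h (by omega)

theorem ell_meas (h : ∀ k < N, St B (μ k) (δ k) (H k) (H (k + 1))) {k : ℕ} (hk : k < N) :
    Measurable (fun G : Fin N → ℝ =>
      ell (μ k) (δ k) (H k) (H (k + 1)) (eS μ δ H (ext G) k) (ext G k)) := by
  have h1 : Measurable (fun G : Fin N → ℝ => (eS μ δ H (ext G) k, ext G k)) :=
    (eS_meas h hk.le).prodMk (measurable_ext k)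
  exact Measurable.comp (g := fun p : ℝ × ℝ => ell (μ k) (δ k) (H k) (H (k + 1)) p.1 p.2)
    (ell_cont (h k hk)).measurable h1

theorem rh_meas (h : ∀ k < N, St B (μ k) (δ k) (H k) (H (k + 1))) {k : ℕ} (hk : k < N) :
    Measurable (fun G : Fin N → ℝ =>
      rh (μ k) (δ k) (H k) (H (k + 1)) (eS μ δ H (ext G) k) (ext G k)) := by
  have h1 : Measurable (fun G : Fin N → ℝ => (eS μ δ H (ext G) k, ext G k)) :=
    (eS_meas h hk.le).prodMk (measurable_ext k)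
  exact Measurable.comp (g := fun p : ℝ × ℝ => rh (μ k) (δ k) (H k) (H (k + 1)) p.1 p.2)
    (rh_cont (h k hk)).measurable h1

theorem ell_eg (h : ∀ k < N, St B (μ k) (δ k) (H k) (H (k + 1))) {k : ℕ} (hk : k < N) :
    EG N (fun G => ell (μ k) (δ k) (H k) (H (k + 1)) (eS μ δ H (ext G) k) (ext G k)) := by
  obtain ⟨C, hC, hb⟩ := ell_bd B
  refine EG.mono (ell_meas h hk) (EG.exp_ext C k) fun G => ?_
  rw [abs_of_pos (ell_pos _ _), abs_of_pos (Real.exp_pos _)]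
  exact hb _ _ _ _ (h k hk) _ _

theorem rh_eg (h : ∀ k < N, St B (μ k) (δ k) (H k) (H (k + 1))) {k : ℕ} (hk : k < N) :
    EG N (fun G => rh (μ k) (δ k) (H k) (H (k + 1)) (eS μ δ H (ext G) k) (ext G k)) := by
  obtain ⟨C, hC, hb⟩ := rh_bd B
  have h1 : EG N (fun G => C * δ k * (1 + Cl.ext G k ^ 2)) :=
    ((EG.const 1).add (EG.ext k).pow_two).const_mul (C * δ k)
  refine EG.mono (rh_meas h hk) h1 fun G => ?_
  have h2 : 0 ≤ C * δ k * (1 + Cl.ext G k ^ 2) := by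
    have := (h k hk).d0
    positivity
  rw [abs_of_nonneg h2]
  exact hb _ _ _ _ (h k hk) _ _

theorem eZ_eg (h : ∀ k < N, St B (μ k) (δ k) (H k) (H (k + 1))) : ∀ k ≤ N,
    EG N (fun G => eZ μ δ H (ext G) k)
  | 0, _ => by simpa [eZ] using EG.const (N := N) 1
  | k + 1, hk => by
    have h1 := (eZ_eg h k (by omega)).mul (ell_eg h (k := k) (by omega))
    simpa only [eZ, Finset.prod_range_succ] using h1

theorem eR_eg (h : ∀ k < N, St B (μ k) (δ k) (H k) (H (k + 1))) : ∀ k ≤ N,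
    EG N (fun G => eR μ δ H (ext G) k)
  | 0, _ => by simpa [eR] using EG.const (N := N) 0
  | k + 1, hk => by
    have h1 := (eR_eg h k (by omega)).add (rh_eg h (k := k) (by omega))
    simpa only [eR, Finset.sum_range_succ] using h1

theorem eψ_eg (h : ∀ k < N, St B (μ k) (δ k) (H k) (H (k + 1))) {k : ℕ} (hk : k ≤ N)
    {ψ : ℝ → ℝ} (hψ : Sp7Cb ψ) : EG N (fun G => ψ (eS μ δ H (ext G) k)) := by
  obtain ⟨hc, K, hK⟩ := hψ
  exact EG.of_bdd (hc.measurable.comp (eS_meas h hk)) fun G => hK _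

theorem eZ_repr (h : ∀ k < N, St B (μ k) (δ k) (H k) (H (k + 1))) : ∀ k ≤ N, ∀ ψ : ℝ → ℝ,
    Sp7Cb ψ → tE μ δ H k ψ = ∫ G, eZ μ δ H (ext G) k * ψ (eS μ δ H (ext G) k) ∂(γN N)
  | 0, _, ψ, _ => by
    simp [tE, eZ, eS, cX]
  | k + 1, hk, ψ, hψ => by
    have hk' : k < N := by omega
    have hs := h k hk'
    have h1 : Sp7Cb (tlt (μ k) (δ k) (H (k + 1)) ψ) := sp7_cb_tlt (adm_ec hs.adm') hψ _ _
    have h2 : tE μ δ H (k + 1) ψ = tE μ δ H k (tlt (μ k) (δ k) (H (k + 1)) ψ) := rfl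
    rw [h2, eZ_repr h k (by omega) _ h1,
      int_upd ⟨k, hk'⟩ ((eZ_eg h (k + 1) hk).mul (eψ_eg h hk hψ)).integrable]
    refine integral_congr_ae (ae_of_all _ fun G => ?_)
    simp only [eZ_upd G hk', eS_upd_succ G hk', mul_assoc]
    rw [integral_const_mul, ell_tlt hs hψ]

theorem eZ_one (h : ∀ k < N, St B (μ k) (δ k) (H k) (H (k + 1))) : ∀ k ≤ N,
    ∫ G, eZ μ δ H (ext G) k ∂(γN N) = 1
  | 0, _ => by simp [eZ]
  | k + 1, hk => by
    have hk' : k < N := by omega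
    rw [int_upd ⟨k, hk'⟩ (eZ_eg h (k + 1) hk).integrable, ← eZ_one h k (by omega)]
    refine integral_congr_ae (ae_of_all _ fun G => ?_)
    simp only [eZ_upd G hk']
    rw [integral_const_mul, ell_one (h k hk'), mul_one]

theorem eZ_sq {C : ℝ} (hC : 1 ≤ C) (hq : ∀ (m δ : ℝ) (H H' : ℝ → ℝ), St B m δ H H' →
      ∀ x, ∫ z, ell m δ H H' x z ^ 2 ∂(gaussianReal 0 1) ≤ 1 + C * δ ^ 2)
    (h : ∀ k < N, St B (μ k) (δ k) (H k) (H (k + 1))) : ∀ k ≤ N,
    ∫ G, eZ μ δ H (ext G) k ^ 2 ∂(γN N) ≤ Real.exp (C * ∑ j ∈ Finset.range k, δ j ^ 2)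
  | 0, _ => by simp [eZ]
  | k + 1, hk => by
    have hk' : k < N := by omega
    have ih := eZ_sq hC hq h k (by omega)
    rw [int_upd ⟨k, hk'⟩ (eZ_eg h (k + 1) hk).pow_two.integrable]
    have h1 : ∀ G : Fin N → ℝ, ∫ z, eZ μ δ H (ext (Function.update G ⟨k, hk'⟩ z)) (k + 1) ^ 2
        ∂(gaussianReal 0 1) ≤ eZ μ δ H (ext G) k ^ 2 * (1 + C * δ k ^ 2) := fun G => by
      simp only [eZ_upd G hk', mul_pow]
      rw [integral_const_mul]
      exact mul_le_mul_of_nonneg_left (hq _ _ _ _ (h k hk') _) (sq_nonneg _)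
    have h2 := integral_mono (int_upd_integrable ⟨k, hk'⟩
      (eZ_eg h (k + 1) hk).pow_two.integrable)
      ((eZ_eg h k (by omega)).pow_two.integrable.mul_const (1 + C * δ k ^ 2)) h1
    refine h2.trans ?_
    have he : Real.exp (C * ∑ j ∈ Finset.range (k + 1), δ j ^ 2) =
        Real.exp (C * ∑ j ∈ Finset.range k, δ j ^ 2) * Real.exp (C * δ k ^ 2) := by
      rw [Finset.sum_range_succ, mul_add, Real.exp_add]
    rw [integral_mul_const, he]
    refine mul_le_mul ih ?_ (by positivity) (Real.exp_pos _).le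
    have := Real.add_one_le_exp (C * δ k ^ 2)
    linarith

theorem euler_weak (B : ℝ) : ∃ C : ℝ, 1 ≤ C ∧ ∀ (N : ℕ) (μ δ : ℕ → ℝ) (H : ℕ → ℝ → ℝ),
    (∀ k < N, St B (μ k) (δ k) (H k) (H (k + 1))) → ∀ k ≤ N, ∀ ψ : ℝ → ℝ, Continuous ψ →
    (∀ x, |ψ x| ≤ 1) →
    |tE μ δ H k ψ - ∫ G, ψ (cX (eF μ δ H) (fun k => √(δ k)) (ext G) k) ∂(γN N)| ≤
      √(Real.exp (C * ∑ j ∈ Finset.range N, δ j ^ 2) - 1) := by
  obtain ⟨C, hC, hq⟩ := ell_sq B
  refine ⟨C, hC, fun N μ δ H h k hk ψ hψ hψ1 => ?_⟩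
  have hcb : Sp7Cb ψ := ⟨hψ, 1, hψ1⟩
  have hZ := eZ_eg h k hk
  have hP := eψ_eg h hk hcb
  have h1 : tE μ δ H k ψ - ∫ G, ψ (cX (eF μ δ H) (fun k => √(δ k)) (ext G) k) ∂(γN N) =
      ∫ G, (eZ μ δ H (ext G) k - 1) * ψ (eS μ δ H (ext G) k) ∂(γN N) := by
    rw [eZ_repr h k hk ψ hcb]
    have h2 : ∫ G, ψ (cX (eF μ δ H) (fun k => √(δ k)) (ext G) k) ∂(γN N) =
      ∫ G, ψ (eS μ δ H (ext G) k) ∂(γN N) := by simp only [eS]
    rw [h2, ← integral_sub (hZ.mul hP).integrable hP.integrable]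
    refine integral_congr_ae (ae_of_all _ fun G => ?_)
    simp only
    ring
  have hW : EG N (fun G => eZ μ δ H (ext G) k - 1) := hZ.sub (EG.const 1)
  rw [h1]
  have h3 : |∫ G, (eZ μ δ H (ext G) k - 1) * ψ (eS μ δ H (ext G) k) ∂(γN N)| ≤
      ∫ G, |eZ μ δ H (ext G) k - 1| ∂(γN N) := by
    refine (abs_integral_le_integral_abs).trans ?_
    refine integral_mono (hW.mul hP).integrable.abs hW.integrable.abs fun G => ?_
    show |(eZ μ δ H (ext G) k - 1) * ψ (eS μ δ H (ext G) k)| ≤ |eZ μ δ H (ext G) k - 1|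
    rw [abs_mul]
    exact mul_le_of_le_one_right (abs_nonneg _) (hψ1 _)
  refine h3.trans ((abs_int_le_sqrt hW).trans (Real.sqrt_le_sqrt ?_))
  have h4 : ∫ G, (eZ μ δ H (ext G) k - 1) ^ 2 ∂(γN N) =
      (∫ G, eZ μ δ H (ext G) k ^ 2 ∂(γN N)) - 1 := by
    have e : ∀ G : Fin N → ℝ, (eZ μ δ H (ext G) k - 1) ^ 2 =
        eZ μ δ H (ext G) k ^ 2 - 2 * eZ μ δ H (ext G) k + 1 := fun G => by ring
    simp only [e]
    have i1 : Integrable (fun G => eZ μ δ H (ext G) k ^ 2) (γN N) := hZ.pow_two.integrable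
    have i2 : Integrable (fun G => 2 * eZ μ δ H (ext G) k) (γN N) := hZ.integrable.const_mul _
    have i3 : Integrable (fun G => eZ μ δ H (ext G) k ^ 2 - 2 * eZ μ δ H (ext G) k) (γN N) :=
      i1.sub i2
    rw [integral_add i3 (integrable_const _), integral_sub i1 i2, integral_const_mul,
      eZ_one h k hk, integral_const]
    simp
    ring
  rw [h4]
  have h5 := eZ_sq hC hq h k hk
  have h6 : Real.exp (C * ∑ j ∈ Finset.range k, δ j ^ 2) ≤
      Real.exp (C * ∑ j ∈ Finset.range N, δ j ^ 2) := by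
    refine Real.exp_le_exp.2 (mul_le_mul_of_nonneg_left ?_ (by linarith))
    exact Finset.sum_le_sum_of_subset_of_nonneg (Finset.range_mono hk)
      fun _ _ _ => sq_nonneg _
  linarith

theorem gauss_poly : Integrable (fun z : ℝ => (1 + z ^ 2) ^ 2) (gaussianReal 0 1) := by
  refine ((int_exp_abs 4).const_mul 1).mono' (by fun_prop) (ae_of_all _ fun z => ?_)
  rw [Real.norm_eq_abs, abs_of_nonneg (sq_nonneg _), one_mul]
  have h1 : 1 + z ^ 2 ≤ Real.exp (2 * |z|) := by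
    have h2 := Real.quadratic_le_exp_of_nonneg (x := 2 * |z|) (by positivity)
    have h3 := abs_nonneg z
    have h4 := sq_abs z
    nlinarith
  calc (1 + z ^ 2) ^ 2 ≤ Real.exp (2 * |z|) ^ 2 := by
        exact pow_le_pow_left₀ (by positivity) h1 2
    _ = Real.exp (4 * |z|) := by rw [← Real.exp_nat_mul]; ring_nf

/-- the conditional second moment -/
theorem rh_step {m' d C D s : ℝ} {K K' : ℝ → ℝ}
    (hD : D = ∫ z, (1 + z ^ 2) ^ 2 ∂(gaussianReal 0 1)) (hs : St B m' d K K') (x : ℝ)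
    (hb : ∀ z, |rh m' d K K' x z| ≤ C * d * (1 + z ^ 2))
    (hm : |∫ z, rh m' d K K' x z ∂(gaussianReal 0 1)| ≤ C * (d * √d)) :
    ∫ z, (s + rh m' d K K' x z) ^ 2 ∂(gaussianReal 0 1) ≤
      (1 + d) * s ^ 2 + C ^ 2 * (1 + D) * d ^ 2 := by
  have hd := hs.d0
  have hcont : Continuous (fun z => rh m' d K K' x z) :=
    Continuous.comp (g := fun p : ℝ × ℝ => rh m' d K K' p.1 p.2) (rh_cont hs)
      (by fun_prop : Continuous fun z : ℝ => (x, z))
  have hr2 : Integrable (fun z => rh m' d K K' x z ^ 2) (gaussianReal 0 1) := by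
    refine (gauss_poly.const_mul ((C * d) ^ 2)).mono'
      (hcont.pow 2).aestronglyMeasurable (ae_of_all _ fun z => ?_)
    rw [Real.norm_eq_abs, abs_of_nonneg (sq_nonneg _), ← sq_abs, ← mul_pow]
    exact pow_le_pow_left₀ (abs_nonneg _) (hb _) 2
  have hr1 : Integrable (fun z => rh m' d K K' x z) (gaussianReal 0 1) := by
    refine (hr2.add (integrable_const 1)).mono' hcont.aestronglyMeasurable
      (ae_of_all _ fun z => ?_)
    rw [Real.norm_eq_abs]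
    show |rh m' d K K' x z| ≤ rh m' d K K' x z ^ 2 + 1
    have h1 := sq_nonneg (|rh m' d K K' x z| - 1)
    have h2 := sq_abs (rh m' d K K' x z)
    have h3 := abs_nonneg (rh m' d K K' x z)
    nlinarith
  have e : ∀ z, (s + rh m' d K K' x z) ^ 2 =
      s ^ 2 + (2 * s) * rh m' d K K' x z + rh m' d K K' x z ^ 2 := fun z => by ring
  simp only [e]
  have i1 : Integrable (fun z => (2 * s) * rh m' d K K' x z) (gaussianReal 0 1) :=
    hr1.const_mul _
  have i2 : Integrable (fun z => s ^ 2 + (2 * s) * rh m' d K K' x z) (gaussianReal 0 1) :=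
    (integrable_const _).add i1
  rw [integral_add i2 hr2, integral_add (integrable_const _) i1, integral_const_mul,
    integral_const]
  simp only [probReal_univ, one_smul]
  have h2 : ∫ z, rh m' d K K' x z ^ 2 ∂(gaussianReal 0 1) ≤ (C * d) ^ 2 * D := by
    rw [hD, ← integral_const_mul]
    refine integral_mono hr2 (gauss_poly.const_mul _) fun z => ?_
    show rh m' d K K' x z ^ 2 ≤ (C * d) ^ 2 * (1 + z ^ 2) ^ 2
    rw [← sq_abs, ← mul_pow]
    exact pow_le_pow_left₀ (abs_nonneg _) (hb _) 2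
  have h3 : 2 * s * ∫ z, rh m' d K K' x z ∂(gaussianReal 0 1) ≤
      d * s ^ 2 + C ^ 2 * d ^ 2 := by
    set I := ∫ z, rh m' d K K' x z ∂(gaussianReal 0 1) with hI
    have h5 : 2 * s * I ≤ 2 * |s| * (C * (d * √d)) := by
      refine (le_abs_self _).trans ?_
      rw [abs_mul, abs_mul, abs_two]
      exact mul_le_mul_of_nonneg_left hm (by positivity)
    have h6 : √d ^ 2 = d := Real.sq_sqrt hd
    have h7 : 2 * |s| * (C * (d * √d)) = 2 * (√d * |s|) * (C * d) := by ring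
    have h8 := two_mul_le_add_sq (√d * |s|) (C * d)
    have h9 : (√d * |s|) ^ 2 = d * s ^ 2 := by rw [mul_pow, h6, sq_abs]
    have h10 : (C * d) ^ 2 = C ^ 2 * d ^ 2 := by ring
    rw [h9, h10] at h8
    linarith
  have h11 : (C * d) ^ 2 * D = C ^ 2 * D * d ^ 2 := by ring
  have h12 : (1 + d) * s ^ 2 + C ^ 2 * (1 + D) * d ^ 2 =
      s ^ 2 + (d * s ^ 2 + C ^ 2 * d ^ 2) + C ^ 2 * D * d ^ 2 := by ring
  linarith

/-- the recursion -/
theorem rec_step {A E S d I : ℝ} (hA : 0 ≤ A) (hE : 1 ≤ E) (hd : 0 ≤ d)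
    (hI : 0 ≤ I) (ih : I ≤ A * E * S) :
    (1 + d) * I + A * d ^ 2 ≤ A * (E * Real.exp d) * (S + d ^ 2) := by
  have he : 1 + d ≤ Real.exp d := by
    have := Real.add_one_le_exp d
    linarith
  have h4 : (1 + d) * I ≤ Real.exp d * (A * E * S) :=
    mul_le_mul he ih hI (Real.exp_pos _).le
  have h6 : 1 ≤ E * Real.exp d := one_le_mul_of_one_le_of_one_le hE (by linarith)
  have h7 : A * 1 ≤ A * (E * Real.exp d) := mul_le_mul_of_nonneg_left h6 hA
  have h8 := mul_le_mul_of_nonneg_right h7 (sq_nonneg d)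
  have h9 : A * (E * Real.exp d) * (S + d ^ 2) =
      Real.exp d * (A * E * S) + A * (E * Real.exp d) * d ^ 2 := by ring
  rw [h9]
  linarith

theorem eR_sq {C D : ℝ} (hC : 1 ≤ C) (hD : D = ∫ z, (1 + z ^ 2) ^ 2 ∂(gaussianReal 0 1))
    (hb : ∀ (m δ : ℝ) (H H' : ℝ → ℝ), St B m δ H H' → ∀ x z,
      |rh m δ H H' x z| ≤ C * δ * (1 + z ^ 2))
    (hm : ∀ (m δ : ℝ) (H H' : ℝ → ℝ), St B m δ H H' → ∀ x,
      |∫ z, rh m δ H H' x z ∂(gaussianReal 0 1)| ≤ C * (δ * √δ))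
    (h : ∀ k < N, St B (μ k) (δ k) (H k) (H (k + 1))) : ∀ k ≤ N,
    ∫ G, eR μ δ H (ext G) k ^ 2 ∂(γN N) ≤
      (C ^ 2 * (1 + D)) * Real.exp (∑ j ∈ Finset.range k, δ j) * ∑ j ∈ Finset.range k, δ j ^ 2
  | 0, _ => by simp [eR]
  | k + 1, hk => by
    have hk' : k < N := by omega
    have ih := eR_sq hC hD hb hm h k (by omega)
    have hs := h k hk'
    have hD0 : 0 ≤ D := by rw [hD]; exact integral_nonneg fun _ => sq_nonneg _
    rw [int_upd ⟨k, hk'⟩ (eR_eg h (k + 1) hk).pow_two.integrable]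
    have h1 : ∀ G : Fin N → ℝ, ∫ z, eR μ δ H (ext (Function.update G ⟨k, hk'⟩ z)) (k + 1) ^ 2
        ∂(gaussianReal 0 1) ≤ (1 + δ k) * eR μ δ H (ext G) k ^ 2 +
          C ^ 2 * (1 + D) * δ k ^ 2 := fun G => by
      simp only [eR_upd G hk']
      exact rh_step hD hs _ (hb _ _ _ _ hs _) (hm _ _ _ _ hs _)
    have i1 : Integrable (fun G => (1 + δ k) * eR μ δ H (ext G) k ^ 2) (γN N) :=
      (eR_eg h k (by omega)).pow_two.integrable.const_mul _
    have i2 : Integrable (fun G => (1 + δ k) * eR μ δ H (ext G) k ^ 2 +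
      C ^ 2 * (1 + D) * δ k ^ 2) (γN N) := i1.add (integrable_const _)
    have h2 := integral_mono (int_upd_integrable ⟨k, hk'⟩
      (eR_eg h (k + 1) hk).pow_two.integrable) i2 h1
    refine h2.trans ?_
    have h3 : ∫ G, ((1 + δ k) * eR μ δ H (ext G) k ^ 2 + C ^ 2 * (1 + D) * δ k ^ 2) ∂(γN N) =
        (1 + δ k) * (∫ G, eR μ δ H (ext G) k ^ 2 ∂(γN N)) + C ^ 2 * (1 + D) * δ k ^ 2 := by
      rw [integral_add i1 (integrable_const _), integral_const_mul, integral_const]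
      simp
    refine (le_of_eq h3).trans ?_
    rw [Finset.sum_range_succ, Finset.sum_range_succ, Real.exp_add]
    exact rec_step (by positivity) (Real.one_le_exp (Finset.sum_nonneg fun j hj =>
      (h j (by have := Finset.mem_range.1 hj; omega)).d0))
      hs.d0 (integral_nonneg fun _ => sq_nonneg _) ih

theorem euler_strong (B : ℝ) : ∃ C : ℝ, 1 ≤ C ∧ ∀ (N : ℕ) (μ δ : ℕ → ℝ) (H : ℕ → ℝ → ℝ),
    1 ≤ N → (∀ k < N, St B (μ k) (δ k) (H k) (H (k + 1))) →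
    ∫ G, (iteratedDeriv 1 (H N) (cX (eF μ δ H) (fun k => √(δ k)) (ext G) N) -
      ∑ k ∈ Finset.range N, √(δ k) *
        iteratedDeriv 2 (H k) (cX (eF μ δ H) (fun k => √(δ k)) (ext G) k) * ext G k) ^ 2 ∂(γN N) ≤
      C * Real.exp (∑ j ∈ Finset.range N, δ j) * ∑ j ∈ Finset.range N, δ j ^ 2 := by
  obtain ⟨C₁, hC₁, hb⟩ := rh_bd B
  obtain ⟨C₂, hC₂, hm⟩ := rh_mean B
  set C := max C₁ C₂ with hCdef
  have hC : 1 ≤ C := hC₁.trans (le_max_left _ _)
  set D := ∫ z, (1 + z ^ 2) ^ 2 ∂(gaussianReal 0 1) with hD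
  have hD0 : 0 ≤ D := integral_nonneg fun _ => sq_nonneg _
  refine ⟨C ^ 2 * (1 + D), by nlinarith, fun N μ δ H hN h => ?_⟩
  have hb' : ∀ (m δ : ℝ) (H H' : ℝ → ℝ), St B m δ H H' → ∀ x z,
      |rh m δ H H' x z| ≤ C * δ * (1 + z ^ 2) := fun m δ H H' hs x z => by
    refine (hb m δ H H' hs x z).trans ?_
    have := hs.d0
    have h1 : C₁ ≤ C := le_max_left _ _
    gcongr
  have hm' : ∀ (m δ : ℝ) (H H' : ℝ → ℝ), St B m δ H H' → ∀ x,
      |∫ z, rh m δ H H' x z ∂(gaussianReal 0 1)| ≤ C * (δ * √δ) := fun m δ H H' hs x => by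
    refine (hm m δ H H' hs x).trans ?_
    have := hs.d0
    have h1 : C₂ ≤ C := le_max_right _ _
    gcongr
  have h1 := eR_sq hC hD hb' hm' h N le_rfl
  refine le_trans (le_of_eq ?_) h1
  refine integral_congr_ae (ae_of_all _ fun G => ?_)
  have h2 : ∀ k, iteratedDeriv 1 (H k) (eS μ δ H (ext G) k) - iteratedDeriv 1 (H 0) 0 -
      ∑ j ∈ Finset.range k, √(δ j) * iteratedDeriv 2 (H j) (eS μ δ H (ext G) j) * ext G j =
      eR μ δ H (ext G) k := by
    intro k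
    induction k with
    | zero => simp [eR, eS, cX]
    | succ k ih =>
      unfold eR at ih ⊢
      rw [Finset.sum_range_succ, Finset.sum_range_succ, ← ih, eS_succ]
      unfold rh
      ring
  have h3 : iteratedDeriv 1 (H 0) 0 = 0 := (cint_odd_zero (h 0 (by omega)).adm).1
  have h4 := h2 N
  rw [h3, sub_zero] at h4
  simp only [← h4]
  simp only [eS]

end Vale.Agent.P367.Cl
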