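import Vale.Agent.P367.Cl.EStep

/-!
# P367, classical half, Euler scheme: independence of the coordinates, integrable functions
-/

open MeasureTheory ProbabilityTheory Filter Topology Set

namespace Vale.Agent.P367.Cl

/-! ### Integration over one coordinate -/

theorem upd_mp {N : ℕ} (k : Fin N) :
    MeasurePreserving (fun p : (Fin N → ℝ) × ℝ => Function.update p.1 k p.2)
      ((γN N).prod (gaussianReal 0 1)) (γN N) := by
  refine ⟨measurable_update', ?_⟩
  refine (Measure.pi_eq fun s hs => ?_).symm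
  have hm : MeasurableSet (univ.pi s) := MeasurableSet.univ_pi hs
  rw [Measure.map_apply measurable_update' hm]
  have h1 : (fun p : (Fin N → ℝ) × ℝ => Function.update p.1 k p.2) ⁻¹' (univ.pi s) =
      (univ.pi (Function.update s k univ)) ×ˢ (s k) := by
    ext p
    simp only [mem_preimage, Set.mem_pi, mem_univ, true_implies, mem_prod]
    constructor
    · intro h
      refine ⟨fun i => ?_, by simpa using h k⟩
      by_cases hi : i = k
      · subst hi; simp
      · simpa [Function.update_of_ne hi] using h i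
    · rintro ⟨h2, h3⟩ i
      by_cases hi : i = k
      · subst hi; simpa using h3
      · simpa [Function.update_of_ne hi] using h2 i
  rw [h1, Measure.prod_prod, Measure.pi_pi, ← Finset.mul_prod_erase _ _ (Finset.mem_univ k),
    ← Finset.mul_prod_erase Finset.univ (fun i => (gaussianReal 0 1) (s i)) (Finset.mem_univ k)]
  have h2 : ∏ i ∈ Finset.univ.erase k, (gaussianReal 0 1) (Function.update s k univ i) =
      ∏ i ∈ Finset.univ.erase k, (gaussianReal 0 1) (s i) := by
    refine Finset.prod_congr rfl fun i hi => ?_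
    rw [Function.update_of_ne (Finset.ne_of_mem_erase hi)]
  rw [h2]
  simp [mul_comm]

theorem int_upd {N : ℕ} (k : Fin N) {F : (Fin N → ℝ) → ℝ} (hF : Integrable F (γN N)) :
    ∫ G, F G ∂(γN N) =
      ∫ G, ∫ z, F (Function.update G k z) ∂(gaussianReal 0 1) ∂(γN N) := by
  have h := upd_mp k
  have h1 : ∫ G, F G ∂(γN N) = ∫ p, F (Function.update p.1 k p.2)
      ∂((γN N).prod (gaussianReal 0 1)) := by
    conv_lhs => rw [← h.map_eq]
    exact integral_map h.measurable.aemeasurable (by rw [h.map_eq]; exact hF.1)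
  have h2 : Integrable (fun p : (Fin N → ℝ) × ℝ => F (Function.update p.1 k p.2))
      ((γN N).prod (gaussianReal 0 1)) := h.integrable_comp_of_integrable hF
  rw [h1, integral_prod _ h2]

theorem int_upd_integrable {N : ℕ} (k : Fin N) {F : (Fin N → ℝ) → ℝ}
    (hF : Integrable F (γN N)) :
    Integrable (fun G => ∫ z, F (Function.update G k z) ∂(gaussianReal 0 1)) (γN N) :=
  ((upd_mp k).integrable_comp_of_integrable hF).integral_prod_left

/-! ### Sequences -/

theorem ext_lt {N : ℕ} (G : Fin N → ℝ) {k : ℕ} (h : k < N) : ext G k = G ⟨k, h⟩ := dif_pos h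

theorem ext_upd_same {N : ℕ} (G : Fin N → ℝ) (k : Fin N) (z : ℝ) :
    ext (Function.update G k z) k = z := by
  rw [ext_lt _ k.2]
  simp

theorem ext_upd_ne {N : ℕ} (G : Fin N → ℝ) (k : Fin N) (z : ℝ) {j : ℕ} (h : j ≠ k) :
    ext (Function.update G k z) j = ext G j := by
  unfold ext
  split_ifs with h1
  · rw [Function.update_of_ne]
    intro h2
    exact h (by rw [← h2])
  · rfl

theorem cX_congr_chn {f : ℕ → ℝ → ℝ} {c : ℕ → ℝ} {G G' : ℕ → ℝ} : ∀ {k : ℕ},
    (∀ j < k, G j = G' j) → cX f c G k = cX f c G' k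
  | 0, _ => rfl
  | k + 1, h => by
    have h1 : cX f c G k = cX f c G' k := cX_congr_chn fun j hj => h j (by omega)
    show cX f c G k + f k (cX f c G k) + c k * G k = cX f c G' k + f k (cX f c G' k) + c k * G' k
    rw [h1, h k (Nat.lt_succ_self k)]

theorem cX_upd {N : ℕ} (f : ℕ → ℝ → ℝ) (c : ℕ → ℝ) (G : Fin N → ℝ) (k : Fin N) (z : ℝ) {j : ℕ}
    (h : j ≤ k) : cX f c (ext (Function.update G k z)) j = cX f c (ext G) j :=
  cX_congr_chn fun i hi => ext_upd_ne G k z (by omega)

theorem measurable_ext {N : ℕ} (k : ℕ) : Measurable (fun G : Fin N → ℝ => ext G k) := by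
  unfold ext
  split_ifs with h
  · exact measurable_pi_apply _
  · exact measurable_const

theorem measurable_cX {N : ℕ} {f : ℕ → ℝ → ℝ} (c : ℕ → ℝ) :
    ∀ k : ℕ, (∀ j < k, Measurable (f j)) → Measurable (fun G : Fin N → ℝ => cX f c (ext G) k)
  | 0, _ => measurable_const
  | k + 1, hf => by
    have h := measurable_cX (N := N) c k fun j hj => hf j (by omega)
    exact (h.add ((hf k (Nat.lt_succ_self k)).comp h)).add ((measurable_ext k).const_mul _)

/-! ### Functions of exponential growth -/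

/-- Measurable functions of exponential growth. -/
def EG (N : ℕ) (F : (Fin N → ℝ) → ℝ) : Prop :=
  Measurable F ∧ ∃ C : ℝ, 0 ≤ C ∧ ∀ G, |F G| ≤ Real.exp (C * (1 + ∑ i, |G i|))

variable {N : ℕ} {F F' : (Fin N → ℝ) → ℝ}

theorem eg_base (G : Fin N → ℝ) : 1 ≤ 1 + ∑ i, |G i| :=
  le_add_of_nonneg_right (Finset.sum_nonneg fun _ _ => abs_nonneg _)

theorem EG.const (c : ℝ) : EG N (fun _ => c) := by
  refine ⟨measurable_const, |c|, abs_nonneg _, fun G => ?_⟩
  have h1 := eg_base G
  have h2 : |c| ≤ |c| * (1 + ∑ i, |G i|) := le_mul_of_one_le_right (abs_nonneg _) h1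
  have h3 := Real.add_one_le_exp (|c| * (1 + ∑ i, |G i|))
  linarith

theorem EG.of_bdd (hF : Measurable F) {C : ℝ} (h : ∀ G, |F G| ≤ C) : EG N F := by
  refine ⟨hF, |C|, abs_nonneg _, fun G => (h G).trans ?_⟩
  have h1 := eg_base G
  have h2 : |C| ≤ |C| * (1 + ∑ i, |G i|) := le_mul_of_one_le_right (abs_nonneg _) h1
  have h3 := Real.add_one_le_exp (|C| * (1 + ∑ i, |G i|))
  have h4 := le_abs_self C
  linarith

theorem EG.mul (h : EG N F) (h' : EG N F') : EG N (fun G => F G * F' G) := by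
  obtain ⟨hm, C, hC, hb⟩ := h
  obtain ⟨hm', C', hC', hb'⟩ := h'
  refine ⟨hm.mul hm', C + C', by positivity, fun G => ?_⟩
  rw [abs_mul, add_mul, Real.exp_add]
  exact mul_le_mul (hb G) (hb' G) (abs_nonneg _) (Real.exp_pos _).le

theorem EG.add (h : EG N F) (h' : EG N F') : EG N (fun G => F G + F' G) := by
  obtain ⟨hm, C, hC, hb⟩ := h
  obtain ⟨hm', C', hC', hb'⟩ := h'
  refine ⟨hm.add hm', C + C' + 1, by positivity, fun G => ?_⟩
  have h1 := eg_base G
  have h2 : |F G + F' G| ≤ Real.exp ((C + C') * (1 + ∑ i, |G i|)) * 2 := by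
    refine (abs_add_le _ _).trans ?_
    have e1 : Real.exp (C * (1 + ∑ i, |G i|)) ≤ Real.exp ((C + C') * (1 + ∑ i, |G i|)) :=
      Real.exp_le_exp.2 (by nlinarith)
    have e2 : Real.exp (C' * (1 + ∑ i, |G i|)) ≤ Real.exp ((C + C') * (1 + ∑ i, |G i|)) :=
      Real.exp_le_exp.2 (by nlinarith)
    linarith [hb G, hb' G]
  refine h2.trans ?_
  rw [show (C + C' + 1) * (1 + ∑ i, |G i|) = (C + C') * (1 + ∑ i, |G i|) + (1 + ∑ i, |G i|) by ring,
    Real.exp_add]
  refine mul_le_mul_of_nonneg_left ?_ (Real.exp_pos _).le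
  have := Real.add_one_le_exp (1 + ∑ i, |G i|)
  linarith

theorem EG.const_mul (h : EG N F) (c : ℝ) : EG N (fun G => c * F G) := (EG.const c).mul h

theorem EG.sub (h : EG N F) (h' : EG N F') : EG N (fun G => F G - F' G) := by
  have := h.add (h'.const_mul (-1))
  simpa [sub_eq_add_neg] using this

theorem EG.pow_two (h : EG N F) : EG N (fun G => F G ^ 2) := by
  simpa [sq] using h.mul h

theorem EG.sum {ι : Type*} (s : Finset ι) {F : ι → (Fin N → ℝ) → ℝ} (h : ∀ i ∈ s, EG N (F i)) :
    EG N (fun G => ∑ i ∈ s, F i G) := by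
  classical
  induction s using Finset.induction_on with
  | empty => simpa using EG.const (N := N) 0
  | insert a s ha ih =>
    have := (h a (Finset.mem_insert_self _ _)).add (ih fun i hi => h i (Finset.mem_insert_of_mem hi))
    simpa [Finset.sum_insert ha] using this

theorem EG.ext (k : ℕ) : EG N (fun G => Cl.ext G k) := by
  refine ⟨measurable_ext k, 1, zero_le_one, fun G => ?_⟩
  rw [one_mul]
  have h3 := Real.add_one_le_exp (1 + ∑ i, |G i|)
  have h4 : |Cl.ext G k| ≤ ∑ i, |G i| := by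
    by_cases h : k < N
    · rw [ext_lt _ h]
      exact Finset.single_le_sum (f := fun i => |G i|) (fun _ _ => abs_nonneg _)
        (Finset.mem_univ (⟨k, h⟩ : Fin N))
    · rw [Cl.ext, dif_neg h, abs_zero]
      exact Finset.sum_nonneg fun _ _ => abs_nonneg _
  linarith

theorem EG.mono (hF : Measurable F) (h' : EG N F') (h : ∀ G, |F G| ≤ |F' G|) : EG N F := by
  obtain ⟨hm', C', hC', hb'⟩ := h'
  exact ⟨hF, C', hC', fun G => (h G).trans (hb' G)⟩

/-- `exp (C (1 + |G k|))` -/
theorem EG.exp_ext (C : ℝ) (k : ℕ) : EG N (fun G => Real.exp (C * (1 + |Cl.ext G k|))) := by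
  refine ⟨by have := measurable_ext (N := N) k; fun_prop, |C|, abs_nonneg _, fun G => ?_⟩
  rw [abs_of_pos (Real.exp_pos _)]
  refine Real.exp_le_exp.2 ?_
  have h4 : |Cl.ext G k| ≤ ∑ i, |G i| := by
    by_cases h : k < N
    · rw [ext_lt _ h]
      exact Finset.single_le_sum (f := fun i => |G i|) (fun _ _ => abs_nonneg _)
        (Finset.mem_univ (⟨k, h⟩ : Fin N))
    · rw [Cl.ext, dif_neg h, abs_zero]
      exact Finset.sum_nonneg fun _ _ => abs_nonneg _
  have h5 : C * (1 + |Cl.ext G k|) ≤ |C| * (1 + |Cl.ext G k|) :=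
    mul_le_mul_of_nonneg_right (le_abs_self C) (by positivity)
  have h6 : |C| * (1 + |Cl.ext G k|) ≤ |C| * (1 + ∑ i, |G i|) :=
    mul_le_mul_of_nonneg_left (by linarith) (abs_nonneg _)
  linarith

theorem int_exp_abs (C : ℝ) : Integrable (fun z : ℝ => Real.exp (C * |z|)) (gaussianReal 0 1) :=
  Vale.Agent.P146.Gap.heat_int_exp C

theorem EG.integrable (h : EG N F) : Integrable F (γN N) := by
  obtain ⟨hm, C, hC, hb⟩ := h
  have h1 : Integrable (fun G : Fin N → ℝ => ∏ i, Real.exp (C * |G i|)) (γN N) :=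
    Integrable.fintype_prod (μ := fun _ : Fin N => gaussianReal 0 1)
      (f := fun _ z => Real.exp (C * |z|)) fun _ => int_exp_abs C
  refine (h1.const_mul (Real.exp C)).mono' hm.aestronglyMeasurable (ae_of_all _ fun G => ?_)
  rw [Real.norm_eq_abs]
  refine (hb G).trans (le_of_eq ?_)
  rw [← Real.exp_sum, ← Real.exp_add, mul_add, mul_one, Finset.mul_sum]

instance (N : ℕ) : IsProbabilityMeasure (γN N) := by
  unfold γN
  infer_instance

/-- Cauchy-Schwarz for a probability measure. -/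
theorem abs_int_le_sqrt (h : EG N F) : ∫ G, |F G| ∂(γN N) ≤ √(∫ G, F G ^ 2 ∂(γN N)) := by
  have ha : EG N (fun G => |F G|) := EG.mono h.1.abs h fun G => by rw [abs_abs]
  set a := ∫ G, |F G| ∂(γN N) with hadef
  have h0 : 0 ≤ a := integral_nonneg fun _ => abs_nonneg _
  refine Real.le_sqrt_of_sq_le ?_
  have h1 : 0 ≤ ∫ G, (|F G| - a) ^ 2 ∂(γN N) := integral_nonneg fun _ => sq_nonneg _
  have h2 : ∫ G, (|F G| - a) ^ 2 ∂(γN N) = (∫ G, F G ^ 2 ∂(γN N)) - a ^ 2 := by
    have e : ∀ G, (|F G| - a) ^ 2 = F G ^ 2 - (2 * a) * |F G| + a ^ 2 := fun G => by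
      rw [← sq_abs (F G)]; ring
    simp only [e]
    have i1 : Integrable (fun G => F G ^ 2) (γN N) := h.pow_two.integrable
    have i2 : Integrable (fun G => (2 * a) * |F G|) (γN N) := ha.integrable.const_mul _
    have i3 : Integrable (fun G => F G ^ 2 - (2 * a) * |F G|) (γN N) := i1.sub i2
    rw [integral_add i3 (integrable_const _), integral_sub i1 i2, integral_const_mul,
      integral_const, ← hadef]
    simp
    ring
  linarith

end Vale.Agent.P367.Cl
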