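import Vale.Agent.P367.Cl.EDefs

/-!
# P367, classical half: the value of the clipped magnetisation

The increments `v k` are orthogonal, the Gaussians `G k` are orthonormal, and the energy of the
clipped magnetisation is `∑ E[m v_k / s_k] E[m G_(k+1)]`.
-/

open MeasureTheory ProbabilityTheory Filter Topology Set

namespace Vale.Agent.P367.Cl

open Vale.Agent.P146.Gap (SmB)

/-- clipping to `[-1, 1]` -/
noncomputable def clip (x : ℝ) : ℝ := max (-1) (min 1 x)

lemma clip_le (x : ℝ) : |clip x| ≤ 1 := by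
  unfold clip
  rw [abs_le]
  exact ⟨le_max_left _ _, max_le (by norm_num) (min_le_left _ _)⟩

lemma clip_sub (x : ℝ) : (clip x - x) ^ 2 = (max (|x| - 1) 0) ^ 2 := by
  unfold clip
  rcases le_total x (-1) with h | h
  · rw [min_eq_right (by linarith), max_eq_left (by linarith), abs_of_nonpos (by linarith),
      max_eq_left (by linarith)]
    ring
  · rcases le_total x 1 with h1 | h1
    · rw [min_eq_right h1, max_eq_right h, sub_self]
      rw [max_eq_right (by linarith [abs_le.2 ⟨h, h1⟩])]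
    · rw [min_eq_left h1, max_eq_right (by norm_num), abs_of_nonneg (by linarith),
        max_eq_left (by linarith)]
      ring

lemma clip_cont : Continuous clip := by
  unfold clip
  fun_prop

/-! ### Independence of a coordinate -/

/-- the function does not depend on the coordinate `k` -/
def Ind {N : ℕ} (k : Fin N) (F : (Fin N → ℝ) → ℝ) : Prop :=
  ∀ G x, F (Function.update G k x) = F G

lemma Ind.mul {N : ℕ} {k : Fin N} {F F' : (Fin N → ℝ) → ℝ} (h : Ind k F) (h' : Ind k F') :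
    Ind k (fun G => F G * F' G) := fun G x => by
  change F _ * F' _ = _
  rw [h, h']

lemma pi_split {N : ℕ} (k : Fin N) {F : (Fin N → ℝ) → ℝ} (hF : Ind k F) (φ : ℝ → ℝ) :
    ∫ G, F G * φ (G k) ∂(γN N) = (∫ G, F G ∂(γN N)) * ∫ x, φ x ∂(gaussianReal 0 1) := by
  obtain ⟨n, rfl⟩ : ∃ n, N = n + 1 := ⟨N - 1, by have := k.2; omega⟩
  have hmp := measurePreserving_piFinSuccAbove (α := fun _ : Fin (n + 1) => ℝ)
    (fun _ => gaussianReal 0 1) k
  set e := MeasurableEquiv.piFinSuccAbove (fun _ : Fin (n + 1) => ℝ) k with he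
  have hFG : ∀ G, F G = F (k.insertNth 0 (e G).2) := by
    intro G
    rw [← hF (k.insertNth 0 (e G).2) (G k)]
    congr 1
    funext j
    rcases eq_or_ne j k with rfl | hj
    · rw [Function.update_self]
    · rw [Function.update_of_ne hj]
      obtain ⟨i, rfl⟩ := Fin.exists_succAbove_eq hj
      rw [Fin.insertNth_apply_succAbove]
      rfl
  have h1 : ∫ G, F G * φ (G k) ∂(γN (n + 1)) =
      ∫ z, φ z.1 * F (k.insertNth 0 z.2) ∂((gaussianReal 0 1).prod (γN n)) := by
    rw [← hmp.integral_comp' (f := e)]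
    refine integral_congr_ae (Filter.Eventually.of_forall fun G => ?_)
    change F G * φ (G k) = φ (e G).1 * F (k.insertNth 0 (e G).2)
    rw [hFG G, mul_comm]
    rfl
  have h2 : ∫ G, F G ∂(γN (n + 1)) =
      ∫ z, (fun _ : ℝ => (1 : ℝ)) z.1 * F (k.insertNth 0 z.2) ∂((gaussianReal 0 1).prod (γN n)) := by
    rw [← hmp.integral_comp' (f := e)]
    refine integral_congr_ae (Filter.Eventually.of_forall fun G => ?_)
    change F G = 1 * F (k.insertNth 0 (e G).2)
    rw [hFG G, one_mul]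
  rw [h1, h2, integral_prod_mul φ (fun y => F (k.insertNth 0 y)),
    integral_prod_mul (fun _ : ℝ => (1 : ℝ)) (fun y => F (k.insertNth 0 y))]
  simp only [integral_const, probReal_univ, smul_eq_mul, one_mul]
  ring

lemma eX_congr (f : ℕ → ℝ → ℝ) (c : ℕ → ℝ) {G G' : ℕ → ℝ} {k : ℕ} (h : ∀ j < k, G j = G' j) :
    cX f c G k = cX f c G' k := by
  induction k with
  | zero => rfl
  | succ k ih =>
    rw [cX, cX, ih fun j hj => h j (by omega), h k (by omega)]

lemma ext_update {N : ℕ} (G : Fin N → ℝ) (k : Fin N) (x : ℝ) {j : ℕ} (hj : j ≠ k) :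
    ext (Function.update G k x) j = ext G j := by
  unfold ext
  split_ifs with h
  · rw [Function.update_of_ne]
    intro e
    exact hj (by rw [← e])
  · rfl

lemma ext_fin {N : ℕ} (G : Fin N → ℝ) (k : Fin N) : ext G (k : ℕ) = G k := by
  unfold ext
  rw [dif_pos k.2]

variable {N : ℕ} {f : ℕ → ℝ → ℝ} {c : ℕ → ℝ} {g : ℕ → ℝ → ℝ}

lemma ind_gX (k : Fin N) {j : ℕ} (hj : j ≤ k) (φ : ℝ → ℝ) :
    Ind k (fun G => φ (cX f c (ext G) j)) := by
  intro G x
  change φ _ = φ _
  rw [eX_congr f c fun i hi => ext_update G k x (by omega)]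

lemma ind_v (k : Fin N) {j : ℕ} (hj : j < k) : Ind k (fun G => cv f c g (ext G) j) := by
  intro G x
  change g j _ * _ = g j _ * _
  rw [eX_congr f c fun i hi => ext_update G k x (by omega), ext_update G k x (by omega)]

lemma ind_ext (k : Fin N) {j : ℕ} (hj : j ≠ k) : Ind k (fun G => ext G j) := fun G x =>
  ext_update G k x hj

lemma int_id : ∫ x, x ∂(gaussianReal 0 1) = 0 := integral_id_gaussianReal

lemma int_sq : ∫ x : ℝ, x ^ 2 ∂(gaussianReal 0 1) = 1 := by
  have h := variance_id_gaussianReal (μ := 0) (v := 1)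
  rw [variance_eq_integral (by fun_prop)] at h
  simpa [integral_id_gaussianReal] using h

/-- the increments are orthogonal -/
lemma int_vv_lt {j k : ℕ} (hk : k < N) (hj : j < k) :
    ∫ G, cv f c g (ext G) j * cv f c g (ext G) k ∂(γN N) = 0 := by
  have h := pi_split (⟨k, hk⟩ : Fin N) ((ind_v (f := f) (c := c) (g := g) ⟨k, hk⟩ hj).mul
    (ind_gX (f := f) (c := c) ⟨k, hk⟩ le_rfl (g k))) id
  rw [show (∫ x, id x ∂(gaussianReal 0 1)) = 0 from int_id, mul_zero] at h
  rw [← h]
  refine integral_congr_ae (Filter.Eventually.of_forall fun G => ?_)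
  change cv f c g (ext G) j * (g k _ * ext G k) = _
  rw [show ext G k = G ⟨k, hk⟩ from ext_fin G ⟨k, hk⟩]
  simp only [id]
  ring

lemma int_vv_self {k : ℕ} (hk : k < N) :
    ∫ G, cv f c g (ext G) k * cv f c g (ext G) k ∂(γN N) =
      ∫ G, g k (cX f c (ext G) k) ^ 2 ∂(γN N) := by
  have h := pi_split (⟨k, hk⟩ : Fin N) (ind_gX (f := f) (c := c) ⟨k, hk⟩ le_rfl
    (fun x => g k x ^ 2)) (fun x => x ^ 2)
  rw [int_sq, mul_one] at h
  rw [← h]
  refine integral_congr_ae (Filter.Eventually.of_forall fun G => ?_)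
  change (g k _ * ext G k) * (g k _ * ext G k) = _
  rw [show ext G k = G ⟨k, hk⟩ from ext_fin G ⟨k, hk⟩]
  ring

lemma int_GG_lt {j k : ℕ} (hk : k < N) (hj : j < k) :
    ∫ G, ext G j * ext G k ∂(γN N) = 0 := by
  have h := pi_split (⟨k, hk⟩ : Fin N) (ind_ext ⟨k, hk⟩ (show j ≠ k by omega)) id
  rw [show (∫ x, id x ∂(gaussianReal 0 1)) = 0 from int_id, mul_zero] at h
  rw [← h]
  refine integral_congr_ae (Filter.Eventually.of_forall fun G => ?_)
  change ext G j * ext G k = _
  rw [show ext G k = G ⟨k, hk⟩ from ext_fin G ⟨k, hk⟩]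
  rfl

lemma int_GG_self {k : ℕ} (hk : k < N) : ∫ G, ext G k * ext G k ∂(γN N) = 1 := by
  have h := pi_split (⟨k, hk⟩ : Fin N) (F := fun _ => 1) (fun _ _ => rfl) (fun x => x ^ 2)
  rw [int_sq, mul_one] at h
  simp only [integral_const, probReal_univ, smul_eq_mul, one_mul] at h
  rw [← h]
  refine integral_congr_ae (Filter.Eventually.of_forall fun G => ?_)
  change ext G k * ext G k = _
  rw [show ext G k = G ⟨k, hk⟩ from ext_fin G ⟨k, hk⟩]
  ring

/-- `E[v_j G_k]` -/
lemma int_vG_ne {j k : ℕ} (hj : j < N) (hk : k < N) (hjk : j ≠ k) :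
    ∫ G, cv f c g (ext G) j * ext G k ∂(γN N) = 0 := by
  rcases lt_or_gt_of_ne hjk with h1 | h1
  · have h := pi_split (⟨k, hk⟩ : Fin N) (ind_v (f := f) (c := c) (g := g) ⟨k, hk⟩ h1) id
    rw [show (∫ x, id x ∂(gaussianReal 0 1)) = 0 from int_id, mul_zero] at h
    rw [← h]
    refine integral_congr_ae (Filter.Eventually.of_forall fun G => ?_)
    change cv f c g (ext G) j * ext G k = _
    rw [show ext G k = G ⟨k, hk⟩ from ext_fin G ⟨k, hk⟩]
    rfl
  · have h := pi_split (⟨j, hj⟩ : Fin N) ((ind_gX (f := f) (c := c) ⟨j, hj⟩ le_rfl (g j)).mul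
      (ind_ext ⟨j, hj⟩ (show k ≠ j by omega))) id
    rw [show (∫ x, id x ∂(gaussianReal 0 1)) = 0 from int_id, mul_zero] at h
    rw [← h]
    refine integral_congr_ae (Filter.Eventually.of_forall fun G => ?_)
    change g j _ * ext G j * ext G k = _
    rw [show ext G j = G ⟨j, hj⟩ from ext_fin G ⟨j, hj⟩]
    simp only [id]
    ring

lemma int_vG_self {k : ℕ} (hk : k < N) :
    ∫ G, cv f c g (ext G) k * ext G k ∂(γN N) = ca N f c g k := by
  have h := pi_split (⟨k, hk⟩ : Fin N) (ind_gX (f := f) (c := c) ⟨k, hk⟩ le_rfl (g k))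
    (fun x => x ^ 2)
  rw [int_sq, mul_one] at h
  unfold ca
  rw [← h]
  refine integral_congr_ae (Filter.Eventually.of_forall fun G => ?_)
  change (g k _ * ext G k) * ext G k = _
  rw [show ext G k = G ⟨k, hk⟩ from ext_fin G ⟨k, hk⟩]
  ring

/-! ### Square integrability -/

lemma ext_meas (k : ℕ) : Measurable (fun G : Fin N → ℝ => ext G k) := by
  unfold ext
  split_ifs with h
  · exact measurable_pi_apply _
  · exact measurable_const

lemma cX_meas (hf : ∀ k, Continuous (f k)) (k : ℕ) :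
    Measurable (fun G : Fin N → ℝ => cX f c (ext G) k) := by
  induction k with
  | zero => exact measurable_const
  | succ k ih =>
    change Measurable (fun G : Fin N → ℝ => cX f c (ext G) k + f k (cX f c (ext G) k) +
      c k * ext G k)
    exact (ih.add ((hf k).measurable.comp ih)).add ((ext_meas k).const_mul _)

lemma ext_memLp (k : ℕ) : MemLp (fun G : Fin N → ℝ => ext G k) 2 (γN N) := by
  unfold ext
  split_ifs with h
  · have h1 : MemLp (id : ℝ → ℝ) 2 (gaussianReal 0 1) := memLp_id_gaussianReal 2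
    exact h1.comp_measurePreserving
      (measurePreserving_eval (μ := fun _ : Fin N => gaussianReal 0 1) ⟨k, h⟩)
  · exact memLp_const 0

lemma cv_memLp (h : Ctl N f c g) (k : ℕ) :
    MemLp (fun G : Fin N → ℝ => cv f c g (ext G) k) 2 (γN N) := by
  obtain ⟨C, hC⟩ := h.gb k
  have hm : Measurable (fun G : Fin N → ℝ => cv f c g (ext G) k) :=
    (((h.gs k).smooth.continuous.measurable.comp
      (cX_meas (fun j => (h.fs j).smooth.continuous) k))).mul (ext_meas k)
  refine MemLp.of_le_mul (c := C) (ext_memLp (N := N) k) hm.aestronglyMeasurable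
    (Filter.Eventually.of_forall fun G => ?_)
  change ‖g k _ * ext G k‖ ≤ _
  rw [norm_mul, Real.norm_eq_abs]
  exact mul_le_mul_of_nonneg_right (hC _) (norm_nonneg _)

lemma cM_memLp (h : Ctl N f c g) (k : ℕ) :
    MemLp (fun G : Fin N → ℝ => cM f c g (ext G) k) 2 (γN N) :=
  memLp_finsetSum _ fun j _ => cv_memLp h j

lemma clip_memLp (h : Ctl N f c g) (k : ℕ) :
    MemLp (fun G : Fin N → ℝ => clip (cM f c g (ext G) k)) 2 (γN N) := by
  refine MemLp.of_bound (C := 1) ?_ (Filter.Eventually.of_forall fun G => clip_le _)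
  exact clip_cont.comp_aestronglyMeasurable (cM_memLp h k).1

lemma cs_pos (h : Ctl N f c g) (k : ℕ) : 0 < cs N f c g k := by
  obtain ⟨C, hC⟩ := h.gb k
  have hm : Measurable (fun G : Fin N → ℝ => g k (cX f c (ext G) k)) :=
    (h.gs k).smooth.continuous.measurable.comp (cX_meas (fun j => (h.fs j).smooth.continuous) k)
  have hb : MemLp (fun G : Fin N → ℝ => g k (cX f c (ext G) k)) 2 (γN N) :=
    MemLp.of_bound hm.aestronglyMeasurable C (Filter.Eventually.of_forall fun G => hC _)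
  unfold cs
  refine Real.sqrt_pos.2 ?_
  rw [integral_pos_iff_support_of_nonneg (fun G => sq_nonneg _) hb.integrable_sq]
  have hs : Function.support (fun G : Fin N → ℝ => g k (cX f c (ext G) k) ^ 2) = univ := by
    ext G
    simp only [Function.mem_support, mem_univ, iff_true]
    exact pow_ne_zero _ (h.gp k _).ne'
  rw [hs, measure_univ]
  exact one_pos

/-! ### Orthonormal families and the quadratic form -/

section hilb

variable {E ι : Type*} [NormedAddCommGroup E] [InnerProductSpace ℝ E]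

lemma bilin_le {a b : ι → E} (ha : Orthonormal ℝ a) (hb : Orthonormal ℝ b) (s : Finset ι)
    (u v : E) : |∑ k ∈ s, inner ℝ (a k) u * inner ℝ (b k) v| ≤ ‖u‖ * ‖v‖ := by
  have h1 := ha.sum_inner_products_le u (s := s)
  have h2 := hb.sum_inner_products_le v (s := s)
  simp only [Real.norm_eq_abs, sq_abs] at h1 h2
  have h3 := Finset.sum_mul_sq_le_sq_mul_sq s (fun k => (inner ℝ (a k) u : ℝ))
    (fun k => (inner ℝ (b k) v : ℝ))
  refine abs_le_of_sq_le_sq ?_ (by positivity)
  rw [mul_pow]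
  exact h3.trans (mul_le_mul h1 h2 (Finset.sum_nonneg fun _ _ => sq_nonneg _) (sq_nonneg _))

lemma quad_diff {a b : ι → E} (ha : Orthonormal ℝ a) (hb : Orthonormal ℝ b) (s : Finset ι)
    (u v : E) : |∑ k ∈ s, inner ℝ (a k) u * inner ℝ (b k) u -
      ∑ k ∈ s, inner ℝ (a k) v * inner ℝ (b k) v| ≤ ‖u - v‖ * (‖u‖ + ‖v‖) := by
  have h1 := bilin_le ha hb s (u - v) u
  have h2 := bilin_le ha hb s v (u - v)
  have e : ∑ k ∈ s, inner ℝ (a k) u * inner ℝ (b k) u -
      ∑ k ∈ s, inner ℝ (a k) v * inner ℝ (b k) v =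
      ∑ k ∈ s, inner ℝ (a k) (u - v) * inner ℝ (b k) u +
      ∑ k ∈ s, inner ℝ (a k) v * inner ℝ (b k) (u - v) := by
    rw [← Finset.sum_sub_distrib, ← Finset.sum_add_distrib]
    refine Finset.sum_congr rfl fun k _ => ?_
    rw [inner_sub_right, inner_sub_right]
    ring
  rw [e]
  refine (abs_add_le _ _).trans ?_
  linarith

end hilb

lemma inner_toLp {u v : (Fin N → ℝ) → ℝ} (hu : MemLp u 2 (γN N)) (hv : MemLp v 2 (γN N)) :
    (inner ℝ (hu.toLp u) (hv.toLp v) : ℝ) = ∫ G, u G * v G ∂(γN N) := by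
  rw [MeasureTheory.L2.inner_def]
  refine integral_congr_ae ?_
  filter_upwards [hu.coeFn_toLp, hv.coeFn_toLp] with G h1 h2
  rw [h1, h2]
  simp [mul_comm]

/-- the normalised increments -/
noncomputable def psi (N : ℕ) (f : ℕ → ℝ → ℝ) (c : ℕ → ℝ) (g : ℕ → ℝ → ℝ) (G : ℕ → ℝ)
    (k : ℕ) : ℝ := cv f c g G k / cs N f c g k

lemma psi_memLp (h : Ctl N f c g) (k : ℕ) :
    MemLp (fun G : Fin N → ℝ => psi N f c g (ext G) k) 2 (γN N) := by
  have := (cv_memLp h k).const_mul (cs N f c g k)⁻¹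
  refine this.congr_norm ?_ ?_
  · have h1 := this.1
    refine h1.congr (Filter.Eventually.of_forall fun G => ?_)
    change (cs N f c g k)⁻¹ * cv f c g (ext G) k = cv f c g (ext G) k / cs N f c g k
    rw [div_eq_inv_mul]
  · refine Filter.Eventually.of_forall fun G => ?_
    change ‖(cs N f c g k)⁻¹ * cv f c g (ext G) k‖ = ‖cv f c g (ext G) k / cs N f c g k‖
    rw [div_eq_inv_mul]

lemma int_psi_psi (h : Ctl N f c g) {j k : ℕ} (hj : j < N) (hk : k < N) :
    ∫ G, psi N f c g (ext G) j * psi N f c g (ext G) k ∂(γN N) = if j = k then 1 else 0 := by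
  have e : ∀ G : Fin N → ℝ, psi N f c g (ext G) j * psi N f c g (ext G) k =
      (cs N f c g j * cs N f c g k)⁻¹ * (cv f c g (ext G) j * cv f c g (ext G) k) := by
    intro G
    unfold psi
    rw [mul_inv]
    ring
  simp only [e]
  rw [integral_const_mul]
  split_ifs with hjk
  · subst hjk
    rw [int_vv_self hj]
    have h1 := cs_pos h j
    have h2 : cs N f c g j * cs N f c g j = ∫ G, g j (cX f c (ext G) j) ^ 2 ∂(γN N) := by
      unfold cs
      exact Real.mul_self_sqrt (integral_nonneg fun G => sq_nonneg _)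
    rw [← h2]
    exact inv_mul_cancel₀ (by positivity)
  · rcases lt_or_gt_of_ne hjk with h1 | h1
    · rw [int_vv_lt hk h1, mul_zero]
    · have h2 := int_vv_lt (f := f) (c := c) (g := g) hj h1
      have h3 : ∀ G : Fin N → ℝ, cv f c g (ext G) j * cv f c g (ext G) k =
          cv f c g (ext G) k * cv f c g (ext G) j := fun G => mul_comm _ _
      simp only [h3]
      rw [h2, mul_zero]

lemma int_GG {j k : ℕ} (hj : j < N) (hk : k < N) :
    ∫ G, ext G j * ext G k ∂(γN N) = if j = k then 1 else 0 := by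
  split_ifs with hjk
  · subst hjk
    exact int_GG_self hj
  · rcases lt_or_gt_of_ne hjk with h1 | h1
    · exact int_GG_lt hk h1
    · have h3 : ∀ G : Fin N → ℝ, ext G j * ext G k = ext G k * ext G j := fun G => mul_comm _ _
      simp only [h3]
      exact int_GG_lt hj h1

lemma int_psi_M (h : Ctl N f c g) {k : ℕ} (hk : k < N) :
    ∫ G, psi N f c g (ext G) k * cM f c g (ext G) N ∂(γN N) = cs N f c g k := by
  have hi : ∀ j ∈ Finset.range N, Integrable
      (fun G : Fin N → ℝ => psi N f c g (ext G) k * cv f c g (ext G) j) (γN N) := fun j _ =>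
    (psi_memLp h k).integrable_mul (cv_memLp h j)
  have e : ∀ G : Fin N → ℝ, psi N f c g (ext G) k * cM f c g (ext G) N =
      ∑ j ∈ Finset.range N, psi N f c g (ext G) k * cv f c g (ext G) j := fun G => by
    unfold cM
    rw [Finset.mul_sum]
  simp only [e]
  rw [integral_finsetSum _ hi, Finset.sum_eq_single_of_mem k (Finset.mem_range.2 hk)]
  · have e2 : ∀ G : Fin N → ℝ, psi N f c g (ext G) k * cv f c g (ext G) k =
        (cs N f c g k)⁻¹ * (cv f c g (ext G) k * cv f c g (ext G) k) := fun G => by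
      unfold psi; rw [div_eq_inv_mul]; ring
    simp only [e2]
    rw [integral_const_mul, int_vv_self hk]
    have h1 := cs_pos h k
    have h2 : cs N f c g k * cs N f c g k = ∫ G, g k (cX f c (ext G) k) ^ 2 ∂(γN N) := by
      unfold cs
      exact Real.mul_self_sqrt (integral_nonneg fun G => sq_nonneg _)
    rw [← h2, ← mul_assoc, inv_mul_cancel₀ h1.ne', one_mul]
  · intro j hj hjk
    have e2 : ∀ G : Fin N → ℝ, psi N f c g (ext G) k * cv f c g (ext G) j =
        (cs N f c g k)⁻¹ * (cv f c g (ext G) k * cv f c g (ext G) j) := fun G => by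
      unfold psi; rw [div_eq_inv_mul]; ring
    simp only [e2]
    rw [integral_const_mul]
    rcases lt_or_gt_of_ne hjk with h1 | h1
    · have h3 : ∀ G : Fin N → ℝ, cv f c g (ext G) k * cv f c g (ext G) j =
          cv f c g (ext G) j * cv f c g (ext G) k := fun G => mul_comm _ _
      simp only [h3]
      rw [int_vv_lt hk h1, mul_zero]
    · rw [int_vv_lt (Finset.mem_range.1 hj) h1, mul_zero]

lemma int_G_M (h : Ctl N f c g) {k : ℕ} (hk : k < N) :
    ∫ G, ext G k * cM f c g (ext G) N ∂(γN N) = ca N f c g k := by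
  have hi : ∀ j ∈ Finset.range N, Integrable
      (fun G : Fin N → ℝ => ext G k * cv f c g (ext G) j) (γN N) := fun j _ =>
    (ext_memLp k).integrable_mul (cv_memLp h j)
  have e : ∀ G : Fin N → ℝ, ext G k * cM f c g (ext G) N =
      ∑ j ∈ Finset.range N, ext G k * cv f c g (ext G) j := fun G => by
    unfold cM
    rw [Finset.mul_sum]
  simp only [e]
  rw [integral_finsetSum _ hi, Finset.sum_eq_single_of_mem k (Finset.mem_range.2 hk)]
  · have e2 : ∀ G : Fin N → ℝ, ext G k * cv f c g (ext G) k =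
        cv f c g (ext G) k * ext G k := fun G => mul_comm _ _
    simp only [e2]
    exact int_vG_self hk
  · intro j hj hjk
    have e2 : ∀ G : Fin N → ℝ, ext G k * cv f c g (ext G) j =
        cv f c g (ext G) j * ext G k := fun G => mul_comm _ _
    simp only [e2]
    exact int_vG_ne (Finset.mem_range.1 hj) hk hjk

/-- **Theorem C for the clipped magnetisation.** -/
theorem clip_value (hC : ThmC) {P : ℝ} (hP : Tendsto Gap.groundValue atTop (𝓝 P)) {ε : ℝ}
    (hε : 0 < ε) : ∃ (n : ℕ) (f : ℕ → ℝ → ℝ) (c : ℕ → ℝ) (g : ℕ → ℝ → ℝ), 1 ≤ n ∧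
      Ctl (n + 1) f c g ∧ P - ε ≤ ∑ k ∈ Finset.range n,
        (∫ G, psi (n + 1) f c g (ext G) k * clip (cM f c g (ext G) (n + 1)) ∂(γN (n + 1))) *
        (∫ G, ext G (k + 1) * clip (cM f c g (ext G) (n + 1)) ∂(γN (n + 1))) := by
  obtain ⟨δ, hδ⟩ : ∃ δ, δ = min 1 (ε / 4) := ⟨_, rfl⟩
  have hδ0 : 0 < δ := by rw [hδ]; exact lt_min one_pos (by positivity)
  have hδ1 : δ ≤ 1 := by rw [hδ]; exact min_le_left _ _
  have hδ2 : δ ≤ ε / 4 := by rw [hδ]; exact min_le_right _ _
  obtain ⟨N, f, c, g, hN, h, h2, h3⟩ := hC P hP (δ ^ 2) (by positivity)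
  obtain ⟨n, rfl⟩ : ∃ n, N = n + 1 := ⟨N - 1, by omega⟩
  refine ⟨n, f, c, g, by omega, h, ?_⟩
  rw [Nat.add_sub_cancel] at h3
  -- the vectors
  obtain ⟨u, hu⟩ : ∃ u, u = (clip_memLp (N := n + 1) h (n + 1)).toLp _ := ⟨_, rfl⟩
  obtain ⟨v, hv⟩ : ∃ v, v = (cM_memLp (N := n + 1) h (n + 1)).toLp _ := ⟨_, rfl⟩
  obtain ⟨a, ha⟩ : ∃ a : Fin n → Lp ℝ 2 (γN (n + 1)), a = fun k : Fin n =>
    (psi_memLp (N := n + 1) h k).toLp _ := ⟨_, rfl⟩
  obtain ⟨b, hb⟩ : ∃ b : Fin n → Lp ℝ 2 (γN (n + 1)), b = fun k : Fin n =>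
    (ext_memLp (N := n + 1) (k + 1)).toLp _ := ⟨_, rfl⟩
  have hao : Orthonormal ℝ a := by
    rw [orthonormal_iff_ite]
    intro i j
    rw [ha, inner_toLp, int_psi_psi h (by omega) (by omega)]
    simp only [Fin.ext_iff]
  have hbo : Orthonormal ℝ b := by
    rw [orthonormal_iff_ite]
    intro i j
    rw [hb, inner_toLp, int_GG (by omega) (by omega)]
    simp only [Fin.ext_iff, Nat.add_right_cancel_iff]
  have hq := quad_diff hao hbo Finset.univ u v
  have hun : ‖u‖ ≤ 1 := by
    have h1 : ‖u‖ ^ 2 ≤ 1 := by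
      rw [← real_inner_self_eq_norm_sq, hu, inner_toLp]
      calc _ ≤ ∫ _ : Fin (n + 1) → ℝ, (1 : ℝ) ∂(γN (n + 1)) := by
            refine integral_mono ((clip_memLp h _).integrable_mul (clip_memLp h _))
              (integrable_const _) fun G => ?_
            change clip _ * clip _ ≤ 1
            have := clip_le (cM f c g (ext G) (n + 1))
            rw [← abs_mul_abs_self]
            nlinarith [abs_nonneg (clip (cM f c g (ext G) (n + 1)))]
        _ = 1 := by simp
    nlinarith [norm_nonneg u]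
  have huv : ‖u - v‖ ≤ δ := by
    have h1 : ‖u - v‖ ^ 2 ≤ δ ^ 2 := by
      rw [← real_inner_self_eq_norm_sq, hu, hv, ← MemLp.toLp_sub, inner_toLp]
      refine le_trans (le_of_eq ?_) h2
      refine integral_congr_ae (Filter.Eventually.of_forall fun G => ?_)
      change (clip (cM f c g (ext G) (n + 1)) - cM f c g (ext G) (n + 1)) *
        (clip (cM f c g (ext G) (n + 1)) - cM f c g (ext G) (n + 1)) = _
      rw [← pow_two, clip_sub]
    exact abs_le_of_sq_le_sq h1 hδ0.le |>.trans' (le_abs_self _)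
  have hvn : ‖v‖ ≤ 1 + δ := by
    have h1 : ‖v‖ ≤ ‖u‖ + ‖u - v‖ := by
      have := norm_sub_le u (u - v)
      rwa [sub_sub_cancel] at this
    linarith
  have hqv : ∑ k, inner ℝ (a k) v * inner ℝ (b k) v =
      ∑ k ∈ Finset.range n, cs (n + 1) f c g k * ca (n + 1) f c g (k + 1) := by
    rw [← Fin.sum_univ_eq_sum_range fun k => cs (n + 1) f c g k * ca (n + 1) f c g (k + 1)]
    refine Finset.sum_congr rfl fun k _ => ?_
    rw [ha, hb, hv, inner_toLp, inner_toLp, int_psi_M h (by omega), int_G_M h (by omega)]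
  have hqu : ∑ k, inner ℝ (a k) u * inner ℝ (b k) u = ∑ k ∈ Finset.range n,
        (∫ G, psi (n + 1) f c g (ext G) k * clip (cM f c g (ext G) (n + 1)) ∂(γN (n + 1))) *
        (∫ G, ext G (k + 1) * clip (cM f c g (ext G) (n + 1)) ∂(γN (n + 1))) := by
    rw [← Fin.sum_univ_eq_sum_range fun k =>
        (∫ G, psi (n + 1) f c g (ext G) k * clip (cM f c g (ext G) (n + 1)) ∂(γN (n + 1))) *
        (∫ G, ext G (k + 1) * clip (cM f c g (ext G) (n + 1)) ∂(γN (n + 1)))]
    refine Finset.sum_congr rfl fun k _ => ?_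
    rw [ha, hb, hu, inner_toLp, inner_toLp]
  rw [← hqu]
  rw [hqv] at hq
  have h5 : ‖u - v‖ * (‖u‖ + ‖v‖) ≤ δ * (2 + δ) :=
    mul_le_mul huv (by linarith) (by positivity) hδ0.le
  have h6 := (abs_le.1 hq).1
  nlinarith

end Vale.Agent.P367.Cl
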