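import Mathlib
import Vale.Agent.P146.Gap.Defs
import Vale.Agent.P367.Gap.Defs

/-!
# P367, classical half: the control form of Theorem C

`G 0, G 1, …` i.i.d. standard Gaussians (`G 0` = the labels, `G (k+1)` = the field of the increment
`v k`, normalised). State `X`, increments `v k = g k (X k) * G k`, magnetisation `M = ∑ v k`,
energy `∑ ‖v k‖₂ · E g (k+1) (X (k+1))`.
-/

open MeasureTheory ProbabilityTheory Filter Topology Set

namespace Vale.Agent.P367.Cl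

open Vale.Agent.P146.Gap (SmB)

/-- The law of `N` independent standard Gaussians. -/
noncomputable abbrev γN (N : ℕ) : Measure (Fin N → ℝ) := Measure.pi fun _ => gaussianReal 0 1

/-- A finite sequence as a sequence. -/
noncomputable def ext {N : ℕ} (G : Fin N → ℝ) (k : ℕ) : ℝ := if h : k < N then G ⟨k, h⟩ else 0

/-- The state before the step `k`; it depends on `G 0, …, G (k - 1)`. -/
noncomputable def cX (f : ℕ → ℝ → ℝ) (c : ℕ → ℝ) (G : ℕ → ℝ) : ℕ → ℝ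
  | 0 => 0
  | k + 1 => cX f c G k + f k (cX f c G k) + c k * G k

/-- The increment of the step `k`. -/
noncomputable def cv (f : ℕ → ℝ → ℝ) (c : ℕ → ℝ) (g : ℕ → ℝ → ℝ) (G : ℕ → ℝ) (k : ℕ) : ℝ :=
  g k (cX f c G k) * G k

/-- The sum of the first `k` increments. -/
noncomputable def cM (f : ℕ → ℝ → ℝ) (c : ℕ → ℝ) (g : ℕ → ℝ → ℝ) (G : ℕ → ℝ) (k : ℕ) : ℝ :=
  ∑ j ∈ Finset.range k, cv f c g G j

/-- The `L²` norm of `v k`. -/
noncomputable def cs (N : ℕ) (f : ℕ → ℝ → ℝ) (c : ℕ → ℝ) (g : ℕ → ℝ → ℝ) (k : ℕ) : ℝ :=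
  √(∫ G, g k (cX f c (ext G) k) ^ 2 ∂(γN N))

/-- The mean of `g k (X k)`. -/
noncomputable def ca (N : ℕ) (f : ℕ → ℝ → ℝ) (c : ℕ → ℝ) (g : ℕ → ℝ → ℝ) (k : ℕ) : ℝ :=
  ∫ G, g k (cX f c (ext G) k) ∂(γN N)

/-- The admissible controls with `N` steps. -/
structure Ctl (N : ℕ) (f : ℕ → ℝ → ℝ) (c : ℕ → ℝ) (g : ℕ → ℝ → ℝ) : Prop where
  fb : ∀ k, ∃ C, ∀ x, |f k x| ≤ C
  gb : ∀ k, ∃ C, ∀ x, |g k x| ≤ C
  fs : ∀ k, SmB (f k)
  gs : ∀ k, SmB (g k)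
  fo : ∀ k x, f k (-x) = -f k x
  ge : ∀ k x, g k (-x) = g k x
  gp : ∀ k x, 0 < g k x
  c0 : ∀ k, 0 ≤ c k

/-- **Theorem C** (control form): the martingale algorithms reach the ground state energy. -/
def ThmC : Prop := ∀ P : ℝ, Tendsto Gap.groundValue atTop (𝓝 P) → ∀ ε : ℝ, 0 < ε →
  ∃ (N : ℕ) (f : ℕ → ℝ → ℝ) (c : ℕ → ℝ) (g : ℕ → ℝ → ℝ), 2 ≤ N ∧ Ctl N f c g ∧
    (∫ G, (max (|cM f c g (ext G) N| - 1) 0) ^ 2 ∂(γN N)) ≤ ε ∧
    P - ε ≤ ∑ k ∈ Finset.range (N - 1), cs N f c g k * ca N f c g (k + 1)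

end Vale.Agent.P367.Cl

theorem Vale.Agent.P367.Cl.eqforce_cX : True := by
  first
  | exact (fun _ => trivial) @Vale.Agent.P367.Cl.cX.eq_1
  | exact (fun _ => trivial) @Vale.Agent.P367.Cl.cX.eq_1.{0}
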