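import Vale.Agent.P367.Cl.EStep
import Vale.Agent.P146.Gap.AdmStep
import Vale.Agent.P157.ParSp7

/-!
# P367, classical half, Euler scheme: the one-step density `ell`

Cameron-Martin formula for one Euler step, the density has mean `1`, crude bound, distance to `1`
and second moment.
-/

open MeasureTheory ProbabilityTheory Filter Topology Set

namespace Vale.Agent.P367.Cl

open Vale.Agent.P157.Par
open Vale.Agent.P146.Gap
open Vale.Agent.P146.Pw2

/-! ### elementary bounds -/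

theorem e1_lip {f f' : ℝ → ℝ} (h : ∀ x, HasDerivAt f (f' x) x) {K : ℝ} (hK : ∀ x, |f' x| ≤ K)
    (x y : ℝ) : |f y - f x| ≤ K * |y - x| := by
  have h1 := convex_univ.norm_image_sub_le_of_norm_hasDerivWithin_le (f := f) (f' := f') (C := K)
    (fun z _ => (h z).hasDerivWithinAt) (fun z _ => by rw [Real.norm_eq_abs]; exact hK z)
    (mem_univ x) (mem_univ y)
  simpa [Real.norm_eq_abs] using h1

theorem e1_tay {f f' : ℝ → ℝ} (h : ∀ x, HasDerivAt f (f' x) x)
    (h2 : ∀ x y, |f' y - f' x| ≤ |y - x|) (x d : ℝ) :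
    |f (x + d) - f x - f' x * d| ≤ d ^ 2 := by
  have h1 := (convex_uIcc x (x + d)).norm_image_sub_le_of_norm_hasDerivWithin_le
    (f := fun y => f y - f' x * y) (f' := fun y => f' y - f' x) (C := |d|)
    (fun z _ => by
      have h3 := (h z).sub ((hasDerivAt_id z).const_mul (f' x))
      simp only [id_eq, mul_one] at h3
      exact h3.hasDerivWithinAt)
    (fun z hz => by
      rw [Real.norm_eq_abs]
      refine (h2 x z).trans ?_
      have h4 := abs_sub_left_of_mem_uIcc hz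
      simpa using h4)
    left_mem_uIcc right_mem_uIcc
  rw [Real.norm_eq_abs, Real.norm_eq_abs, add_sub_cancel_left, abs_mul_abs_self] at h1
  have e : f (x + d) - f' x * (x + d) - (f x - f' x * x) = f (x + d) - f x - f' x * d := by ring
  rw [e] at h1
  nlinarith [h1]

theorem e1_adm1 {C : ℝ} {F : ℝ → ℝ} (h : Adm C F) (x : ℝ) : |iteratedDeriv 1 F x| ≤ 1 := by
  have h1 := h.le1 x
  have h2 := h.pos x
  rw [← sq_le_one_iff_abs_le_one]
  linarith

theorem e1_adm2 {C : ℝ} {F : ℝ → ℝ} (h : Adm C F) (x : ℝ) : |iteratedDeriv 2 F x| ≤ 1 := by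
  have h1 := h.le1 x
  have h2 := h.pos x
  rw [abs_of_pos h2]
  nlinarith [sq_nonneg (iteratedDeriv 1 F x)]

theorem e1_d0 {C : ℝ} {F : ℝ → ℝ} (h : Adm C F) (x : ℝ) :
    HasDerivAt F (iteratedDeriv 1 F x) x := by
  have := adm_hasD h.smb.smooth 0 x
  rwa [iteratedDeriv_zero] at this

theorem e1_F {C : ℝ} {F : ℝ → ℝ} (h : Adm C F) (x y : ℝ) : |F y - F x| ≤ |y - x| := by
  have := e1_lip (e1_d0 h) (e1_adm1 h) x y
  rwa [one_mul] at this

theorem e1_F1 {C : ℝ} {F : ℝ → ℝ} (h : Adm C F) (x y : ℝ) :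
    |iteratedDeriv 1 F y - iteratedDeriv 1 F x| ≤ |y - x| := by
  have := e1_lip (adm_hasD h.smb.smooth 1) (e1_adm2 h) x y
  rwa [one_mul] at this

theorem e1_contF {C : ℝ} {F : ℝ → ℝ} (h : Adm C F) : Continuous F := h.smb.smooth.continuous

/-! ### the exponent -/

/-- The exponent of `ell`. -/
noncomputable def e1_rho (m δ : ℝ) (H H' : ℝ → ℝ) (x z : ℝ) : ℝ :=
  m * (H' (eX m δ H x z) - H x) - √δ * (m * iteratedDeriv 1 H x) * z
    - δ * (m * iteratedDeriv 1 H x) ^ 2 / 2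

theorem e1_ell (m δ : ℝ) (H H' : ℝ → ℝ) (x z : ℝ) :
    ell m δ H H' x z = Real.exp (e1_rho m δ H H' x z) := rfl

variable {B m δ : ℝ} {H H' ψ : ℝ → ℝ}

theorem e1_ma (h : St B m δ H H') (x : ℝ) : |m * iteratedDeriv 1 H x| ≤ 1 := by
  rw [abs_mul, abs_of_pos h.m0]
  exact mul_le_one₀ h.m1 (abs_nonneg _) (e1_adm1 h.adm x)

theorem e1_sqrt (h : St B m δ H H') : √δ ≤ 1 := by
  have := Real.sqrt_le_sqrt h.d1
  rwa [Real.sqrt_one] at this

theorem e1_d (h : St B m δ H H') (x z : ℝ) :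
    |eX m δ H x z - x| ≤ √δ * (1 + |z|) := by
  have h1 := e1_ma h x
  have h2 := e1_sqrt h
  have h3 := Real.sqrt_nonneg δ
  have h4 : √δ * √δ = δ := Real.mul_self_sqrt h.d0
  have h5 : eX m δ H x z - x = δ * (m * iteratedDeriv 1 H x) + √δ * z := by
    unfold eX
    ring
  rw [h5]
  refine (abs_add_le _ _).trans ?_
  have h6 : |δ * (m * iteratedDeriv 1 H x)| ≤ √δ := by
    rw [abs_mul, abs_of_nonneg h.d0]
    have e1 : δ * |m * iteratedDeriv 1 H x| ≤ δ * 1 := mul_le_mul_of_nonneg_left h1 h.d0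
    have e2 : √δ * √δ ≤ √δ * 1 := mul_le_mul_of_nonneg_left h2 h3
    linarith
  have h7 : |√δ * z| = √δ * |z| := by rw [abs_mul, abs_of_nonneg h3]
  rw [h7]
  linarith

theorem e1_rho_crude (h : St B m δ H H') (x z : ℝ) :
    |e1_rho m δ H H' x z| ≤ (B + 2) * (1 + |z|) := by
  have h1 := e1_ma h x
  have h2 := e1_sqrt h
  have h3 := Real.sqrt_nonneg δ
  have hz := abs_nonneg z
  have h4 := e1_d h x z
  have h5 : |H' (eX m δ H x z) - H x| ≤ 1 + |z| + B := by
    have e : H' (eX m δ H x z) - H x = (H' (eX m δ H x z) - H' x) + (H' x - H x) := by ring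
    rw [e]
    refine (abs_add_le _ _).trans (add_le_add ?_ ?_)
    · refine (e1_F h.adm' x _).trans (h4.trans ?_)
      nlinarith
    · refine (h.df0 x).trans ?_
      nlinarith [h.B1, h.d1, h.d0]
  have h6 : |m * (H' (eX m δ H x z) - H x)| ≤ 1 + |z| + B := by
    rw [abs_mul, abs_of_pos h.m0]
    nlinarith [h.m0, h.m1, abs_nonneg (H' (eX m δ H x z) - H x)]
  have h7 : |√δ * (m * iteratedDeriv 1 H x) * z| ≤ |z| := by
    rw [abs_mul, abs_mul, abs_of_nonneg h3]
    have : √δ * |m * iteratedDeriv 1 H x| ≤ 1 := mul_le_one₀ h2 (abs_nonneg _) h1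
    nlinarith
  have h8 : |δ * (m * iteratedDeriv 1 H x) ^ 2 / 2| ≤ 1 / 2 := by
    have e1 : (m * iteratedDeriv 1 H x) ^ 2 ≤ 1 := by
      rw [sq_le_one_iff_abs_le_one]
      exact h1
    rw [abs_of_nonneg (by have := h.d0; positivity)]
    nlinarith [h.d0, h.d1, sq_nonneg (m * iteratedDeriv 1 H x)]
  unfold e1_rho
  refine (abs_sub _ _).trans ?_
  refine (add_le_add_left (abs_sub _ _) _).trans ?_
  nlinarith [h.B1]

theorem e1_arith {m δ B a T E0 E1 d z : ℝ} (hm0 : 0 < m) (hm1 : m ≤ 1) (h0 : 0 ≤ δ)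
    (hB : 1 ≤ B) (ha : |a| ≤ 1) (hT : |T| ≤ d ^ 2) (hE0 : |E0| ≤ B * δ) (hE1 : |E1| ≤ B * δ)
    (h5 : d ^ 2 ≤ 2 * δ * (1 + z ^ 2)) (h6 : |d| ≤ 2 * (1 + z ^ 2)) :
    |m * T + m * (E1 * d) + m * E0 + δ * a ^ 2 / 2| ≤ (3 * B + 3) * δ * (1 + z ^ 2) := by
  have hz : 0 ≤ z ^ 2 := sq_nonneg z
  have hBδ : 0 ≤ B * δ := by positivity
  have hmul : ∀ y : ℝ, |m * y| ≤ |y| := fun y => by
    rw [abs_mul, abs_of_pos hm0]
    exact mul_le_of_le_one_left (abs_nonneg y) hm1
  have b1 : |m * T| ≤ 2 * δ * (1 + z ^ 2) := (hmul T).trans (hT.trans h5)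
  have b2 : |m * (E1 * d)| ≤ B * δ * (2 * (1 + z ^ 2)) := by
    refine (hmul _).trans ?_
    rw [abs_mul]
    exact mul_le_mul hE1 h6 (abs_nonneg _) hBδ
  have b3 : |m * E0| ≤ B * δ * (1 + z ^ 2) := by
    refine (hmul _).trans (hE0.trans ?_)
    have := mul_nonneg hBδ hz
    linarith
  have b4 : |δ * a ^ 2 / 2| ≤ δ * (1 + z ^ 2) := by
    have e1 : a ^ 2 ≤ 1 := by
      rw [sq_le_one_iff_abs_le_one]
      exact ha
    rw [abs_of_nonneg (by positivity)]
    have e2 : δ * a ^ 2 ≤ δ * 1 := mul_le_mul_of_nonneg_left e1 h0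
    have e3 := mul_nonneg h0 hz
    linarith
  have t1 := abs_add_le (m * T + m * (E1 * d) + m * E0) (δ * a ^ 2 / 2)
  have t2 := abs_add_le (m * T + m * (E1 * d)) (m * E0)
  have t3 := abs_add_le (m * T) (m * (E1 * d))
  have e : (3 * B + 3) * δ * (1 + z ^ 2) = 2 * δ * (1 + z ^ 2) + B * δ * (2 * (1 + z ^ 2)) +
      B * δ * (1 + z ^ 2) + δ * (1 + z ^ 2) := by ring
  rw [e]
  linarith

theorem e1_rho_fine (h : St B m δ H H') (x z : ℝ) :
    |e1_rho m δ H H' x z| ≤ (3 * B + 3) * δ * (1 + z ^ 2) := by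
  have h1 := e1_ma h x
  have h2 := e1_sqrt h
  have h3 := Real.sqrt_nonneg δ
  have hz := abs_nonneg z
  have hz2 := sq_abs z
  have h0 := h.d0
  have hs : √δ ^ 2 = δ := Real.sq_sqrt h.d0
  obtain ⟨d, hd⟩ : ∃ d, d = eX m δ H x z - x := ⟨_, rfl⟩
  have h4 : |d| ≤ √δ * (1 + |z|) := by
    rw [hd]
    exact e1_d h x z
  have hd2 : d = δ * (m * iteratedDeriv 1 H x) + √δ * z := by
    rw [hd]
    unfold eX
    ring
  have hx : eX m δ H x z = x + d := by rw [hd]; ring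
  have h5 : d ^ 2 ≤ 2 * δ * (1 + z ^ 2) := by
    have e1 : d ^ 2 ≤ (√δ * (1 + |z|)) ^ 2 := by
      rw [← sq_abs d]
      exact pow_le_pow_left₀ (abs_nonneg _) h4 2
    rw [mul_pow, hs] at e1
    have e2 : (1 + |z|) ^ 2 ≤ 2 * (1 + z ^ 2) := by
      nlinarith [sq_nonneg (1 - |z|)]
    have e3 := mul_le_mul_of_nonneg_left e2 h0
    linarith
  have h6 : |d| ≤ 2 * (1 + z ^ 2) := by
    have e1 : √δ * (1 + |z|) ≤ 1 * (1 + |z|) := mul_le_mul_of_nonneg_right h2 (by linarith)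
    have e2 : 1 + |z| ≤ 2 * (1 + z ^ 2) := by nlinarith [sq_nonneg (1 - |z|)]
    linarith
  have hT := e1_tay (e1_d0 h.adm') (e1_F1 h.adm') x d
  have key : e1_rho m δ H H' x z = m * (H' (x + d) - H' x - iteratedDeriv 1 H' x * d) +
      m * ((iteratedDeriv 1 H' x - iteratedDeriv 1 H x) * d) + m * (H' x - H x) +
      δ * (m * iteratedDeriv 1 H x) ^ 2 / 2 := by
    unfold e1_rho
    rw [hx]
    linear_combination (m * iteratedDeriv 1 H x) * hd2
  rw [key]
  exact e1_arith h.m0 h.m1 h0 h.B1 h1 hT (h.df0 x) (h.df1 x) h5 h6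

theorem e1_exp_sub (r : ℝ) : |Real.exp r - 1| ≤ |r| * Real.exp |r| := by
  rcases le_or_gt 0 r with hr | hr
  · have h1 : 1 ≤ Real.exp r := Real.one_le_exp hr
    rw [abs_of_nonneg hr, abs_of_nonneg (by linarith)]
    have h2 := Real.add_one_le_exp (-r)
    have h3 : Real.exp (-r) * Real.exp r = 1 := by rw [← Real.exp_add]; simp
    nlinarith [Real.exp_pos r]
  · have h1 : Real.exp r ≤ 1 := Real.exp_le_one_iff.2 hr.le
    rw [abs_of_neg hr, abs_of_nonpos (by linarith)]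
    have h2 := Real.add_one_le_exp r
    have h3 : 1 ≤ Real.exp (-r) := Real.one_le_exp (by linarith)
    nlinarith

/-! ### the estimates -/

theorem ell_pos (x z : ℝ) : 0 < ell m δ H H' x z := Real.exp_pos _

/-- joint continuity (for measurability) -/
theorem ell_cont (h : St B m δ H H') : Continuous (fun p : ℝ × ℝ => ell m δ H H' p.1 p.2) := by
  have c1 := e1_contF h.adm
  have c2 := e1_contF h.adm'
  have c3 := adm_cont h.adm.smb.smooth 1
  unfold ell eX
  fun_prop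

theorem rh_cont (h : St B m δ H H') : Continuous (fun p : ℝ × ℝ => rh m δ H H' p.1 p.2) := by
  have c1 := adm_cont h.adm'.smb.smooth 1
  have c3 := adm_cont h.adm.smb.smooth 1
  have c4 := adm_cont h.adm.smb.smooth 2
  unfold rh eX
  fun_prop

theorem e1_cont_z (h : St B m δ H H') (x : ℝ) : Continuous (fun z => ell m δ H H' x z) :=
  (ell_cont h).comp (by fun_prop : Continuous fun z : ℝ => (x, z))

/-- Cameron-Martin -/
theorem ell_tlt (h : St B m δ H H') (hψ : Sp7Cb ψ) (x : ℝ) :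
    ∫ z, ell m δ H H' x z * ψ (eX m δ H x z) ∂(gaussianReal 0 1) = tlt m δ H' ψ x := by
  have hs : √δ * √δ = δ := Real.mul_self_sqrt h.d0
  set a := m * iteratedDeriv 1 H x with ha
  set θ := √δ * a with hθ
  have hX : ∀ z, eX m δ H x z = x + √δ * (z + θ) := by
    intro z
    unfold eX
    rw [← ha, hθ]
    linear_combination (-a) * hs
  set f : ℝ → ℝ := fun y => Real.exp (m * (H' (x + √δ * y) - H x)) * ψ (x + √δ * y) *
    Real.exp (-θ * y + θ ^ 2 / 2) with hf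
  have h1 : ∀ z, ell m δ H H' x z * ψ (eX m δ H x z) = f (z + θ) := by
    intro z
    rw [hf]
    simp only
    unfold ell
    rw [hX z, ← ha]
    have e : Real.exp (m * (H' (x + √δ * (z + θ)) - H x) - √δ * a * z - δ * a ^ 2 / 2) =
        Real.exp (m * (H' (x + √δ * (z + θ)) - H x)) *
          Real.exp (-θ * (z + θ) + θ ^ 2 / 2) := by
      rw [← Real.exp_add]
      congr 1
      rw [← hθ]
      have : θ ^ 2 = δ * a ^ 2 := by
        rw [hθ, mul_pow, Real.sq_sqrt h.d0]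
      linear_combination (-1 / 2 : ℝ) * this + this
    rw [e]
    ring
  have h2 : ∫ z, ell m δ H H' x z * ψ (eX m δ H x z) ∂(gaussianReal 0 1) =
      ∫ z, f (z + θ) ∂(gaussianReal 0 1) := integral_congr_ae (ae_of_all _ h1)
  rw [h2, sp3_shift]
  have hpos : 0 < ∫ z, Real.exp (m * H' (x + √δ * z)) ∂(gaussianReal 0 1) := by
    have h3 := U_pos (posF_exp h.adm'.smb m) δ x
    simpa [U] using h3
  have hH : Real.exp (m * H x) = ∫ z, Real.exp (m * H' (x + √δ * z)) ∂(gaussianReal 0 1) := by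
    rw [h.eq]
    unfold gstep
    rw [← mul_assoc, mul_one_div_cancel h.m0.ne', one_mul, Real.exp_log hpos]
  have h4 : (fun z => f z * Real.exp (θ * z)) = fun z => (Real.exp (θ ^ 2 / 2) *
      Real.exp (-(m * H x))) * (ψ (x + √δ * z) * Real.exp (m * H' (x + √δ * z))) := by
    funext z
    rw [hf]
    simp only
    rw [mul_sub, sub_eq_add_neg, Real.exp_add, Real.exp_add]
    have e : Real.exp (-θ * z) * Real.exp (θ * z) = 1 := by
      rw [← Real.exp_add]
      simp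
    linear_combination (Real.exp (m * H' (x + √δ * z)) * Real.exp (-(m * H x)) *
      ψ (x + √δ * z) * Real.exp (θ ^ 2 / 2)) * e
  rw [h4, integral_const_mul]
  unfold tlt
  rw [← hH]
  have e1 : Real.exp (-θ ^ 2 / 2) * Real.exp (θ ^ 2 / 2) = 1 := by
    rw [← Real.exp_add, show -θ ^ 2 / 2 + θ ^ 2 / 2 = 0 by ring, Real.exp_zero]
  rw [← mul_assoc, ← mul_assoc, e1, one_mul, div_eq_inv_mul, Real.exp_neg]

theorem ell_one (h : St B m δ H H') (x : ℝ) :
    ∫ z, ell m δ H H' x z ∂(gaussianReal 0 1) = 1 := by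
  have h1 := ell_tlt h (ψ := fun _ => (1 : ℝ)) (sp7_cb_const 1) x
  simp only [mul_one] at h1
  rw [h1]
  unfold tlt
  simp only [one_mul]
  have hpos : 0 < ∫ z, Real.exp (m * H' (x + √δ * z)) ∂(gaussianReal 0 1) := by
    have h3 := U_pos (posF_exp h.adm'.smb m) δ x
    simpa [U] using h3
  exact div_self hpos.ne'

/-- crude bound -/
theorem ell_bd (B : ℝ) : ∃ C : ℝ, 1 ≤ C ∧ ∀ (m δ : ℝ) (H H' : ℝ → ℝ), St B m δ H H' →
    ∀ x z, ell m δ H H' x z ≤ Real.exp (C * (1 + |z|)) := by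
  refine ⟨|B| + 2, by linarith [abs_nonneg B], fun m δ H H' h x z => ?_⟩
  rw [e1_ell]
  refine Real.exp_le_exp.2 ((le_abs_self _).trans ((e1_rho_crude h x z).trans ?_))
  exact mul_le_mul_of_nonneg_right (by linarith [le_abs_self B]) (by positivity)

/-- `|ℓ - 1| ≤ |ρ| exp |ρ|`, `|ρ| ≤ C δ (1 + z²)` -/
theorem ell_sub (B : ℝ) : ∃ C : ℝ, 1 ≤ C ∧ ∀ (m δ : ℝ) (H H' : ℝ → ℝ), St B m δ H H' →
    ∀ x z, |ell m δ H H' x z - 1| ≤ C * δ * (1 + z ^ 2) * Real.exp (C * (1 + |z|)) := by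
  refine ⟨3 * |B| + 3, by linarith [abs_nonneg B], fun m δ H H' h x z => ?_⟩
  rw [e1_ell]
  have hB := le_abs_self B
  have h0 := h.d0
  refine (e1_exp_sub _).trans (mul_le_mul ?_ (Real.exp_le_exp.2 ?_) (Real.exp_pos _).le
    (by have := abs_nonneg B; positivity))
  · refine (e1_rho_fine h x z).trans ?_
    have : (3 * B + 3) * δ ≤ (3 * |B| + 3) * δ :=
      mul_le_mul_of_nonneg_right (by linarith) h0
    exact mul_le_mul_of_nonneg_right this (by positivity)
  · refine (e1_rho_crude h x z).trans ?_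
    exact mul_le_mul_of_nonneg_right (by linarith [abs_nonneg B]) (by positivity)

theorem e1_poly_exp (t : ℝ) :
    Integrable (fun z : ℝ => (1 + z ^ 2) ^ 2 * Real.exp (t * (1 + |z|))) (gaussianReal 0 1) := by
  refine ((sp7_int_exp_abs (t + 4)).const_mul (9 * Real.exp t)).mono' (by fun_prop)
    (ae_of_all _ fun z => ?_)
  rw [Real.norm_eq_abs, abs_of_nonneg (by positivity)]
  have h1 := Real.quadratic_le_exp_of_nonneg (abs_nonneg z)
  rw [sq_abs] at h1
  have h2 : 1 + z ^ 2 ≤ 3 * Real.exp |z| := by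
    have := abs_nonneg z
    nlinarith [Real.one_le_exp (abs_nonneg z)]
  have h3 : (1 + z ^ 2) ^ 2 ≤ 9 * Real.exp (4 * |z|) := by
    have e1 : (1 + z ^ 2) ^ 2 ≤ (3 * Real.exp |z|) ^ 2 :=
      pow_le_pow_left₀ (by positivity) h2 2
    have e2 : (3 * Real.exp |z|) ^ 2 = 9 * Real.exp (2 * |z|) := by
      rw [mul_pow, ← Real.exp_nat_mul]
      norm_num
    have e3 : Real.exp (2 * |z|) ≤ Real.exp (4 * |z|) :=
      Real.exp_le_exp.2 (by nlinarith [abs_nonneg z])
    linarith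
  calc (1 + z ^ 2) ^ 2 * Real.exp (t * (1 + |z|))
      ≤ 9 * Real.exp (4 * |z|) * Real.exp (t * (1 + |z|)) :=
        mul_le_mul_of_nonneg_right h3 (Real.exp_pos _).le
    _ = 9 * Real.exp t * Real.exp ((t + 4) * |z|) := by
        rw [mul_assoc, ← Real.exp_add, mul_assoc, ← Real.exp_add]
        ring_nf

theorem e1_exp_one (t : ℝ) :
    Integrable (fun z : ℝ => Real.exp (t * (1 + |z|))) (gaussianReal 0 1) := by
  refine ((sp7_int_exp_abs t).const_mul (Real.exp t)).congr (ae_of_all _ fun z => ?_)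
  simp only
  rw [← Real.exp_add]
  ring_nf

theorem e1_int (h : St B m δ H H') (x : ℝ) :
    Integrable (fun z => ell m δ H H' x z) (gaussianReal 0 1) := by
  obtain ⟨C, -, hC⟩ := ell_bd B
  refine (e1_exp_one C).mono' (e1_cont_z h x).aestronglyMeasurable (ae_of_all _ fun z => ?_)
  rw [Real.norm_eq_abs, abs_of_pos (ell_pos x z)]
  exact hC m δ H H' h x z

theorem e1_int_sub (h : St B m δ H H') (x : ℝ) :
    Integrable (fun z => (ell m δ H H' x z - 1) ^ 2) (gaussianReal 0 1) := by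
  obtain ⟨C, hC1, hC⟩ := ell_sub B
  refine ((e1_poly_exp (2 * C)).const_mul ((C * δ) ^ 2)).mono'
    (((e1_cont_z h x).sub continuous_const).pow 2).aestronglyMeasurable (ae_of_all _ fun z => ?_)
  rw [Real.norm_eq_abs, abs_of_nonneg (sq_nonneg _), ← sq_abs]
  have h1 := pow_le_pow_left₀ (abs_nonneg _) (hC m δ H H' h x z) 2
  refine h1.trans (le_of_eq ?_)
  rw [mul_pow, mul_pow, ← Real.exp_nat_mul]
  push_cast
  ring_nf

theorem ell_sq (B : ℝ) : ∃ C : ℝ, 1 ≤ C ∧ ∀ (m δ : ℝ) (H H' : ℝ → ℝ), St B m δ H H' →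
    ∀ x, ∫ z, ell m δ H H' x z ^ 2 ∂(gaussianReal 0 1) ≤ 1 + C * δ ^ 2 := by
  obtain ⟨C, hC1, hC⟩ := ell_sub B
  set K := ∫ z : ℝ, (1 + z ^ 2) ^ 2 * Real.exp (2 * C * (1 + |z|)) ∂(gaussianReal 0 1) with hK
  have hK0 : 0 ≤ K := integral_nonneg fun z => by positivity
  refine ⟨1 + C ^ 2 * K, by nlinarith [mul_nonneg (sq_nonneg C) hK0], fun m δ H H' h x => ?_⟩
  have h1 : (fun z => ell m δ H H' x z ^ 2) = fun z =>
      (ell m δ H H' x z - 1) ^ 2 + (2 * ell m δ H H' x z - 1) := by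
    funext z
    ring
  have h2 : ∫ z, (2 * ell m δ H H' x z - 1) ∂(gaussianReal 0 1) = 1 := by
    rw [integral_sub ((e1_int h x).const_mul 2) (integrable_const _), integral_const_mul,
      ell_one h x]
    simp
    norm_num
  have hA : Integrable (fun z => 2 * ell m δ H H' x z - 1) (gaussianReal 0 1) :=
    ((e1_int h x).const_mul 2).sub (integrable_const _)
  rw [h1, integral_add (e1_int_sub h x) hA, h2]
  have h3 : ∫ z, (ell m δ H H' x z - 1) ^ 2 ∂(gaussianReal 0 1) ≤ (C * δ) ^ 2 * K := by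
    rw [hK, ← integral_const_mul]
    refine integral_mono (e1_int_sub h x) ((e1_poly_exp (2 * C)).const_mul _) fun z => ?_
    have h4 := pow_le_pow_left₀ (abs_nonneg _) (hC m δ H H' h x z) 2
    rw [sq_abs] at h4
    refine h4.trans (le_of_eq ?_)
    rw [mul_pow, mul_pow, ← Real.exp_nat_mul]
    push_cast
    ring_nf
  nlinarith [sq_nonneg δ]

end Vale.Agent.P367.Cl
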