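import Vale.Agent.P367.Cl.EBd

/-!
# P367, classical half: schemes with finitely many values
-/

open MeasureTheory ProbabilityTheory Filter Topology Set

namespace Vale.Agent.P367.Cl

/-- the data of a scheme with finitely many values and the fields `z 0, …, z n` -/
structure SScheme (n : ℕ) (ψ : Fin n → (Fin (n + 1) → ℝ) → ℝ) (m : (Fin (n + 1) → ℝ) → ℝ) :
    Prop where
  meas : ∀ k, Measurable (ψ k)
  fin : ∀ k, (range (ψ k)).Finite
  dep : ∀ (k : Fin n) z z', (∀ j : Fin (n + 1), (j : ℕ) ≤ (k : ℕ) → z j = z' j) →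
    ψ k z = ψ k z'
  odd : ∀ k z, ψ k (-z) = -ψ k z
  orth : ∀ j k, ∫ z, ψ j z * ψ k z ∂(γN (n + 1)) = if j = k then 1 else 0
  mmeas : Measurable m
  mfin : (range m).Finite
  mbd : ∀ z, |m z| ≤ 1
  modd : ∀ z, m (-z) = -m z

/-- rounding towards zero to multiples of `1 / K` -/
noncomputable def rd (K : ℕ) (x : ℝ) : ℝ :=
  if 0 ≤ x then (⌊K * x⌋ : ℝ) / K else -((⌊K * (-x)⌋ : ℝ) / K)

lemma rd_neg (K : ℕ) (x : ℝ) : rd K (-x) = -rd K x := by
  unfold rd
  rcases lt_trichotomy x 0 with h | h | h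
  · rw [if_pos (by linarith), if_neg (by linarith), neg_neg]
  · subst h
    simp
  · rw [if_neg (by linarith), if_pos h.le, neg_neg]

lemma rd_nonneg {K : ℕ} {x : ℝ} (hx : 0 ≤ x) : 0 ≤ rd K x ∧ rd K x ≤ x := by
  unfold rd
  rw [if_pos hx]
  rcases Nat.eq_zero_or_pos K with rfl | hK
  · simp [hx]
  · have hK' : (0 : ℝ) < K := by exact_mod_cast hK
    constructor
    · have : (0 : ℤ) ≤ ⌊K * x⌋ := Int.floor_nonneg.2 (by positivity)
      have : (0 : ℝ) ≤ ⌊K * x⌋ := by exact_mod_cast this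
      positivity
    · rw [div_le_iff₀ hK', mul_comm]
      exact Int.floor_le _

lemma abs_rd_le (K : ℕ) (x : ℝ) : |rd K x| ≤ |x| := by
  rcases le_total 0 x with h | h
  · obtain ⟨h1, h2⟩ := rd_nonneg (K := K) h
    rw [abs_of_nonneg h1, abs_of_nonneg h]
    exact h2
  · obtain ⟨h1, h2⟩ := rd_nonneg (K := K) (neg_nonneg.2 h)
    rw [rd_neg] at h1 h2
    rw [abs_of_nonpos (by linarith), abs_of_nonpos h]
    exact h2

lemma rd_near {K : ℕ} (hK : 0 < K) (x : ℝ) : |rd K x - x| ≤ 1 / K := by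
  have hK' : (0 : ℝ) < K := by exact_mod_cast hK
  have key : ∀ x : ℝ, 0 ≤ x → |rd K x - x| ≤ 1 / K := by
    intro x hx
    obtain ⟨h1, h2⟩ := rd_nonneg (K := K) hx
    rw [abs_sub_comm, abs_of_nonneg (by linarith)]
    unfold rd
    rw [if_pos hx]
    have h3 := Int.lt_floor_add_one (K * x)
    rw [sub_le_iff_le_add, ← add_div, le_div_iff₀ hK']
    linarith
  rcases le_total 0 x with h | h
  · exact key x h
  · have := key (-x) (neg_nonneg.2 h)
    rwa [rd_neg, neg_sub_neg, abs_sub_comm] at this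

lemma rd_meas (K : ℕ) : Measurable (rd K) := by
  unfold rd
  refine Measurable.ite measurableSet_Ici ?_ ?_
  · fun_prop
  · fun_prop

lemma tendsto_rd (x : ℝ) : Tendsto (fun K : ℕ => rd K x) atTop (𝓝 x) := by
  rw [tendsto_iff_norm_sub_tendsto_zero]
  refine squeeze_zero' (Filter.Eventually.of_forall fun _ => norm_nonneg _) ?_
    tendsto_one_div_atTop_nhds_zero_nat
  filter_upwards [eventually_gt_atTop 0] with K hK
  exact rd_near hK x

lemma tendsto_rd' {u : ℕ → ℝ} {x : ℝ} (hu : Tendsto u atTop (𝓝 x)) :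
    Tendsto (fun K : ℕ => rd K (u K)) atTop (𝓝 x) := by
  have h1 : Tendsto (fun K : ℕ => rd K (u K) - u K) atTop (𝓝 0) := by
    rw [tendsto_zero_iff_norm_tendsto_zero]
    refine squeeze_zero' (Filter.Eventually.of_forall fun _ => norm_nonneg _) ?_
      tendsto_one_div_atTop_nhds_zero_nat
    filter_upwards [eventually_gt_atTop 0] with K hK
    exact rd_near hK (u K)
  have h2 := h1.add hu
  rw [zero_add] at h2
  exact h2.congr fun K => by ring

/-- finitely many values on bounded sets -/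
lemma rd_fin (K : ℕ) (C : ℝ) : ∃ s : Finset ℝ, ∀ x, |x| ≤ C → rd K x ∈ s := by
  classical
  refine ⟨(Finset.Icc (-⌈K * C⌉) ⌈K * C⌉).image fun j : ℤ => (j : ℝ) / K, fun x hx => ?_⟩
  rw [Finset.mem_image]
  have hK' : (0 : ℝ) ≤ K := by positivity
  rw [abs_le] at hx
  rcases le_or_gt 0 x with h | h
  · refine ⟨⌊K * x⌋, ?_, ?_⟩
    · rw [Finset.mem_Icc]
      have h1 : (0 : ℤ) ≤ ⌊K * x⌋ := Int.floor_nonneg.2 (by positivity)
      have h2 : ⌊K * x⌋ ≤ ⌈K * C⌉ :=
        (Int.floor_le_ceil _).trans (Int.ceil_le_ceil (by nlinarith))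
      constructor <;> omega
    · unfold rd
      rw [if_pos h]
  · refine ⟨-⌊K * (-x)⌋, ?_, ?_⟩
    · rw [Finset.mem_Icc]
      have h1 : (0 : ℤ) ≤ ⌊K * (-x)⌋ := Int.floor_nonneg.2 (by nlinarith)
      have h2 : ⌊K * (-x)⌋ ≤ ⌈K * C⌉ :=
        (Int.floor_le_ceil _).trans (Int.ceil_le_ceil (by nlinarith))
      constructor <;> omega
    · unfold rd
      rw [if_neg (by linarith)]
      push_cast
      ring

/-! ### General product increments -/

variable {n : ℕ} {f : ℕ → ℝ → ℝ} {c : ℕ → ℝ} {g G : ℕ → ℝ → ℝ} {T : ℝ → ℝ} {a : ℕ → ℝ} {t : ℝ}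

/-- increments with general factors -/
noncomputable def psG (n : ℕ) (f : ℕ → ℝ → ℝ) (c : ℕ → ℝ) (G : ℕ → ℝ → ℝ) (T : ℝ → ℝ)
    (a : ℕ → ℝ) (t : ℝ) (k : Fin n) (z : Fin (n + 1) → ℝ) : ℝ :=
  G k (cX f c (ext z) k) * T (z k.castSucc) / (a k * t)

lemma ind_psG {j k : Fin n} (hjk : j < k) : Ind k.castSucc (psG n f c G T a t j) := by
  intro z x
  unfold psG
  have e1 : cX f c (ext (Function.update z k.castSucc x)) j = cX f c (ext z) j :=
    eX_congr f c fun i hi => ext_update z k.castSucc x (by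
      have h1 : (j : ℕ) < k := hjk
      have h2 : ((k.castSucc : Fin (n + 1)) : ℕ) = k := rfl
      omega)
  have e2 : Function.update z k.castSucc x j.castSucc = z j.castSucc :=
    Function.update_of_ne (fun e => hjk.ne (Fin.castSucc_injective _ e)) _ _
  rw [e1, e2]

lemma psG_lt (hT : ∫ x, T x ∂(gaussianReal 0 1) = 0) {j k : Fin n} (hjk : j < k) :
    ∫ z, psG n f c G T a t j z * psG n f c G T a t k z ∂(γN (n + 1)) = 0 := by
  have h1 : Ind k.castSucc (fun z => psG n f c G T a t j z *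
      (fun z => G k (cX f c (ext z) k) / (a k * t)) z) :=
    (ind_psG hjk).mul (ind_gX (f := f) (c := c) k.castSucc
      (show (k : ℕ) ≤ k.castSucc from le_rfl) (fun x => G k x / (a k * t)))
  have h := pi_split k.castSucc h1 T
  rw [hT, mul_zero] at h
  rw [← h]
  refine integral_congr_ae (Filter.Eventually.of_forall fun z => ?_)
  change psG n f c G T a t j z * (G k (cX f c (ext z) k) * T (z k.castSucc) /
    (a k * t)) = psG n f c G T a t j z * (G k (cX f c (ext z) k) / (a k * t)) * T (z k.castSucc)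
  ring

lemma psG_self (ht : t ≠ 0) (k : Fin n) (ha : a k ≠ 0)
    (hT2 : ∫ x, T x ^ 2 ∂(gaussianReal 0 1) = t ^ 2)
    (hG2 : ∫ z, G k (cX f c (ext z) k) ^ 2 ∂(γN (n + 1)) = a k ^ 2) :
    ∫ z, psG n f c G T a t k z * psG n f c G T a t k z ∂(γN (n + 1)) = 1 := by
  have h1 := pi_split k.castSucc (ind_gX (f := f) (c := c) k.castSucc
      (show (k : ℕ) ≤ k.castSucc from le_rfl) (fun x => G k x ^ 2)) (fun x => T x ^ 2)
  rw [hT2, hG2] at h1
  have h2 : ∫ z, psG n f c G T a t k z * psG n f c G T a t k z ∂(γN (n + 1)) =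
      ∫ z, (a k * t)⁻¹ ^ 2 * (G k (cX f c (ext z) k) ^ 2 *
        T (z k.castSucc) ^ 2) ∂(γN (n + 1)) := by
    refine integral_congr_ae (Filter.Eventually.of_forall fun z => ?_)
    change G k (cX f c (ext z) k) * T (z k.castSucc) / (a k * t) *
      (G k (cX f c (ext z) k) * T (z k.castSucc) / (a k * t)) = _
    rw [div_eq_mul_inv]
    ring
  rw [h2, integral_const_mul, h1]
  field_simp

/-! ### The rounded increments -/

/-- rounded factors -/
noncomputable def gS (g : ℕ → ℝ → ℝ) (K k : ℕ) (x : ℝ) : ℝ := rd K (g k x) + 1 / K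

/-- rounded truncation -/
noncomputable def tS (K : ℕ) (x : ℝ) : ℝ := rd K (trn K x)

noncomputable def aS (n : ℕ) (f : ℕ → ℝ → ℝ) (c : ℕ → ℝ) (g : ℕ → ℝ → ℝ) (K k : ℕ) : ℝ :=
  √(∫ z, gS g K k (cX f c (ext z) k) ^ 2 ∂(γN (n + 1)))

noncomputable def tn (K : ℕ) : ℝ := √(∫ x, tS K x ^ 2 ∂(gaussianReal 0 1))

lemma tS_neg (K : ℕ) (x : ℝ) : tS K (-x) = -tS K x := by
  unfold tS
  rw [trn_neg (Nat.cast_nonneg K), rd_neg]

lemma tS_meas (K : ℕ) : Measurable (tS K) := (rd_meas K).comp (trn_cont K).measurable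

lemma abs_tS_le (K : ℕ) (x : ℝ) : |tS K x| ≤ |x| :=
  (abs_rd_le _ _).trans (trn_le_abs (Nat.cast_nonneg K) x)

lemma int_tS (K : ℕ) : ∫ x, tS K x ∂(gaussianReal 0 1) = 0 := by
  have h : ∫ x, tS K x ∂(gaussianReal 0 1) = ∫ x, tS K (-x) ∂(gaussianReal 0 1) := by
    have hmp : MeasurePreserving (MeasurableEquiv.neg ℝ) (gaussianReal 0 1) (gaussianReal 0 1) := by
      refine ⟨(MeasurableEquiv.neg ℝ).measurable, ?_⟩
      have := gaussianReal_map_neg (μ := 0) (v := 1)
      rw [neg_zero] at this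
      exact this
    exact (hmp.integral_comp' (fun x => tS K x)).symm
  simp only [tS_neg, integral_neg] at h
  linarith

lemma tendsto_tS (x : ℝ) : Tendsto (fun K : ℕ => tS K x) atTop (𝓝 x) := tendsto_rd' (tendsto_trn x)

lemma tendsto_tn : Tendsto tn atTop (𝓝 1) := by
  have h : Tendsto (fun K : ℕ => ∫ x, tS K x ^ 2 ∂(gaussianReal 0 1)) atTop
      (𝓝 (∫ x : ℝ, x ^ 2 ∂(gaussianReal 0 1))) := by
    refine tendsto_integral_of_dominated_convergence (fun x => x ^ 2) ?_ ?_ ?_ ?_
    · intro K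
      exact ((tS_meas K).pow_const 2).aestronglyMeasurable
    · have := memLp_id_gaussianReal (μ := 0) (v := 1) 2
      exact this.integrable_sq
    · intro K
      refine Filter.Eventually.of_forall fun x => ?_
      rw [Real.norm_eq_abs, abs_of_nonneg (sq_nonneg _)]
      exact sq_le_sq.2 (abs_tS_le K x)
    · exact Filter.Eventually.of_forall fun x => (tendsto_tS x).pow 2
  rw [int_sq] at h
  have h2 := (Real.continuous_sqrt.tendsto 1).comp h
  rw [Real.sqrt_one] at h2
  exact h2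

lemma tn_sq (K : ℕ) : ∫ x, tS K x ^ 2 ∂(gaussianReal 0 1) = tn K ^ 2 := by
  unfold tn
  exact (Real.sq_sqrt (integral_nonneg fun G => sq_nonneg _)).symm

lemma aS_sq (K k : ℕ) : ∫ z, gS g K k (cX f c (ext z) k) ^ 2 ∂(γN (n + 1)) =
    aS n f c g K k ^ 2 := by
  unfold aS
  exact (Real.sq_sqrt (integral_nonneg fun G => sq_nonneg _)).symm

lemma gS_meas (h : Ctl (n + 1) f c g) (K k : ℕ) : Measurable (gS g K k) :=
  ((rd_meas K).comp (h.gs k).smooth.continuous.measurable).add_const _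

lemma gS_abs_le {K : ℕ} (hK : 1 ≤ K) (k : ℕ) {C x : ℝ} (hC : |g k x| ≤ C) :
    |gS g K k x| ≤ C + 1 := by
  have hK' : (1 : ℝ) ≤ K := by exact_mod_cast hK
  unfold gS
  refine (abs_add_le _ _).trans (add_le_add ((abs_rd_le _ _).trans hC) ?_)
  rw [abs_of_nonneg (by positivity), div_le_one (by linarith)]
  exact hK'

lemma tendsto_gS (k : ℕ) (x : ℝ) : Tendsto (fun K : ℕ => gS g K k x) atTop (𝓝 (g k x)) := by
  have h0 : Tendsto (fun K : ℕ => (1 : ℝ) / K) atTop (𝓝 0) := tendsto_one_div_atTop_nhds_zero_nat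
  have h := (tendsto_rd (g k x)).add h0
  rw [add_zero] at h
  exact h

lemma tendsto_aS (h : Ctl (n + 1) f c g) (k : ℕ) :
    Tendsto (fun K : ℕ => aS n f c g K k) atTop (𝓝 (cs (n + 1) f c g k)) := by
  obtain ⟨C, hC⟩ := h.gb k
  have h1 : Tendsto (fun K : ℕ => ∫ z, gS g K k (cX f c (ext z) k) ^ 2 ∂(γN (n + 1))) atTop
      (𝓝 (∫ z, g k (cX f c (ext z) k) ^ 2 ∂(γN (n + 1)))) := by
    refine tendsto_integral_filter_of_dominated_convergence (fun _ => (C + 1) ^ 2) ?_ ?_ ?_ ?_
    · refine Filter.Eventually.of_forall fun K => ?_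
      exact (((gS_meas h K k).comp
        (cX_meas (fun j => (h.fs j).smooth.continuous) k)).pow_const 2).aestronglyMeasurable
    · filter_upwards [eventually_ge_atTop 1] with K hK
      refine Filter.Eventually.of_forall fun z => ?_
      rw [Real.norm_eq_abs, abs_of_nonneg (sq_nonneg _)]
      have h2 := gS_abs_le hK k (hC (cX f c (ext z) k))
      exact sq_le_sq' (by linarith [(abs_le.1 h2).1]) ((abs_le.1 h2).2)
    · exact integrable_const _
    · exact Filter.Eventually.of_forall fun z => (tendsto_gS k _).pow 2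
  unfold aS cs
  exact (Real.continuous_sqrt.tendsto _).comp h1

/-- the rounded scheme -/
noncomputable def psS (n : ℕ) (f : ℕ → ℝ → ℝ) (c : ℕ → ℝ) (g : ℕ → ℝ → ℝ) (K : ℕ) :
    Fin n → (Fin (n + 1) → ℝ) → ℝ :=
  psG n f c (gS g K) (tS K) (aS n f c g K) (tn K)

lemma fin_mul_div {X : Type*} {u v : X → ℝ} (hu : (range u).Finite) (hv : (range v).Finite)
    (b : ℝ) : (range fun x => u x * v x / b).Finite := by
  refine (Set.Finite.image2 (fun p q : ℝ => p * q / b) hu hv).subset ?_
  rintro _ ⟨x, rfl⟩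
  exact ⟨u x, ⟨x, rfl⟩, v x, ⟨x, rfl⟩, rfl⟩

lemma psS_scheme (h : Ctl (n + 1) f c g) {K : ℕ} (ht : tn K ≠ 0)
    (ha : ∀ k : Fin n, aS n f c g K k ≠ 0) :
    SScheme n (psS n f c g K) (fun z => rd K (mcl n f c g z)) := by
  have hcX : ∀ k, Measurable (fun z : Fin (n + 1) → ℝ => cX f c (ext z) k) :=
    cX_meas (fun j => (h.fs j).smooth.continuous)
  refine ⟨?_, ?_, ?_, ?_, ?_, ?_, ?_, ?_, ?_⟩
  · intro k
    refine Measurable.div_const (Measurable.mul ?_ ?_) _
    · exact (gS_meas h K k).comp (hcX k)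
    · exact (tS_meas K).comp (measurable_pi_apply _)
  · intro k
    refine fin_mul_div ?_ ?_ _
    · obtain ⟨C, hC⟩ := h.gb k
      obtain ⟨s, hs⟩ := rd_fin K C
      refine (Set.Finite.image (fun y : ℝ => y + 1 / (K : ℝ)) s.finite_toSet).subset ?_
      rintro _ ⟨z, rfl⟩
      exact ⟨rd K (g k (cX f c (ext z) k)), hs _ (hC _), rfl⟩
    · obtain ⟨s, hs⟩ := rd_fin K K
      refine s.finite_toSet.subset ?_
      rintro _ ⟨z, rfl⟩
      exact hs _ (trn_le (Nat.cast_nonneg K) _)
  · intro k z z' hz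
    unfold psS psG
    have e1 : cX f c (ext z) k = cX f c (ext z') k := by
      refine eX_congr f c fun j hj => ?_
      have hj' : j < n + 1 := by have := k.2; omega
      have := hz ⟨j, hj'⟩ hj.le
      unfold ext
      rw [dif_pos hj', dif_pos hj', this]
    rw [e1, hz k.castSucc le_rfl]
  · intro k z
    unfold psS psG gS
    rw [cX_neg h, h.ge]
    change _ * tS K (-z k.castSucc) / _ = _
    rw [tS_neg]
    ring
  · intro j k
    split_ifs with hjk
    · rw [hjk]
      exact psG_self ht k (ha k) (tn_sq K) (aS_sq K k)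
    · rcases lt_or_gt_of_ne hjk with h1 | h1
      · exact psG_lt (int_tS K) h1
      · rw [← psG_lt (f := f) (c := c) (G := gS g K) (a := aS n f c g K) (t := tn K)
          (int_tS K) h1]
        exact integral_congr_ae (Filter.Eventually.of_forall fun z => mul_comm _ _)
  · exact (rd_meas K).comp (clip_cont.comp (cM_cont h _)).measurable
  · obtain ⟨s, hs⟩ := rd_fin K 1
    refine s.finite_toSet.subset ?_
    rintro _ ⟨z, rfl⟩
    exact hs _ (clip_le _)
  · exact fun z => (abs_rd_le _ _).trans (clip_le _)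
  · intro z
    unfold mcl
    rw [cM_neg h, clip_neg, rd_neg]

lemma tendsto_psS (h : Ctl (n + 1) f c g) (k : Fin n) :
    Tendsto (fun K : ℕ => ∫ z, psS n f c g K k z * rd K (mcl n f c g z) ∂(γN (n + 1))) atTop
      (𝓝 (∫ z, psi (n + 1) f c g (ext z) k * clip (cM f c g (ext z) (n + 1)) ∂(γN (n + 1)))) := by
  obtain ⟨C, hC⟩ := h.gb k
  have hs := cs_pos h k
  have hC0 : 0 ≤ C := (abs_nonneg _).trans (hC 0)
  have hev : ∀ᶠ K : ℕ in atTop, (1 / 2 : ℝ) ≤ tn K :=
    tendsto_tn.eventually (eventually_ge_nhds (by norm_num))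
  have hev2 : ∀ᶠ K : ℕ in atTop, cs (n + 1) f c g k / 2 ≤ aS n f c g K k :=
    (tendsto_aS h k).eventually (eventually_ge_nhds (by linarith))
  have hcX : ∀ k, Measurable (fun z : Fin (n + 1) → ℝ => cX f c (ext z) k) :=
    cX_meas (fun j => (h.fs j).smooth.continuous)
  refine tendsto_integral_filter_of_dominated_convergence
    (fun z => (C + 1) * |z k.castSucc| / (cs (n + 1) f c g k / 2 * (1 / 2))) ?_ ?_ ?_ ?_
  · refine Filter.Eventually.of_forall fun K => ?_
    have h1 : Measurable (psS n f c g K k) := by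
      refine Measurable.div_const (Measurable.mul ?_ ?_) _
      · exact (gS_meas h K k).comp (hcX k)
      · exact (tS_meas K).comp (measurable_pi_apply _)
    exact (h1.mul ((rd_meas K).comp
      (clip_cont.comp (cM_cont h _)).measurable)).aestronglyMeasurable
  · filter_upwards [hev, hev2, eventually_ge_atTop 1] with K hK hK2 hK1
    refine Filter.Eventually.of_forall fun z => ?_
    rw [norm_mul, Real.norm_eq_abs, Real.norm_eq_abs]
    have h1 : |rd K (mcl n f c g z)| ≤ 1 := (abs_rd_le _ _).trans (clip_le _)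
    have h2 : |psS n f c g K k z| ≤
        (C + 1) * |z k.castSucc| / (cs (n + 1) f c g k / 2 * (1 / 2)) := by
      unfold psS psG
      have ht : 0 < tn K := by linarith
      have ha : 0 < aS n f c g K k := by linarith
      rw [abs_div, abs_mul, abs_of_pos (mul_pos ha ht)]
      have h3 := gS_abs_le hK1 k (hC (cX f c (ext z) k))
      have h4 := abs_tS_le K (z k.castSucc)
      gcongr
    calc _ ≤ |psS n f c g K k z| * 1 := mul_le_mul_of_nonneg_left h1 (abs_nonneg _)
      _ ≤ _ := by rw [mul_one]; exact h2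
  · have h1 : Integrable (fun z : Fin (n + 1) → ℝ => ext z k) (γN (n + 1)) :=
      (ext_memLp (N := n + 1) (k : ℕ)).integrable (by norm_num)
    have h2 := (h1.abs.const_mul (C + 1)).div_const (cs (n + 1) f c g k / 2 * (1 / 2))
    refine h2.congr (Filter.Eventually.of_forall fun z => ?_)
    change (C + 1) * |ext z k| / _ = _
    rw [ext_castSucc]
  · refine Filter.Eventually.of_forall fun z => ?_
    refine Tendsto.mul ?_ (tendsto_rd _)
    unfold psS psG psi cv
    rw [ext_castSucc]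
    have h1 := (tendsto_gS (g := g) k (cX f c (ext z) k)).mul (tendsto_tS (z k.castSucc))
    have h2 := (tendsto_aS h k).mul tendsto_tn
    rw [mul_one] at h2
    exact h1.div h2 hs.ne'

lemma tendsto_zm (h : Ctl (n + 1) f c g) (k : Fin n) :
    Tendsto (fun K : ℕ => ∫ z, z k.succ * rd K (mcl n f c g z) ∂(γN (n + 1))) atTop
      (𝓝 (∫ z, z k.succ * mcl n f c g z ∂(γN (n + 1)))) := by
  refine tendsto_integral_filter_of_dominated_convergence (fun z => |z k.succ|) ?_ ?_ ?_ ?_
  · refine Filter.Eventually.of_forall fun K => ?_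
    exact ((measurable_pi_apply _).mul ((rd_meas K).comp
      (clip_cont.comp (cM_cont h _)).measurable)).aestronglyMeasurable
  · refine Filter.Eventually.of_forall fun K => Filter.Eventually.of_forall fun z => ?_
    rw [norm_mul, Real.norm_eq_abs, Real.norm_eq_abs]
    have h1 : |rd K (mcl n f c g z)| ≤ 1 := (abs_rd_le _ _).trans (clip_le _)
    calc _ ≤ |z k.succ| * 1 := mul_le_mul_of_nonneg_left h1 (abs_nonneg _)
      _ = _ := mul_one _
  · have h1 : Integrable (fun z : Fin (n + 1) → ℝ => ext z (k + 1)) (γN (n + 1)) :=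
      (ext_memLp (N := n + 1) (k + 1)).integrable (by norm_num)
    refine h1.abs.congr (Filter.Eventually.of_forall fun z => ?_)
    change |ext z (k + 1)| = _
    rw [ext_succ]
  · exact Filter.Eventually.of_forall fun z => (tendsto_rd _).const_mul _

/-- **Theorem C for schemes with finitely many values.** -/
theorem sim_value (hC : ThmC) {P : ℝ} (hP : Tendsto Gap.groundValue atTop (𝓝 P)) {ε : ℝ}
    (hε : 0 < ε) : ∃ (n : ℕ) (ψ : Fin n → (Fin (n + 1) → ℝ) → ℝ) (m : (Fin (n + 1) → ℝ) → ℝ),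
      1 ≤ n ∧ SScheme n ψ m ∧ P - ε ≤ sval n ψ m := by
  obtain ⟨n, f, c, g, hn, h, h1⟩ := clip_value hC hP (half_pos hε)
  have hev : ∀ᶠ K : ℕ in atTop, tn K ≠ 0 :=
    tendsto_tn.eventually_ne (by norm_num)
  have hev2 : ∀ᶠ K : ℕ in atTop, ∀ k : Fin n, aS n f c g K k ≠ 0 := by
    rw [eventually_all]
    exact fun k => (tendsto_aS h k).eventually_ne (cs_pos h k).ne'
  have hlim : Tendsto (fun K : ℕ => sval n (psS n f c g K) (fun z => rd K (mcl n f c g z))) atTop
      (𝓝 (∑ k : Fin n,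
        (∫ z, psi (n + 1) f c g (ext z) k * clip (cM f c g (ext z) (n + 1)) ∂(γN (n + 1))) *
        (∫ z, z k.succ * mcl n f c g z ∂(γN (n + 1))))) :=
    tendsto_finsetSum _ fun k _ => (tendsto_psS h k).mul (tendsto_zm h k)
  have he : ∑ k : Fin n,
        (∫ z, psi (n + 1) f c g (ext z) k * clip (cM f c g (ext z) (n + 1)) ∂(γN (n + 1))) *
        (∫ z, z k.succ * mcl n f c g z ∂(γN (n + 1))) = ∑ k ∈ Finset.range n,
        (∫ G, psi (n + 1) f c g (ext G) k * clip (cM f c g (ext G) (n + 1)) ∂(γN (n + 1))) *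
        (∫ G, ext G (k + 1) * clip (cM f c g (ext G) (n + 1)) ∂(γN (n + 1))) := by
    rw [← Fin.sum_univ_eq_sum_range fun k =>
        (∫ G, psi (n + 1) f c g (ext G) k * clip (cM f c g (ext G) (n + 1)) ∂(γN (n + 1))) *
        (∫ G, ext G (k + 1) * clip (cM f c g (ext G) (n + 1)) ∂(γN (n + 1)))]
    refine Finset.sum_congr rfl fun k _ => ?_
    simp only [ext_succ]
    rfl
  rw [he] at hlim
  have hlt : P - ε < ∑ k ∈ Finset.range n,
        (∫ G, psi (n + 1) f c g (ext G) k * clip (cM f c g (ext G) (n + 1)) ∂(γN (n + 1))) *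
        (∫ G, ext G (k + 1) * clip (cM f c g (ext G) (n + 1)) ∂(γN (n + 1))) := by linarith
  obtain ⟨K, h2, h3, h4, h5⟩ := (hev.and (hev2.and ((eventually_ge_atTop 1).and
    (hlim.eventually (lt_mem_nhds hlt))))).exists
  exact ⟨n, _, _, hn, psS_scheme h h2 h3, h5.le⟩

/-! ### Gauge-fixed form -/

/-- replace the label by its absolute value -/
noncomputable def absz (z : Fin (n + 1) → ℝ) : Fin (n + 1) → ℝ := Function.update z 0 |z 0|

lemma gauss_pi_neg (n : ℕ) : (γN n).map (fun z => -z) = γN n := by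
  have h := measurePreserving_pi (fun _ : Fin n => gaussianReal 0 1)
    (fun _ : Fin n => gaussianReal 0 1) (f := fun _ x => -x) (fun _ => by
      refine ⟨measurable_neg, ?_⟩
      have := gaussianReal_map_neg (μ := 0) (v := 1)
      rw [neg_zero] at this
      exact this)
  exact h.map_eq

lemma int_gauge {F : (Fin (n + 1) → ℝ) → ℝ} (hF : ∀ z, F (-z) = F z) :
    ∫ z, F (absz z) ∂(γN (n + 1)) = ∫ z, F z ∂(γN (n + 1)) := by
  have hmp := measurePreserving_piFinSuccAbove (α := fun _ : Fin (n + 1) => ℝ)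
    (fun _ => gaussianReal 0 1) 0
  set e := MeasurableEquiv.piFinSuccAbove (fun _ : Fin (n + 1) => ℝ) 0 with he
  have hsk : MeasurePreserving (fun p : ℝ × (Fin n → ℝ) => (id p.1,
      (fun (a : ℝ) (y : Fin n → ℝ) => if 0 ≤ a then y else -y) p.1 p.2))
      ((gaussianReal 0 1).prod (γN n)) ((gaussianReal 0 1).prod (γN n)) := by
    refine MeasurePreserving.skew_product (μc := γN n) (μd := γN n)
      (g := fun (a : ℝ) (y : Fin n → ℝ) => if 0 ≤ a then y else -y)
      (MeasurePreserving.id (gaussianReal 0 1)) ?_ ?_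
    · refine Measurable.ite ?_ measurable_snd measurable_snd.neg
      exact measurableSet_le measurable_const measurable_fst
    · refine Filter.Eventually.of_forall fun a => ?_
      by_cases ha : 0 ≤ a
      · simp only [if_pos ha]
        exact Measure.map_id
      · simp only [if_neg ha]
        exact gauss_pi_neg n
  have h1 : ∫ z, F (absz z) ∂(γN (n + 1)) =
      ∫ p, F (e.symm (id p.1, (fun (a : ℝ) (y : Fin n → ℝ) => if 0 ≤ a then y else -y) p.1 p.2))
        ∂((gaussianReal 0 1).prod (γN n)) := by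
    rw [← hmp.integral_comp' (f := e)]
    refine integral_congr_ae (Filter.Eventually.of_forall fun z => ?_)
    have e1 : (e z).1 = z 0 := rfl
    have e2 : e.symm (z 0, (e z).2) = z := by rw [← e1]; exact e.symm_apply_apply z
    change F (absz z) = F (e.symm (z 0, if 0 ≤ z 0 then (e z).2 else -(e z).2))
    by_cases hz : 0 ≤ z 0
    · rw [if_pos hz, e2]
      congr 1
      unfold absz
      rw [abs_of_nonneg hz, Function.update_eq_self]
    · rw [if_neg hz, ← hF (absz z)]
      congr 1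
      funext j
      have e3 : ∀ (b : ℝ) (y : Fin n → ℝ), e.symm (b, y) = Fin.cons b y := by
        intro b y
        funext i
        refine Fin.cases rfl (fun i => rfl) i
      rw [e3]
      refine Fin.cases ?_ (fun i => ?_) j
      · change -(absz z 0) = z 0
        unfold absz
        rw [Function.update_self, abs_of_neg (not_le.1 hz), neg_neg]
      · change -(absz z i.succ) = -(z i.succ)
        unfold absz
        rw [Function.update_of_ne (Fin.succ_ne_zero i)]
  have h2 : ∫ z, F z ∂(γN (n + 1)) = ∫ p, F (e.symm p) ∂((gaussianReal 0 1).prod (γN n)) := by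
    rw [← hmp.integral_comp' (f := e)]
    refine integral_congr_ae (Filter.Eventually.of_forall fun z => ?_)
    change F z = F (e.symm (e z))
    rw [e.symm_apply_apply]
  rw [h1, h2]
  have hinv : Function.Involutive (fun p : ℝ × (Fin n → ℝ) => (id p.1,
      (fun (a : ℝ) (y : Fin n → ℝ) => if 0 ≤ a then y else -y) p.1 p.2)) := by
    rintro ⟨a, y⟩
    by_cases ha : 0 ≤ a
    · simp [ha]
    · simp [ha]
  have hme : MeasurableEmbedding (fun p : ℝ × (Fin n → ℝ) => (id p.1,
      (fun (a : ℝ) (y : Fin n → ℝ) => if 0 ≤ a then y else -y) p.1 p.2)) := by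
    exact (MeasurableEquiv.ofInvolutive _ hinv hsk.measurable).measurableEmbedding
  exact hsk.integral_comp hme (fun p => F (e.symm p))

/-- the gauge-fixed scheme: the functions depend on `z 0` only through `|z 0|` -/
structure GScheme (n : ℕ) (ψ : Fin n → (Fin (n + 1) → ℝ) → ℝ) (m : (Fin (n + 1) → ℝ) → ℝ) :
    Prop where
  meas : ∀ k, Measurable (ψ k)
  fin : ∀ k, (range (ψ k)).Finite
  dep : ∀ (k : Fin n) z z', (∀ j : Fin (n + 1), (j : ℕ) ≤ (k : ℕ) → z j = z' j) →
    ψ k z = ψ k z'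
  gau : ∀ k z, ψ k (absz z) = ψ k z
  orth : ∀ j k, ∫ z, ψ j z * ψ k z ∂(γN (n + 1)) = if j = k then 1 else 0
  mmeas : Measurable m
  mfin : (range m).Finite
  mbd : ∀ z, |m z| ≤ 1
  mgau : ∀ z, m (absz z) = m z

lemma absz_absz (z : Fin (n + 1) → ℝ) : absz (absz z) = absz z := by
  unfold absz
  rw [Function.update_self, abs_abs, Function.update_idem]

lemma absz_meas : Measurable (absz (n := n)) := by
  unfold absz
  refine measurable_pi_lambda _ fun j => ?_
  by_cases hj : j = 0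
  · subst hj
    simp only [Function.update_self]
    fun_prop
  · simp only [Function.update_of_ne hj]
    exact measurable_pi_apply j

lemma SScheme.gauge {ψ : Fin n → (Fin (n + 1) → ℝ) → ℝ} {m : (Fin (n + 1) → ℝ) → ℝ}
    (h : SScheme n ψ m) : GScheme n (fun k z => ψ k (absz z)) (fun z => m (absz z)) ∧
      sval n (fun k z => ψ k (absz z)) (fun z => m (absz z)) = sval n ψ m := by
  refine ⟨⟨?_, ?_, ?_, ?_, ?_, ?_, ?_, ?_, ?_⟩, ?_⟩
  · exact fun k => (h.meas k).comp absz_meas
  · intro k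
    refine (h.fin k).subset ?_
    rintro _ ⟨z, rfl⟩
    exact ⟨_, rfl⟩
  · intro k z z' hz
    refine h.dep k _ _ fun j hj => ?_
    unfold absz
    by_cases hj0 : j = 0
    · subst hj0
      rw [Function.update_self, Function.update_self, hz 0 hj]
    · rw [Function.update_of_ne hj0, Function.update_of_ne hj0, hz j hj]
  · intro k z
    rw [absz_absz]
  · intro j k
    rw [← h.orth j k]
    exact int_gauge (F := fun z => ψ j z * ψ k z) fun z => by
      rw [h.odd, h.odd, neg_mul_neg]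
  · exact h.mmeas.comp absz_meas
  · refine h.mfin.subset ?_
    rintro _ ⟨z, rfl⟩
    exact ⟨_, rfl⟩
  · exact fun z => h.mbd _
  · intro z
    rw [absz_absz]
  · unfold sval
    refine Finset.sum_congr rfl fun k _ => ?_
    congr 1
    · exact int_gauge (F := fun z => ψ k z * m z) fun z => by
        rw [h.odd, h.modd, neg_mul_neg]
    · rw [← int_gauge (F := fun z => z k.succ * m z) fun z => by
        rw [h.modd, Pi.neg_apply, neg_mul_neg]]
      refine integral_congr_ae (Filter.Eventually.of_forall fun z => ?_)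
      change z k.succ * m (absz z) = absz z k.succ * m (absz z)
      unfold absz
      rw [Function.update_of_ne (Fin.succ_ne_zero k)]

/-- **Theorem C, gauge-fixed form.** -/
theorem gau_value (hC : ThmC) {P : ℝ} (hP : Tendsto Gap.groundValue atTop (𝓝 P)) {ε : ℝ}
    (hε : 0 < ε) : ∃ (n : ℕ) (ψ : Fin n → (Fin (n + 1) → ℝ) → ℝ) (m : (Fin (n + 1) → ℝ) → ℝ),
      1 ≤ n ∧ GScheme n ψ m ∧ P - ε ≤ sval n ψ m := by
  obtain ⟨n, ψ, m, hn, h, h1⟩ := sim_value hC hP hε
  obtain ⟨h2, h3⟩ := h.gauge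
  exact ⟨n, _, _, hn, h2, h3 ▸ h1⟩

end Vale.Agent.P367.Cl
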