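import Vale.Agent.P367.Cl.FDefs
import Vale.Agent.P367.Cl.EDefs

/-!
# P367, classical half, Euler scheme: definitions for one step
-/

open MeasureTheory ProbabilityTheory Filter Topology Set

namespace Vale.Agent.P367.Cl

open Vale.Agent.P157.Par
open Vale.Agent.P146.Gap
open Vale.Agent.P146.Pw2

/-- One step of the recursion, with uniform regularity. -/
structure St (B m δ : ℝ) (H H' : ℝ → ℝ) : Prop where
  B1 : 1 ≤ B
  m0 : 0 < m
  m1 : m ≤ 1
  d0 : 0 ≤ δ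
  d1 : δ ≤ 1
  adm : Adm B H
  adm' : Adm B H'
  eq : H = gstep m δ H'
  df0 : ∀ x, |H' x - H x| ≤ B * δ
  df1 : ∀ x, |iteratedDeriv 1 H' x - iteratedDeriv 1 H x| ≤ B * δ

/-- The Euler step. -/
noncomputable def eX (m δ : ℝ) (H : ℝ → ℝ) (x z : ℝ) : ℝ :=
  x + δ * (m * iteratedDeriv 1 H x) + √δ * z

/-- The density of the tilted step with respect to the Euler step. -/
noncomputable def ell (m δ : ℝ) (H H' : ℝ → ℝ) (x z : ℝ) : ℝ :=
  Real.exp (m * (H' (eX m δ H x z) - H x) - √δ * (m * iteratedDeriv 1 H x) * z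
    - δ * (m * iteratedDeriv 1 H x) ^ 2 / 2)

/-- The remainder of the martingale increment. -/
noncomputable def rh (m δ : ℝ) (H H' : ℝ → ℝ) (x z : ℝ) : ℝ :=
  iteratedDeriv 1 H' (eX m δ H x z) - iteratedDeriv 1 H x - √δ * iteratedDeriv 2 H x * z

/-- The tilted chain. -/
noncomputable def tE (μ δ : ℕ → ℝ) (H : ℕ → ℝ → ℝ) : ℕ → (ℝ → ℝ) → ℝ
  | 0, ψ => ψ 0
  | k + 1, ψ => tE μ δ H k (tlt (μ k) (δ k) (H (k + 1)) ψ)

/-- The drift of the Euler chain. -/
noncomputable def eF (μ δ : ℕ → ℝ) (H : ℕ → ℝ → ℝ) (k : ℕ) (x : ℝ) : ℝ :=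
  δ k * (μ k * iteratedDeriv 1 (H k) x)

/-- The function before the step `k`, `J` steps per block. -/
noncomputable def eH (n : ℕ) (m r : ℕ → ℝ) (J k : ℕ) : ℝ → ℝ :=
  if k < n * J then Gb n m r (k / J) ((k % J : ℕ) * ((r (k / J + 1) - r (k / J)) / J)) else lc

/-- The exponent of the step `k`. -/
noncomputable def eμ (m : ℕ → ℝ) (J k : ℕ) : ℝ := m (k / J + 1)

/-- The variance of the step `k`. -/
noncomputable def eδ (n : ℕ) (r : ℕ → ℝ) (J k : ℕ) : ℝ :=
  if k < n * J then (r (k / J + 1) - r (k / J)) / J else 0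

end Vale.Agent.P367.Cl
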