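import Vale.Agent.P146.Pw2.T1Nest2
import Vale.Agent.P146.Pw2.T1Stat
import Vale.Agent.P146.Pw2.Defs

/-!
# P367, classical half: full replica symmetry breaking of SK at every `β > 1`

Definitions for the certificate on a general block of the Parisi recursion.
-/

open MeasureTheory ProbabilityTheory Filter Topology Set

namespace Vale.Agent.P367.Cl

open Vale.Agent.P157.Par
open Vale.Agent.P146.Gap
open Vale.Agent.P146.Pw2

/-- Forward densities: at the time `τ` of a block of exponent `g` the chain has the density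
`exp (L x - x² / (2 τ) + g F x)` up to a constant, `F` the function of the recursion at that time.
With `K = 1/τ - L''`: `K ≥ 0`, `K' ≤ 0` and `K / F''` nondecreasing on the half line. -/
structure Fw (τ : ℝ) (L F : ℝ → ℝ) : Prop where
  tau : 0 < τ
  smb : SmB L
  even : ∀ x, L (-x) = L x
  K0 : ∀ x, 0 ≤ 1 / τ - iteratedDeriv 2 L x
  K1 : ∀ x, 0 ≤ x → 0 ≤ iteratedDeriv 3 L x
  R1 : ∀ x, 0 ≤ x → 0 ≤ -iteratedDeriv 3 L x * iteratedDeriv 2 F x
    - (1 / τ - iteratedDeriv 2 L x) * iteratedDeriv 3 F x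

/-- The heat flow of the density: `exp (L_s x - x² / (2 (τ + s)))` is a multiple of the Gaussian
average (variance `s`) of `exp (L x - x² / (2 τ))`. -/
noncomputable def Lh (τ : ℝ) (L : ℝ → ℝ) (s x : ℝ) : ℝ :=
  gstep 1 (τ * s / (τ + s)) L (τ / (τ + s) * x)

/-- The density at the time `τ`, up to a constant. -/
noncomputable def wgt (τ g : ℝ) (L F : ℝ → ℝ) (x : ℝ) : ℝ :=
  Real.exp (L x - x ^ 2 / (2 * τ) + g * F x)

/-- The integrand of `M''`. -/
noncomputable def m2i (g : ℝ) (F : ℝ → ℝ) (x : ℝ) : ℝ :=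
  iteratedDeriv 4 F x ^ 2 - 12 * g * iteratedDeriv 2 F x * iteratedDeriv 3 F x ^ 2
    + 6 * g ^ 2 * iteratedDeriv 2 F x ^ 4

/-- The function of the recursion at the time `r l + t` of the block `(l, l + 1)`. -/
noncomputable def Gb (n : ℕ) (m r : ℕ → ℝ) (l : ℕ) (t : ℝ) : ℝ → ℝ :=
  gstep (m (l + 1)) (r (l + 1) - r l - t) (Fl n m r (l + 1))

/-- The average at the time `r l + t` of the block `(l, l + 1)`. -/
noncomputable def Bt (n : ℕ) (m r : ℕ → ℝ) (l : ℕ) (t : ℝ) (ψ : ℝ → ℝ) : ℝ :=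
  Ee n m r l (tlt (m (l + 1)) t (Gb n m r l t) ψ)

/-- `R = E G'²`. -/
noncomputable def Rb (n : ℕ) (m r : ℕ → ℝ) (l : ℕ) (t : ℝ) : ℝ :=
  Bt n m r l t (fun x => iteratedDeriv 1 (Gb n m r l t) x ^ 2)

/-- `A = E G''`. -/
noncomputable def Ab (n : ℕ) (m r : ℕ → ℝ) (l : ℕ) (t : ℝ) : ℝ :=
  Bt n m r l t (iteratedDeriv 2 (Gb n m r l t))

/-- `M = E G''²`. -/
noncomputable def Mb (n : ℕ) (m r : ℕ → ℝ) (l : ℕ) (t : ℝ) : ℝ :=
  Bt n m r l t (fun x => iteratedDeriv 2 (Gb n m r l t) x ^ 2)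

/-- `M'`. -/
noncomputable def M1b (n : ℕ) (m r : ℕ → ℝ) (l : ℕ) (t : ℝ) : ℝ :=
  Bt n m r l t (fun x => iteratedDeriv 3 (Gb n m r l t) x ^ 2
    - 2 * m (l + 1) * iteratedDeriv 2 (Gb n m r l t) x ^ 3)

/-- `M''`. -/
noncomputable def M2b (n : ℕ) (m r : ℕ → ℝ) (l : ℕ) (t : ℝ) : ℝ :=
  Bt n m r l t (m2i (m (l + 1)) (Gb n m r l t))

/-- The logarithm of the density (without its Gaussian part) at the level `l`, for the exponent
`m l` (meaningful for `0 < r l`). -/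
noncomputable def Ld (n : ℕ) (m r : ℕ → ℝ) : ℕ → ℝ → ℝ
  | 0 => fun _ => 0
  | l + 1 => if r l ≤ 0 then fun _ => 0 else
      Lh (r l) (fun x => Ld n m r l x - (m (l + 1) - m l) * Fl n m r l x) (r (l + 1) - r l)

/-- The same for the exponent `m (l + 1)` of the next block. -/
noncomputable def Lu (n : ℕ) (m r : ℕ → ℝ) (l : ℕ) (x : ℝ) : ℝ :=
  Ld n m r l x - (m (l + 1) - m l) * Fl n m r l x

end Vale.Agent.P367.Cl
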