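import Vale.Agent.P367.Cl.FDefs

/-!
# P367, classical half: first facts about the class `Fw`
-/

open MeasureTheory ProbabilityTheory Filter Topology Set

namespace Vale.Agent.P367.Cl

open Vale.Agent.P157.Par
open Vale.Agent.P146.Gap
open Vale.Agent.P146.Pw2

section FWD

variable {g C τ v δ : ℝ} {L F : ℝ → ℝ}

lemma fwd_hd {H : ℝ → ℝ} (h : SmB H) (j : ℕ) (x : ℝ) :
    HasDerivAt (iteratedDeriv j H) (iteratedDeriv (j + 1) H x) x := cint_hasDerivAt h.smooth j x

lemma fwd_parity {H : ℝ → ℝ} (he : ∀ x, H (-x) = H x) (j : ℕ) (x : ℝ) :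
    iteratedDeriv j H (-x) = (-1) ^ j * iteratedDeriv j H x := by
  have h1 := iteratedDeriv_comp_neg j H x
  have h2 : (fun x => H (-x)) = H := funext he
  rw [h2, smul_eq_mul] at h1
  rw [h1, ← mul_assoc, ← mul_pow]
  norm_num

lemma fwd_odd1 {H : ℝ → ℝ} (he : ∀ x, H (-x) = H x) : iteratedDeriv 1 H 0 = 0 := by
  have h1 := fwd_parity he 1 0
  rw [neg_zero] at h1
  linarith

lemma fwd_odd3 {H : ℝ → ℝ} (he : ∀ x, H (-x) = H x) : iteratedDeriv 3 H 0 = 0 := by
  have h1 := fwd_parity he 3 0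
  rw [neg_zero] at h1
  linarith

lemma fwd_sub {A B : ℝ → ℝ} (hA : SmB A) (hB : SmB B) (δ : ℝ) (j : ℕ) (x : ℝ) :
    iteratedDeriv j (fun x => A x - δ * B x) x =
      iteratedDeriv j A x - δ * iteratedDeriv j B x := by
  have h : ∀ j : ℕ, iteratedDeriv j (fun x => A x - δ * B x) =
      fun x => iteratedDeriv j A x - δ * iteratedDeriv j B x := by
    intro j
    induction j with
    | zero => funext x; simp only [iteratedDeriv_zero]
    | succ j ih =>
      funext x
      rw [iteratedDeriv_succ, ih]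
      exact ((fwd_hd hA j x).sub ((fwd_hd hB j x).const_mul δ)).deriv
  rw [h j]

lemma fwd_smb_sub {A B : ℝ → ℝ} (hA : SmB A) (hB : SmB B) (δ : ℝ) :
    SmB (fun x => A x - δ * B x) := by
  refine ⟨hA.smooth.sub (contDiff_const.mul hB.smooth), fun j => ?_⟩
  obtain ⟨a, ha⟩ := hA.bd j
  obtain ⟨b, hb⟩ := hB.bd j
  refine ⟨a + |δ| * b, fun x => ?_⟩
  rw [fwd_sub hA hB]
  refine (abs_sub _ _).trans (add_le_add (ha x) ?_)
  rw [abs_mul]
  exact mul_le_mul_of_nonneg_left (hb x) (abs_nonneg _)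

theorem Fw.level (h : Fw τ L F) (hF : Good g C F) (hg : 0 < g) (hδ : 0 ≤ δ) :
    Fw τ (fun x => L x - δ * F x) F := by
  refine ⟨h.tau, fwd_smb_sub h.smb hF.adm.smb δ, fun x => ?_, fun x => ?_, fun x hx => ?_,
    fun x hx => ?_⟩
  · simp only [h.even, hF.adm.even]
  · rw [fwd_sub h.smb hF.adm.smb]
    have h1 := h.K0 x
    have h2 := mul_nonneg hδ (hF.adm.pos x).le
    linarith
  · rw [fwd_sub h.smb hF.adm.smb]
    have h1 := h.K1 x hx
    have h2 := mul_nonneg hδ (neg_nonneg.2 (hF.d3_nonpos hg hx))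
    linarith
  · rw [fwd_sub h.smb hF.adm.smb, fwd_sub h.smb hF.adm.smb]
    have h1 := h.R1 x hx
    nlinarith [h1]

theorem fw_base (hF : Good g C F) (hg : 0 < g) (hτ : 0 < τ) : Fw τ (fun _ => 0) F := by
  have h0 : ∀ (j : ℕ) (x : ℝ), iteratedDeriv j (fun _ : ℝ => (0 : ℝ)) x = 0 := by
    intro j x
    rw [iteratedDeriv_const]
    split <;> rfl
  refine ⟨hτ, ⟨contDiff_const, fun j => ⟨0, fun x => ?_⟩⟩, fun x => rfl, fun x => ?_,
    fun x hx => ?_, fun x hx => ?_⟩
  · rw [h0, abs_zero]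
  · rw [h0, sub_zero]
    positivity
  · rw [h0]
  · rw [h0, h0]
    have h1 := hF.d3_nonpos hg hx
    have h2 : 0 ≤ 1 / τ := by positivity
    nlinarith [mul_nonneg h2 (neg_nonneg.2 h1)]

/-- `W ≥ 0` on the half line -/
theorem Fw.W_nonneg (h : Fw τ L F) {x : ℝ} (hx : 0 ≤ x) : 0 ≤ x / τ - iteratedDeriv 1 L x := by
  have hd : ∀ y, HasDerivAt (fun y => y / τ - iteratedDeriv 1 L y)
      (1 / τ - iteratedDeriv 2 L y) y := fun y =>
    ((hasDerivAt_id y).div_const τ).sub (fwd_hd h.smb 1 y)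
  have hmono : Monotone (fun y => y / τ - iteratedDeriv 1 L y) :=
    monotone_of_deriv_nonneg (fun y => (hd y).differentiableAt) fun y => by
      rw [(hd y).deriv]
      exact h.K0 y
  have h1 := hmono hx
  simp only [zero_div, fwd_odd1 h.even, sub_zero] at h1
  exact h1

/-- `K / F''` is monotone on the half line -/
lemma Fw.ratio_mono (h : Fw τ L F) (hF : Adm C F) :
    MonotoneOn (fun y => (1 / τ - iteratedDeriv 2 L y) / iteratedDeriv 2 F y) (Ici 0) := by
  have hd : ∀ y, HasDerivAt (fun y => (1 / τ - iteratedDeriv 2 L y) / iteratedDeriv 2 F y)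
      ((-iteratedDeriv 3 L y * iteratedDeriv 2 F y
        - (1 / τ - iteratedDeriv 2 L y) * iteratedDeriv 3 F y) / iteratedDeriv 2 F y ^ 2) y :=
    fun y => ((fwd_hd h.smb 2 y).const_sub (1 / τ)).div (fwd_hd hF.smb 2 y) (hF.pos y).ne'
  refine monotoneOn_of_deriv_nonneg (convex_Ici 0)
    (fun y _ => (hd y).continuousAt.continuousWithinAt)
    (fun y _ => (hd y).differentiableAt.differentiableWithinAt) fun y hy => ?_
  rw [interior_Ici] at hy
  rw [(hd y).deriv]
  exact div_nonneg (h.R1 y (le_of_lt hy)) (sq_nonneg _)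

/-- `F'' W ≤ K F'` on the half line (`K / F''` is nondecreasing) -/
theorem Fw.AW_le (h : Fw τ L F) (hF : Adm C F) {x : ℝ} (hx : 0 ≤ x) :
    iteratedDeriv 2 F x * (x / τ - iteratedDeriv 1 L x) ≤
      (1 / τ - iteratedDeriv 2 L x) * iteratedDeriv 1 F x := by
  have hr := h.ratio_mono hF
  set R : ℝ := (1 / τ - iteratedDeriv 2 L x) / iteratedDeriv 2 F x with hRd
  have hd : ∀ y, HasDerivAt (fun y => R * iteratedDeriv 1 F y - (y / τ - iteratedDeriv 1 L y))
      (R * iteratedDeriv 2 F y - (1 / τ - iteratedDeriv 2 L y)) y := fun y =>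
    ((fwd_hd hF.smb 1 y).const_mul R).sub
      (((hasDerivAt_id y).div_const τ).sub (fwd_hd h.smb 1 y))
  have hmono : MonotoneOn (fun y => R * iteratedDeriv 1 F y - (y / τ - iteratedDeriv 1 L y))
      (Icc 0 x) := by
    refine monotoneOn_of_deriv_nonneg (convex_Icc 0 x)
      (fun y _ => (hd y).continuousAt.continuousWithinAt)
      (fun y _ => (hd y).differentiableAt.differentiableWithinAt) fun y hy => ?_
    rw [interior_Icc] at hy
    rw [(hd y).deriv]
    have h1 : (1 / τ - iteratedDeriv 2 L y) / iteratedDeriv 2 F y ≤ R :=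
      hr (mem_Ici.2 hy.1.le) (mem_Ici.2 hx) hy.2.le
    rw [div_le_iff₀ (hF.pos y)] at h1
    linarith
  have h1 := hmono (left_mem_Icc.2 hx) (right_mem_Icc.2 hx) hx
  simp only [fwd_odd1 hF.even, fwd_odd1 h.even, zero_div, mul_zero, sub_zero] at h1
  have h2 : (x / τ - iteratedDeriv 1 L x) ≤ R * iteratedDeriv 1 F x := by linarith
  have h3 := mul_le_mul_of_nonneg_left h2 (hF.pos x).le
  have h4 : iteratedDeriv 2 F x * (R * iteratedDeriv 1 F x) =
      (1 / τ - iteratedDeriv 2 L x) * iteratedDeriv 1 F x := by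
    rw [hRd]
    have := (hF.pos x).ne'
    field_simp
  linarith

end FWD

end Vale.Agent.P367.Cl
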