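import Vale.Agent.P367.Cl.FDefs
import Vale.Agent.P146.Pw2.T1Split

/-!
# P367, classical half, section SUM: full replica symmetry breaking from the other sections

`SumHyp b` collects the statements of the sections FRep, FBlk, FVar, FReal that are used.
-/

open MeasureTheory ProbabilityTheory Filter Topology Set

namespace Vale.Agent.P367.Cl

open Vale.Agent.P157.Par
open Vale.Agent.P146.Gap
open Vale.Agent.P146.Pw2

/-- The statements of the other sections. -/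
structure SumHyp (b : ℝ) : Prop where
  m2 : ∀ (n l : ℕ) (m r : ℕ → ℝ) (t : ℝ), Exponents n m → Path n r → r 0 = 0 → l < n →
    t ∈ Icc 0 (r (l + 1) - r l) → 0 < r l + t → 0 ≤ M2b n m r l t
  rd : ∀ (n l : ℕ) (m r : ℕ → ℝ) (t : ℝ), Exponents n m → Path n r → l < n →
    t ∈ Ioo 0 (r (l + 1) - r l) → HasDerivAt (Rb n m r l) (Mb n m r l t) t
  md : ∀ (n l : ℕ) (m r : ℕ → ℝ) (t : ℝ), Exponents n m → Path n r → l < n →
    t ∈ Ioo 0 (r (l + 1) - r l) → HasDerivAt (Mb n m r l) (M1b n m r l t) t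
  m1d : ∀ (n l : ℕ) (m r : ℕ → ℝ) (t : ℝ), Exponents n m → Path n r → l < n →
    t ∈ Ioo 0 (r (l + 1) - r l) → HasDerivAt (M1b n m r l) (M2b n m r l t) t
  rc : ∀ (n l : ℕ) (m r : ℕ → ℝ), Exponents n m → Path n r → l < n →
    ContinuousOn (Rb n m r l) (Icc 0 (r (l + 1) - r l))
  mc : ∀ (n l : ℕ) (m r : ℕ → ℝ), Exponents n m → Path n r → l < n →
    ContinuousOn (Mb n m r l) (Icc 0 (r (l + 1) - r l))
  r0 : ∀ (n l : ℕ) (m r : ℕ → ℝ), Exponents n m → Path n r → l < n →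
    Rb n m r l 0 = spR n m r l
  rv : ∀ (n l : ℕ) (m r : ℕ → ℝ), Exponents n m → Path n r → l < n →
    Rb n m r l (r (l + 1) - r l) = spR n m r (l + 1)
  m0 : ∀ (n l : ℕ) (m r : ℕ → ℝ), Exponents n m → Path n r → l < n →
    Mb n m r l 0 = Ml n m r l
  mv : ∀ (n l : ℕ) (m r : ℕ → ℝ), Exponents n m → Path n r → l < n →
    Mb n m r l (r (l + 1) - r l) = Ml n m r (l + 1)
  low : ∀ (n l : ℕ) (m r : ℕ → ℝ) (t : ℝ), Exponents n m → Path n r → l < n →
    t ∈ Icc 0 (r (l + 1) - r l) → -(2 * m (l + 1)) ≤ M1b n m r l t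
  bd : ∃ C : ℝ, 1 ≤ C ∧ ∀ (n : ℕ) (m r : ℕ → ℝ), Exponents n m → BPath b n r →
    ∀ l < n, ∀ t ∈ Icc 0 (r (l + 1) - r l), |M1b n m r l t| ≤ C
  up : ∃ C : ℝ, 1 ≤ C ∧ ∀ (n : ℕ) (r : ℕ → ℝ) (l : ℕ),
    IsMin b n (gm n) r → 1 ≤ l → l < n → ∀ t ∈ Icc 0 (r (l + 1) - r l),
      ∫ s in (0 : ℝ)..t, (Rb n (gm n) r l s - (r l + s) / b ^ 2) ≤ C / (n + 1) * t ^ 2
  down : ∃ C : ℝ, 1 ≤ C ∧ ∀ (n : ℕ) (r : ℕ → ℝ) (l : ℕ),
    IsMin b n (gm n) r → l < n → ∀ t ∈ Icc 0 (r (l + 1) - r l),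
      -(C / (n + 1) * (r (l + 1) - r l - t) ^ 2) ≤
        ∫ s in t..(r (l + 1) - r l), (Rb n (gm n) r l s - (r l + s) / b ^ 2)
  block : ∀ {C S : ℝ}, 1 ≤ C → 0 < S → ∃ C' : ℝ, 1 ≤ C' ∧
    ∀ (V d : ℝ) (f k k1 k2 : ℝ → ℝ), 0 < V → V ≤ S → 0 ≤ d → d ≤ 1 →
      ContinuousOn f (Icc 0 V) → ContinuousOn k (Icc 0 V) →
      (∀ t ∈ Ioo 0 V, HasDerivAt f (k t) t) → (∀ t ∈ Ioo 0 V, HasDerivAt k (k1 t) t) →
      (∀ t ∈ Ioo 0 V, HasDerivAt k1 (k2 t) t) → (∀ t ∈ Ioo 0 V, 0 ≤ k2 t) →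
      (∀ t ∈ Ioo 0 V, |k1 t| ≤ C) → f 0 = 0 → f V = 0 →
      (∀ t ∈ Icc 0 V, ∫ s in (0 : ℝ)..t, f s ≤ C * d * V ^ 2) →
      (∀ t ∈ Icc 0 V, -(C * d * V ^ 2) ≤ ∫ s in t..V, f s) →
      ∫ t in (0 : ℝ)..V, |k t| ≤ C' * √d * V
  first : ∀ {V d : ℝ} {f k k1 : ℝ → ℝ}, 0 < V → 0 ≤ d →
    ContinuousOn f (Icc 0 V) → ContinuousOn k (Icc 0 V) →
    (∀ t ∈ Ioo 0 V, HasDerivAt f (k t) t) → (∀ t ∈ Ioo 0 V, HasDerivAt k (k1 t) t) →
    (∀ t ∈ Ioo 0 V, -(2 * d) ≤ k1 t) → f 0 = 0 → f V = 0 →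
    ∀ t ∈ Icc 0 V, ∫ s in (0 : ℝ)..t, f s ≤ 2 * d * V ^ 3

/-- one block -/
theorem sum_block {b : ℝ} (hb : 1 < b) (H : SumHyp b) : ∃ C : ℝ, 1 ≤ C ∧ ∀ (n : ℕ) (r : ℕ → ℝ),
    IsMin b n (gm n) r → ∀ l < n, ∫ t in (0 : ℝ)..(r (l + 1) - r l),
      |Mb n (gm n) r l t - 1 / b ^ 2| ≤ C * √(1 / ((n : ℝ) + 1)) * (r (l + 1) - r l) := by
  have hb0 : 0 < b := by linarith
  have hb2 : 0 < b ^ 2 := by positivity
  obtain ⟨C1, hC1, h1⟩ := H.bd
  obtain ⟨C2, hC2, h2⟩ := H.up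
  obtain ⟨C3, hC3, h3⟩ := H.down
  obtain ⟨C, hCd⟩ : ∃ C, C = C1 + C2 + C3 + 2 * b ^ 2 := ⟨_, rfl⟩
  obtain ⟨C', hC', hblk⟩ := H.block (C := C) (S := b ^ 2) (by rw [hCd]; linarith) hb2
  refine ⟨C', hC', fun n r hr l hl => ?_⟩
  have hm := gm_exponents n
  have hBP := hr.1
  have hpath := hBP.2.1
  have hr0 := hBP.1
  have hfix := stat_fix hb0 hm hr.1 hr.2
  have hn0 : (0 : ℝ) < (n : ℝ) + 1 := by positivity
  have hrl : 0 ≤ r l := by
    have := gapn_path_le hpath (Nat.zero_le l) hl.le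
    rwa [hr0] at this
  have hrl1 : r (l + 1) ≤ b ^ 2 := (gapn_path_le hpath hl le_rfl).trans hBP.2.2
  rcases (hpath.2 l hl).eq_or_lt with heq | hlt
  · rw [← heq, sub_self, intervalIntegral.integral_same, mul_zero]
  obtain ⟨V, hV⟩ : ∃ V, V = r (l + 1) - r l := ⟨_, rfl⟩
  have hV0 : 0 < V := by rw [hV]; linarith
  have hVS : V ≤ b ^ 2 := by rw [hV]; linarith
  have hd0 : 0 ≤ 1 / ((n : ℝ) + 1) := by positivity
  have hd1 : 1 / ((n : ℝ) + 1) ≤ 1 := by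
    rw [div_le_one hn0]
    have : (0 : ℝ) ≤ n := Nat.cast_nonneg n
    linarith
  have hRc := H.rc n l (gm n) r hm hpath hl
  have hMc := H.mc n l (gm n) r hm hpath hl
  have hupper := fun t ht => h3 n r l hr hl t ht
  have hrd := fun t ht => H.rd n l (gm n) r t hm hpath hl ht
  have hmd := fun t ht => H.md n l (gm n) r t hm hpath hl ht
  have hm1d := fun t ht => H.m1d n l (gm n) r t hm hpath hl ht
  have hm2 := fun t ht => H.m2 n l (gm n) r t hm hpath hr0 hl ht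
  have hbd := h1 n (gm n) r hm hBP l hl
  have hlow := fun t ht => H.low n l (gm n) r t hm hpath hl ht
  have hf0' := H.r0 n l (gm n) r hm hpath hl
  have hfV' := H.rv n l (gm n) r hm hpath hl
  have hup := fun (h : 1 ≤ l) => h2 n r l hr h hl
  rw [← hV] at hRc hMc hupper hrd hmd hm1d hm2 hbd hlow hfV' hup ⊢
  have hfc : ContinuousOn (fun t => Rb n (gm n) r l t - (r l + t) / b ^ 2) (Icc 0 V) :=
    hRc.sub (by fun_prop)
  have hkc : ContinuousOn (fun t => Mb n (gm n) r l t - 1 / b ^ 2) (Icc 0 V) :=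
    hMc.sub continuousOn_const
  have hfd : ∀ t ∈ Ioo 0 V, HasDerivAt (fun t => Rb n (gm n) r l t - (r l + t) / b ^ 2)
      (Mb n (gm n) r l t - 1 / b ^ 2) t := by
    intro t ht
    have e1 : HasDerivAt (fun t : ℝ => (r l + t) / b ^ 2) (1 / b ^ 2) t :=
      ((hasDerivAt_id t).const_add (r l)).div_const _
    exact (hrd t ht).sub e1
  have hkd : ∀ t ∈ Ioo 0 V, HasDerivAt (fun t => Mb n (gm n) r l t - 1 / b ^ 2)
      (M1b n (gm n) r l t) t := fun t ht => (hmd t ht).sub_const _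
  have hf0 : Rb n (gm n) r l 0 - (r l + 0) / b ^ 2 = 0 := by
    rw [hf0', add_zero]
    have := hfix l hl.le
    rw [sub_eq_zero, eq_div_iff hb2.ne']
    linarith
  have hfV : Rb n (gm n) r l V - (r l + V) / b ^ 2 = 0 := by
    have e : r l + V = r (l + 1) := by rw [hV]; ring
    rw [hfV', e]
    have := hfix (l + 1) hl
    rw [sub_eq_zero, eq_div_iff hb2.ne']
    linarith
  have hb2' : 0 ≤ 2 * b ^ 2 := by positivity
  have hV2 : 0 ≤ V ^ 2 := sq_nonneg V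
  refine hblk V (1 / ((n : ℝ) + 1)) (fun t => Rb n (gm n) r l t - (r l + t) / b ^ 2)
    (fun t => Mb n (gm n) r l t - 1 / b ^ 2) (M1b n (gm n) r l) (M2b n (gm n) r l) hV0 hVS hd0 hd1
    hfc hkc hfd hkd hm1d (fun t ht => hm2 t ⟨ht.1.le, ht.2.le⟩ (by linarith [ht.1]))
    (fun t ht => (hbd t ⟨ht.1.le, ht.2.le⟩).trans (by rw [hCd]; linarith)) hf0 hfV ?_ ?_
  · intro t ht
    rcases Nat.eq_zero_or_pos l with h0 | h0
    · have e := H.first (d := 1 / ((n : ℝ) + 1)) hV0 hd0 hfc hkc hfd hkd (fun t ht => by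
        have := hlow t ⟨ht.1.le, ht.2.le⟩
        have e2 : gm n (l + 1) = 1 / ((n : ℝ) + 1) := by
          rw [h0]
          simp [gm]
        rwa [e2] at this) hf0 hfV t ht
      refine e.trans ?_
      have e3 : V ^ 3 ≤ b ^ 2 * V ^ 2 := by
        have := mul_le_mul_of_nonneg_right hVS hV2
        calc V ^ 3 = V * V ^ 2 := by ring
          _ ≤ _ := this
      have e4 := mul_le_mul_of_nonneg_left e3 (show 0 ≤ 2 * (1 / ((n : ℝ) + 1)) by positivity)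
      refine e4.trans ?_
      have e5 : 2 * (1 / ((n : ℝ) + 1)) * (b ^ 2 * V ^ 2) =
          (2 * b ^ 2) * (1 / ((n : ℝ) + 1) * V ^ 2) := by ring
      rw [e5, mul_assoc C]
      refine mul_le_mul_of_nonneg_right ?_ (by positivity)
      rw [hCd]
      linarith
    · refine (hup h0 t ht).trans ?_
      have e1 : t ^ 2 ≤ V ^ 2 := pow_le_pow_left₀ ht.1 ht.2 2
      have e2 : C2 / ((n : ℝ) + 1) * t ^ 2 ≤ C2 / ((n : ℝ) + 1) * V ^ 2 :=
        mul_le_mul_of_nonneg_left e1 (by positivity)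
      refine e2.trans ?_
      have e3 : C2 / ((n : ℝ) + 1) * V ^ 2 = C2 * (1 / ((n : ℝ) + 1) * V ^ 2) := by ring
      rw [e3, mul_assoc C]
      refine mul_le_mul_of_nonneg_right ?_ (by positivity)
      rw [hCd]
      linarith
  · intro t ht
    refine le_trans ?_ (hupper t ht)
    rw [neg_le_neg_iff]
    have e1 : (V - t) ^ 2 ≤ V ^ 2 := pow_le_pow_left₀ (by linarith [ht.2]) (by linarith [ht.1]) 2
    have e2 : C3 / ((n : ℝ) + 1) * (V - t) ^ 2 ≤ C3 / ((n : ℝ) + 1) * V ^ 2 :=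
      mul_le_mul_of_nonneg_left e1 (by positivity)
    refine e2.trans ?_
    have e3 : C3 / ((n : ℝ) + 1) * V ^ 2 = C3 * (1 / ((n : ℝ) + 1) * V ^ 2) := by ring
    rw [e3, mul_assoc C]
    refine mul_le_mul_of_nonneg_right ?_ (by positivity)
    rw [hCd]
    linarith

/-- full replica symmetry breaking -/
theorem full_rsb_of {b : ℝ} (hb : 1 < b) (H : SumHyp b) : ∃ C : ℝ, 1 ≤ C ∧
    ∀ (n : ℕ) (r : ℕ → ℝ),
    IsMin b n (gm n) r → ∑ l ∈ Finset.range n, ∫ t in (0 : ℝ)..(r (l + 1) - r l),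
      |Mb n (gm n) r l t - 1 / b ^ 2| ≤ C / √((n : ℝ) + 1) := by
  obtain ⟨C, hC, h⟩ := sum_block hb H
  have hb2 : 1 ≤ b ^ 2 := by nlinarith
  refine ⟨C * b ^ 2, one_le_mul_of_one_le_of_one_le hC hb2, fun n r hr => ?_⟩
  refine (Finset.sum_le_sum fun l hl => h n r hr l (Finset.mem_range.1 hl)).trans ?_
  rw [← Finset.mul_sum, Finset.sum_range_sub, hr.1.1, sub_zero, Real.sqrt_div zero_le_one,
    Real.sqrt_one]
  have e : C * b ^ 2 / √((n : ℝ) + 1) = C * (1 / √((n : ℝ) + 1)) * b ^ 2 := by ring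
  rw [e]
  exact mul_le_mul_of_nonneg_left hr.1.2.2 (by positivity)

/-! ### The last level -/

/-- Jensen at the last level -/
theorem sum_jensen {n : ℕ} {m r : ℕ → ℝ} (hm : Exponents n m) (hr : Path n r) :
    (1 - spR n m r n) ^ 2 ≤ Ml n m r n := by
  have hT : Sp7Cb Real.tanh := sp7_cb_M ec_logcosh
  have e2 : (fun x => iteratedDeriv 2 (Fl n m r n) x ^ 2) =
      fun x => (1 - Real.tanh x ^ 2) ^ 2 := by
    rw [fl_last, adm_lc_it2]
  have e1 : spR n m r n = Ee n m r n (fun x => Real.tanh x ^ 2) := by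
    rw [spR_eq hm hr le_rfl, fl_last, adm_lc_it1]
  have hcb : Sp7Cb (fun x => (1 - Real.tanh x ^ 2) ^ 2) := by
    have h1 := sp7_cb_sq (sp7_cb_add (sp7_cb_const 1) (sp7_cb_neg (sp7_cb_sq hT)))
    have e : (fun x => (1 + -(Real.tanh x ^ 2)) ^ 2) = fun x => (1 - Real.tanh x ^ 2) ^ 2 := by
      funext x
      ring
    rw [← e]
    exact h1
  obtain ⟨a, ha⟩ : ∃ a, a = 1 - spR n m r n := ⟨_, rfl⟩
  have h2 := ee_mono hm hr le_rfl
    (sp7_cb_add (sp7_cb_const (2 * a - a ^ 2)) (nest_cb_smul (-(2 * a)) (sp7_cb_sq hT)))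
    hcb (fun x => by
      have := sq_nonneg (1 - Real.tanh x ^ 2 - a)
      nlinarith)
  rw [ee_add hm hr le_rfl (sp7_cb_const _) (nest_cb_smul _ (sp7_cb_sq hT)), ee_smul,
    ee_const hm hr le_rfl, ← e1] at h2
  unfold Ml
  rw [e2, ← ha]
  refine le_trans (le_of_eq ?_) h2
  have : spR n m r n = 1 - a := by rw [ha]; ring
  rw [this]
  ring

theorem sum_Ml_le {n : ℕ} {m r : ℕ → ℝ} (hm : Exponents n m) (hr : Path n r) :
    Ml n m r n ≤ 1 := by
  have hT : Sp7Cb Real.tanh := sp7_cb_M ec_logcosh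
  have e2 : (fun x => iteratedDeriv 2 (Fl n m r n) x ^ 2) =
      fun x => (1 - Real.tanh x ^ 2) ^ 2 := by
    rw [fl_last, adm_lc_it2]
  have hcb : Sp7Cb (fun x => (1 - Real.tanh x ^ 2) ^ 2) := by
    have h1 := sp7_cb_sq (sp7_cb_add (sp7_cb_const 1) (sp7_cb_neg (sp7_cb_sq hT)))
    have e : (fun x => (1 + -(Real.tanh x ^ 2)) ^ 2) = fun x => (1 - Real.tanh x ^ 2) ^ 2 := by
      funext x
      ring
    rw [← e]
    exact h1
  have h2 := ee_mono hm hr le_rfl hcb (sp7_cb_const 1) (fun x => by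
    have h3 : Real.tanh x ^ 2 ≤ 1 := by
      have := sp3_abs_tanh x
      rw [← sq_abs]
      exact pow_le_one₀ (abs_nonneg _) this
    have h4 := sq_nonneg (Real.tanh x)
    exact pow_le_one₀ (by linarith) (by linarith))
  rw [ee_const hm hr le_rfl] at h2
  unfold Ml
  rw [e2]
  exact h2

/-- Lipschitz bound inside a block -/
theorem sum_lip {b : ℝ} (H : SumHyp b) {C : ℝ} {n l : ℕ} {r : ℕ → ℝ} (hm : Exponents n (gm n))
    (hr : Path n r) (hl : l < n)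
    (hC : ∀ t ∈ Icc 0 (r (l + 1) - r l), |M1b n (gm n) r l t| ≤ C) {s t : ℝ}
    (hs : s ∈ Icc 0 (r (l + 1) - r l)) (ht : t ∈ Icc 0 (r (l + 1) - r l)) (hst : s ≤ t) :
    |Mb n (gm n) r l t - Mb n (gm n) r l s| ≤ C * (t - s) := by
  rcases hst.eq_or_lt with h | h
  · rw [h, sub_self, sub_self, abs_zero, mul_zero]
  obtain ⟨x, hx, hxe⟩ := exists_hasDerivAt_eq_slope (Mb n (gm n) r l) (M1b n (gm n) r l) h
    ((H.mc n l (gm n) r hm hr hl).mono (Icc_subset_Icc hs.1 ht.2))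
    (fun x hx => H.md n l (gm n) r x hm hr hl ⟨hs.1.trans_lt hx.1, hx.2.trans_le ht.2⟩)
  have h1 := hC x ⟨(hs.1.trans_lt hx.1).le, (hx.2.trans_le ht.2).le⟩
  have h2 : Mb n (gm n) r l t - Mb n (gm n) r l s = M1b n (gm n) r l x * (t - s) := by
    rw [hxe, div_mul_cancel₀ _ (sub_pos.2 h).ne']
  rw [h2, abs_mul, abs_of_pos (sub_pos.2 h)]
  exact mul_le_mul_of_nonneg_right h1 (sub_pos.2 h).le

theorem sum_step {b : ℝ} (H : SumHyp b) {C : ℝ} {n l : ℕ} {r : ℕ → ℝ} (hm : Exponents n (gm n))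
    (hr : Path n r) (hl : l < n)
    (hC : ∀ t ∈ Icc 0 (r (l + 1) - r l), |M1b n (gm n) r l t| ≤ C) :
    |Ml n (gm n) r (l + 1) - Ml n (gm n) r l| ≤ C * (r (l + 1) - r l) := by
  have hV : 0 ≤ r (l + 1) - r l := sub_nonneg.2 (hr.2 l hl)
  have h1 := sum_lip H hm hr hl hC (left_mem_Icc.2 hV) (right_mem_Icc.2 hV) hV
  rw [H.m0 n l (gm n) r hm hr hl, H.mv n l (gm n) r hm hr hl, sub_zero] at h1
  exact h1

theorem sum_steps {C : ℝ} {n : ℕ} {r M : ℕ → ℝ}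
    (h : ∀ l < n, |M (l + 1) - M l| ≤ C * (r (l + 1) - r l)) {l : ℕ} (hl : l ≤ n) :
    M n - M l ≤ C * (r n - r l) := by
  induction n, hl using Nat.le_induction with
  | base => simp
  | succ n hln ih =>
    have h1 := ih (fun i hi => h i (by omega))
    have h2 := (abs_le.1 (h n (Nat.lt_succ_self n))).2
    have e : C * (r (n + 1) - r l) = C * (r (n + 1) - r n) + C * (r n - r l) := by ring
    rw [e]
    linarith

/-- the integral of a Lipschitz function near a point where it is large -/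
theorem sum_low {C κ e R : ℝ} (hC : 0 ≤ C) (hκ : 0 ≤ κ) (he : 0 ≤ e) (hCe : C * e ≤ 1 / 2)
    (hR : e * κ ≤ R) : e * κ ^ 2 / 2 ≤ ∫ x in (0 : ℝ)..R, max (κ - C * (R - x)) 0 := by
  have hc : Continuous fun x : ℝ => max (κ - C * (R - x)) 0 := by fun_prop
  have h0 : 0 ≤ e * κ := mul_nonneg he hκ
  rw [← intervalIntegral.integral_add_adjacent_intervals (hc.intervalIntegrable 0 (R - e * κ))
    (hc.intervalIntegrable (R - e * κ) R)]
  have h1 : 0 ≤ ∫ x in (0 : ℝ)..(R - e * κ), max (κ - C * (R - x)) 0 :=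
    intervalIntegral.integral_nonneg (by linarith) fun x _ => le_max_right _ _
  have h2 : ∫ x in (R - e * κ)..R, κ / 2 ≤ ∫ x in (R - e * κ)..R, max (κ - C * (R - x)) 0 := by
    refine intervalIntegral.integral_mono_on (by linarith) intervalIntegrable_const
      (hc.intervalIntegrable _ _) fun x hx => ?_
    refine le_trans ?_ (le_max_left _ _)
    have h3 : C * (R - x) ≤ C * (e * κ) := mul_le_mul_of_nonneg_left (by linarith [hx.1]) hC
    have h4 : C * (e * κ) ≤ 1 / 2 * κ := by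
      rw [← mul_assoc]
      exact mul_le_mul_of_nonneg_right hCe hκ
    linarith
  rw [intervalIntegral.integral_const, smul_eq_mul] at h2
  have h3 : (R - (R - e * κ)) * (κ / 2) = e * κ ^ 2 / 2 := by ring
  rw [h3] at h2
  linarith

/-- the sum of the blocks near the last level -/
theorem sum_last {b : ℝ} (H : SumHyp b) {C : ℝ} {n : ℕ} {r : ℕ → ℝ} (hr : Path n r)
    (hr0 : r 0 = 0) (hC : ∀ l < n, ∀ t ∈ Icc 0 (r (l + 1) - r l), |M1b n (gm n) r l t| ≤ C)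
    (c : ℝ) : ∫ x in (0 : ℝ)..(r n), max (Ml n (gm n) r n - c - C * (r n - x)) 0 ≤
      ∑ l ∈ Finset.range n, ∫ t in (0 : ℝ)..(r (l + 1) - r l), |Mb n (gm n) r l t - c| := by
  have hm := gm_exponents n
  have hc : Continuous fun x : ℝ => max (Ml n (gm n) r n - c - C * (r n - x)) 0 := by fun_prop
  have e1 : ∫ x in (0 : ℝ)..(r n), max (Ml n (gm n) r n - c - C * (r n - x)) 0 =
      ∑ l ∈ Finset.range n, ∫ x in (r l)..(r (l + 1)),
        max (Ml n (gm n) r n - c - C * (r n - x)) 0 := by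
    rw [intervalIntegral.sum_integral_adjacent_intervals
      (fun l _ => hc.intervalIntegrable _ _), hr0]
  rw [e1]
  refine Finset.sum_le_sum fun l hl => ?_
  have hl' := Finset.mem_range.1 hl
  have hV : 0 ≤ r (l + 1) - r l := sub_nonneg.2 (hr.2 l hl')
  have e2 : ∫ x in (r l)..(r (l + 1)), max (Ml n (gm n) r n - c - C * (r n - x)) 0 =
      ∫ t in (0 : ℝ)..(r (l + 1) - r l),
        max (Ml n (gm n) r n - c - C * (r n - (r l + t))) 0 := by
    rw [intervalIntegral.integral_comp_add_left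
      (fun x => max (Ml n (gm n) r n - c - C * (r n - x)) 0) (r l), add_zero,
      add_sub_cancel]
  rw [e2]
  have hMc := H.mc n l (gm n) r hm hr hl'
  refine intervalIntegral.integral_mono_on hV ?_ ?_ fun t ht => ?_
  · exact (hc.comp (by fun_prop : Continuous fun t : ℝ => r l + t)).intervalIntegrable _ _
  · exact ((hMc.sub continuousOn_const).abs).intervalIntegrable_of_Icc hV
  · refine max_le ?_ (abs_nonneg _)
    refine le_trans ?_ (le_abs_self _)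
    have h1 := sum_lip H hm hr hl' (hC l hl') ht (right_mem_Icc.2 hV) ht.2
    rw [H.mv n l (gm n) r hm hr hl'] at h1
    have h2 := (abs_le.1 h1).2
    have h3 := sum_steps (M := Ml n (gm n) r) (fun i hi => sum_step H hm hr hi (hC i hi))
      (show l + 1 ≤ n by omega)
    have e3 : C * (r n - (r l + t)) = C * (r n - r (l + 1)) + C * (r (l + 1) - r l - t) := by ring
    rw [e3]
    linarith

/-- the last level -/
theorem last_level_of {b : ℝ} (hb : 1 < b) (H : SumHyp b) : ∃ C : ℝ, 1 ≤ C ∧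
    ∀ (n : ℕ) (r : ℕ → ℝ), C ≤ (n : ℝ) → IsMin b n (gm n) r →
      (b ^ 2 - r n) ^ 2 / b ^ 2 ≤ 1 + C / (((n : ℝ) + 1) ^ (1 / 4 : ℝ)) := by
  have hb0 : 0 < b := by linarith
  have hb2 : 0 < b ^ 2 := by positivity
  have hb21 : 1 < b ^ 2 := by nlinarith
  obtain ⟨C1, hC1, h1⟩ := H.bd
  obtain ⟨C0, hC0, h0⟩ := full_rsb_of hb H
  obtain ⟨A, hA, hsplit⟩ := split_zero hb
  obtain ⟨c, hc⟩ : ∃ c : ℝ, c = 1 / b ^ 2 := ⟨_, rfl⟩
  have hc0 : 0 < c := by rw [hc]; positivity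
  have hc1 : c < 1 := by rw [hc, div_lt_one hb2]; exact hb21
  obtain ⟨c0, hc0d⟩ : ∃ c0 : ℝ, c0 = (1 - c) / (2 * (2 + C1)) := ⟨_, rfl⟩
  have hc00 : 0 < c0 := by rw [hc0d]; exact div_pos (by linarith) (by linarith)
  obtain ⟨e, he⟩ : ∃ e : ℝ, e = min c0 (1 / (2 * C1)) := ⟨_, rfl⟩
  have he0 : 0 < e := by rw [he]; exact lt_min hc00 (by positivity)
  have hCe : C1 * e ≤ 1 / 2 := by
    have h2 : e ≤ 1 / (2 * C1) := by rw [he]; exact min_le_right _ _
    have h3 := mul_le_mul_of_nonneg_left h2 (show 0 ≤ C1 by linarith)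
    refine h3.trans (le_of_eq ?_)
    field_simp
  obtain ⟨C, hC⟩ : ∃ C : ℝ, C = 1 + 2 * A / (1 - c) + b ^ 2 * √(2 * C0 / e) := ⟨_, rfl⟩
  have p1 : 0 < 2 * A / (1 - c) := div_pos (by linarith) (by linarith)
  have p2 : 0 ≤ b ^ 2 * √(2 * C0 / e) := by positivity
  refine ⟨C, by rw [hC]; linarith, fun n r hn hr => ?_⟩
  have hm := gm_exponents n
  have hBP := hr.1
  have hpath := hBP.2.1
  have hr0 := hBP.1
  have hn0 : (0 : ℝ) < (n : ℝ) + 1 := by positivity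
  have hbd := h1 n (gm n) r hm hBP
  have hfix := stat_fix hb0 hm hr.1 hr.2
  -- the lower bound of the last level
  have hstep := sum_steps (M := Ml n (gm n) r) (fun i hi => sum_step H hm hpath hi (hbd i hi))
    (Nat.zero_le n)
  rw [hr0, sub_zero, Ml_zero hr0] at hstep
  have hs := hsplit n r hr
  have hl := Ml_last (n := n) (m := gm n) (r := r) hm hpath
  have hR := spR_le hm hpath hr0 le_rfl
  have hAn : A / ((n : ℝ) + 1) ≤ (1 - c) / 2 := by
    rw [div_le_iff₀ hn0]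
    have h2 : 2 * A / (1 - c) ≤ (n : ℝ) + 1 := by
      have : 2 * A / (1 - c) ≤ C := by rw [hC]; linarith
      linarith
    rw [div_le_iff₀ (by linarith)] at h2
    linarith
  have hrn : c0 ≤ r n := by
    rw [hc0d, div_le_iff₀ (by linarith)]
    rw [← hc] at hs
    linarith
  -- the main estimate
  obtain ⟨κ, hκ⟩ : ∃ κ, κ = Ml n (gm n) r n - c := ⟨_, rfl⟩
  have hn1 : 0 < n := by
    rcases Nat.eq_zero_or_pos n with h | h
    · rw [h] at hn
      simp only [Nat.cast_zero] at hn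
      rw [hC] at hn
      linarith
    · exact h
  have hM1 := sum_Ml_le (n := n) hm hpath
  have hmain : κ ≤ √(2 * C0 / e) / (((n : ℝ) + 1) ^ (1 / 4 : ℝ)) := by
    rcases le_or_gt κ 0 with hk | hk
    · exact hk.trans (by positivity)
    have hκ1 : κ ≤ 1 := by rw [hκ]; linarith
    have hek : e * κ ≤ r n := by
      have h2 : e ≤ c0 := by rw [he]; exact min_le_left _ _
      calc e * κ ≤ c0 * 1 := mul_le_mul h2 hκ1 hk.le hc00.le
        _ ≤ r n := by linarith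
    have k1 := sum_low (R := r n) (show 0 ≤ C1 by linarith) hk.le he0.le hCe hek
    have k2 := sum_last H hpath hr0 hbd c
    rw [← hκ] at k2
    have k3 := h0 n r hr
    rw [← hc] at k3
    have k4 := k1.trans (k2.trans k3)
    have k5 : κ ^ 2 ≤ 2 * C0 / e / √((n : ℝ) + 1) := by
      rw [div_div, mul_comm e, ← div_div, le_div_iff₀ he0]
      have : 2 * C0 / √((n : ℝ) + 1) = 2 * (C0 / √((n : ℝ) + 1)) := by ring
      rw [this]
      linarith
    have k6 : (((n : ℝ) + 1) ^ (1 / 4 : ℝ)) = √(√((n : ℝ) + 1)) := by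
      rw [Real.sqrt_eq_rpow, Real.sqrt_eq_rpow, ← Real.rpow_mul hn0.le]
      norm_num
    rw [k6, ← Real.sqrt_div (by positivity)]
    exact Real.le_sqrt_of_sq_le k5
  -- conclusion
  have hj := sum_jensen hm hpath
  have hfn := hfix n le_rfl
  have hfin : (b ^ 2 - r n) ^ 2 / b ^ 2 = b ^ 2 * (1 - spR n (gm n) r n) ^ 2 := by
    have e1 : b ^ 2 - r n = b ^ 2 * (1 - spR n (gm n) r n) := by
      rw [mul_sub, mul_one, ← hfn]
    rw [e1]
    field_simp
  rw [hfin]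
  have hfin2 : b ^ 2 * (1 - spR n (gm n) r n) ^ 2 ≤ b ^ 2 * (c + κ) := by
    refine mul_le_mul_of_nonneg_left ?_ hb2.le
    rw [hκ]
    linarith
  refine hfin2.trans ?_
  have e2 : b ^ 2 * (c + κ) = 1 + b ^ 2 * κ := by
    rw [hc]
    field_simp
  rw [e2]
  have e3 := mul_le_mul_of_nonneg_left hmain hb2.le
  have e4 : b ^ 2 * (√(2 * C0 / e) / (((n : ℝ) + 1) ^ (1 / 4 : ℝ))) ≤
      C / (((n : ℝ) + 1) ^ (1 / 4 : ℝ)) := by
    rw [← mul_div_assoc]
    refine div_le_div_of_nonneg_right ?_ (by positivity)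
    rw [hC]
    linarith
  linarith

end Vale.Agent.P367.Cl
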