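import Vale.Agent.P367.Cl.FBlk

/-!
# P367, classical half: the value

`ψ = x G' - G` is bounded and the derivative in the time of its average is `E G'' + (g / 2) E G'²`.
-/

open MeasureTheory ProbabilityTheory Filter Topology Set

namespace Vale.Agent.P367.Cl

open Vale.Agent.P157.Par
open Vale.Agent.P146.Gap
open Vale.Agent.P146.Pw2

/-! ### Functions close to the absolute value -/

theorem fval_lc (x : ℝ) : |lc x - (|x|)| ≤ Real.log 2 := by
  have h0 : 0 ≤ |x| := abs_nonneg x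
  have h1 : Real.cosh x = (Real.exp |x| + Real.exp (-|x|)) / 2 := by
    rw [← Real.cosh_abs, Real.cosh_eq]
  have h2 : 0 < Real.exp (-|x|) := Real.exp_pos _
  have h3 : Real.exp (-|x|) ≤ Real.exp |x| := Real.exp_le_exp.2 (by linarith)
  have h4 : Real.exp |x| / 2 ≤ Real.cosh x := by rw [h1]; linarith
  have h5 : Real.cosh x ≤ Real.exp |x| := by rw [h1]; linarith
  have h6 : |x| - Real.log 2 ≤ lc x := by
    have := Real.log_le_log (by positivity) h4
    rwa [Real.log_div (Real.exp_pos _).ne' two_ne_zero, Real.log_exp] at this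
  have h7 : lc x ≤ |x| := by
    have := Real.log_le_log (Real.cosh_pos x) h5
    rwa [Real.log_exp] at this
  have h8 : 0 ≤ Real.log 2 := Real.log_nonneg (by norm_num)
  rw [abs_le]
  constructor <;> linarith

theorem fval_step {C D g v : ℝ} {F : ℝ → ℝ} (h : Adm C F) (hg : 0 < g) (hg1 : g ≤ 1)
    (hv : 0 ≤ v) (hD : ∀ x, |F x - (|x|)| ≤ D) (x : ℝ) : |gstep g v F x - (|x|)| ≤ D + v / 2 := by
  have h1 := gstep_var_lip h hg hg1 hv le_rfl x
  rw [gstep_zero hg.ne', sub_zero, abs_of_nonneg hv] at h1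
  have h2 := hD x
  have h3 := abs_sub_le (gstep g v F x) (F x) |x|
  linarith

theorem fval_fl {n : ℕ} {m r : ℕ → ℝ} (hm : Exponents n m) (hr : Path n r) {l : ℕ} (hl : l ≤ n) :
    ∀ x, |Fl n m r l x - (|x|)| ≤ Real.log 2 + (r n - r l) / 2 := by
  induction hl using Nat.decreasingInduction with
  | self => intro x; rw [fl_last, sub_self, zero_div, add_zero]; exact fval_lc x
  | of_succ l hl ih =>
    intro x
    obtain ⟨g0, g1⟩ := sp7_exp_of hm l hl
    obtain ⟨C, hC⟩ := fl_good hm hr (show l + 1 ≤ n from hl)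
    have h1 := fval_step hC.adm g0 g1 (sub_nonneg.2 (hr.2 l hl)) ih x
    rw [← fl_succ hl] at h1
    linarith

section NR

variable {C D : ℝ} {G : ℝ → ℝ}

theorem fval_hd0 (h : Adm C G) (x : ℝ) : HasDerivAt G (iteratedDeriv 1 G x) x := by
  have := adm_hasD h.smb.smooth 0 x
  rwa [iteratedDeriv_zero] at this

theorem fval_tan (h : Adm C G) (x : ℝ) : -G 0 ≤ x * iteratedDeriv 1 G x - G x := by
  set φ : ℝ → ℝ := fun t => t * iteratedDeriv 1 G t - G t with hφ
  have hd : ∀ t, HasDerivAt φ (t * iteratedDeriv 2 G t) t := by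
    intro t
    refine (((hasDerivAt_id t).mul (adm_hasD h.smb.smooth 1 t)).sub (fval_hd0 h t)).congr_deriv ?_
    simp only [id]
    ring
  have hc : Continuous φ := continuous_iff_continuousAt.2 fun t => (hd t).continuousAt
  have h0 : φ 0 = -G 0 := by simp [hφ]
  rw [← h0]
  show φ 0 ≤ φ x
  rcases lt_trichotomy x 0 with hx | hx | hx
  · obtain ⟨c, hc1, hc2⟩ := exists_hasDerivAt_eq_slope φ (fun t => t * iteratedDeriv 2 G t) hx
      hc.continuousOn (fun t _ => hd t)
    have h1 : c * iteratedDeriv 2 G c ≤ 0 := mul_nonpos_of_nonpos_of_nonneg hc1.2.le (h.pos c).le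
    rw [hc2, div_le_iff₀ (by linarith)] at h1
    linarith
  · rw [hx]
  · obtain ⟨c, hc1, hc2⟩ := exists_hasDerivAt_eq_slope φ (fun t => t * iteratedDeriv 2 G t) hx
      hc.continuousOn (fun t _ => hd t)
    have h1 : 0 ≤ c * iteratedDeriv 2 G c := mul_nonneg hc1.1.le (h.pos c).le
    rw [hc2, le_div_iff₀ (by linarith)] at h1
    linarith

theorem fval_d1 (h : Adm C G) (x : ℝ) : |iteratedDeriv 1 G x| ≤ 1 := (adm_ec h).abs_M x

theorem fval_xd1 (h : Adm C G) (x : ℝ) : |x * iteratedDeriv 1 G x| ≤ |x| := by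
  rw [abs_mul]
  exact mul_le_of_le_one_right (abs_nonneg x) (fval_d1 h x)

theorem fval_zero (hD : ∀ x, |G x - (|x|)| ≤ D) : |G 0| ≤ D := by
  have := hD 0
  rwa [abs_zero, sub_zero] at this

theorem fval_psi (h : Adm C G) (hD : ∀ x, |G x - (|x|)| ≤ D) (x : ℝ) :
    |x * iteratedDeriv 1 G x - G x| ≤ D := by
  have h1 := fval_tan h x
  have h2 := (abs_le.1 (fval_xd1 h x)).2
  have h3 := (abs_le.1 (hD x)).1
  have h4 := (abs_le.1 (fval_zero hD)).2
  rw [abs_le]
  constructor <;> linarith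

theorem fval_x2 (h : Adm C G) (hD : ∀ x, |G x - (|x|)| ≤ D) (x : ℝ) :
    |x| * iteratedDeriv 2 G x ≤ 4 * D := by
  have h1 := fval_tan h x
  have h2 : x * iteratedDeriv 1 G x ≤ |x| * |iteratedDeriv 1 G x| := by
    rw [← abs_mul]
    exact le_abs_self _
  have h3 := (abs_le.1 (hD x)).1
  have h4 := (abs_le.1 (fval_zero hD)).2
  have h5 := fval_d1 h x
  have h6 := h.le1 x
  have h7 : |x| * (1 - |iteratedDeriv 1 G x|) ≤ 2 * D := by linarith
  have h8 : 0 ≤ |iteratedDeriv 1 G x| := abs_nonneg _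
  have h9 : iteratedDeriv 2 G x ≤ (1 - |iteratedDeriv 1 G x|) * (1 + |iteratedDeriv 1 G x|) := by
    have := sq_abs (iteratedDeriv 1 G x)
    nlinarith
  have h10 : |x| * iteratedDeriv 2 G x ≤
      |x| * (1 - |iteratedDeriv 1 G x|) * (1 + |iteratedDeriv 1 G x|) := by
    rw [mul_assoc]
    exact mul_le_mul_of_nonneg_left h9 (abs_nonneg x)
  have h11 : 0 ≤ |x| * (1 - |iteratedDeriv 1 G x|) :=
    mul_nonneg (abs_nonneg x) (by linarith)
  nlinarith

theorem fval_x3 (h : Adm C G) (hC : 0 ≤ C) (hD : ∀ x, |G x - (|x|)| ≤ D) (x : ℝ) :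
    |x * iteratedDeriv 3 G x| ≤ C * (4 * D) := by
  rw [abs_mul]
  have h1 := mul_le_mul_of_nonneg_left (h.r3 x) (abs_nonneg x)
  have h2 := mul_le_mul_of_nonneg_left (fval_x2 h hD x) hC
  calc |x| * |iteratedDeriv 3 G x| ≤ |x| * (C * iteratedDeriv 2 G x) := h1
    _ = C * (|x| * iteratedDeriv 2 G x) := by ring
    _ ≤ _ := h2

end NR

/-! ### The bounded family -/

section FAM

variable {C D g v : ℝ} {F : ℝ → ℝ}

/-- the clipped time -/
noncomputable def fval_c (v τ : ℝ) : ℝ := max 0 (min τ v)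

theorem fval_c_cont (v : ℝ) : Continuous (fval_c v) := by
  unfold fval_c
  fun_prop

theorem fval_c_mem (hv : 0 ≤ v) (τ : ℝ) : fval_c v τ ∈ Icc 0 v :=
  ⟨le_max_left _ _, max_le hv (min_le_right _ _)⟩

theorem fval_c_eq {τ : ℝ} (h : τ ∈ Icc 0 v) : fval_c v τ = τ := by
  unfold fval_c
  rw [min_eq_left h.2, max_eq_right h.1]

/-- the jets at the clipped time -/
noncomputable def fval_f (g v : ℝ) (F : ℝ → ℝ) (j : ℕ) (τ x : ℝ) : ℝ :=
  first_f g v F j (fval_c v τ) x

theorem fval_f_cont (h : Adm C F) (hg : 0 < g) (j : ℕ) :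
    Continuous (fun p : ℝ × ℝ => fval_f g v F j p.1 p.2) := by
  have h1 := first_f_cont h hg v j
  have h2 : Continuous fun p : ℝ × ℝ => (fval_c v p.1, p.2) :=
    ((fval_c_cont v).comp continuous_fst).prodMk continuous_snd
  exact h1.comp h2

theorem fval_f_bc (h : Adm C F) (hg : 0 < g) (j : ℕ) : first_Bc (fval_f g v F (j + 1)) := by
  obtain ⟨-, B, hB⟩ := first_f_bc h hg v j
  exact ⟨fval_f_cont h hg (j + 1), B, fun s x => hB _ x⟩

theorem fval_f_x (h : Adm C F) (hg : 0 < g) (j : ℕ) (τ x : ℝ) :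
    HasDerivAt (fval_f g v F j τ) (fval_f g v F (j + 1) τ x) x :=
  first_f_x h hg v j (fval_c v τ) x

/-- `x G' - G` -/
noncomputable def fval_p (g v : ℝ) (F : ℝ → ℝ) (τ x : ℝ) : ℝ :=
  x * fval_f g v F 1 τ x - fval_f g v F 0 τ x

theorem fval_C_nonneg (h : Adm C F) : 0 ≤ C := by
  have h1 := h.r3 0
  have h2 := h.pos 0
  have h3 : 0 ≤ C * iteratedDeriv 2 F 0 := (abs_nonneg _).trans h1
  by_contra h4
  push Not at h4
  nlinarith

theorem fval_adm (h : Adm C F) (hg : 0 < g) (hg1 : g ≤ 1) (hv : 0 ≤ v)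
    (hD : ∀ x, |F x - (|x|)| ≤ D) (τ : ℝ) :
    Adm (C * Real.exp (2 * g * v)) (gstep g (v - fval_c v τ) F) ∧
      ∀ x, |gstep g (v - fval_c v τ) F x - (|x|)| ≤ D + v / 2 := by
  obtain ⟨h1, h2⟩ := fval_c_mem hv τ
  have h3 : 0 ≤ v - fval_c v τ := by linarith
  have h4 := h.step hg hg1 h3
  have hC := fval_C_nonneg h
  have h5 : C * Real.exp (2 * g * (v - fval_c v τ)) ≤ C * Real.exp (2 * g * v) := by
    refine mul_le_mul_of_nonneg_left (Real.exp_le_exp.2 ?_) hC
    nlinarith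
  refine ⟨⟨h4.smb, h4.even, h4.pos, h4.le1, fun x => (h4.r3 x).trans ?_, h4.r4⟩, fun x => ?_⟩
  · exact mul_le_mul_of_nonneg_right h5 (h4.pos x).le
  · have := fval_step h hg hg1 h3 hD x
    linarith

theorem fval_b0 (h : Adm C F) (hg : 0 < g) (hg1 : g ≤ 1) (hv : 0 ≤ v)
    (hD : ∀ x, |F x - (|x|)| ≤ D) : first_Bc (fval_p g v F) := by
  refine ⟨?_, D + v / 2, fun τ x => ?_⟩
  · exact (continuous_snd.mul (fval_f_cont h hg 1)).sub (fval_f_cont h hg 0)
  · obtain ⟨h1, h2⟩ := fval_adm h hg hg1 hv hD τ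
    have h3 := fval_psi h1 h2 x
    have e : fval_f g v F 0 τ x = gstep g (v - fval_c v τ) F x := by
      unfold fval_f
      rw [first_f_zero]
    unfold fval_p
    rw [e]
    exact h3

theorem fval_bx2 (h : Adm C F) (hg : 0 < g) (hg1 : g ≤ 1) (hv : 0 ≤ v)
    (hD : ∀ x, |F x - (|x|)| ≤ D) : first_Bc (fun τ x => x * fval_f g v F 2 τ x) := by
  refine ⟨?_, 4 * (D + v / 2), fun τ x => ?_⟩
  · exact continuous_snd.mul (fval_f_cont h hg 2)
  · obtain ⟨h1, h2⟩ := fval_adm h hg hg1 hv hD τ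
    have h3 := fval_x2 h1 h2 x
    rw [abs_mul]
    have e : |fval_f g v F 2 τ x| = iteratedDeriv 2 (gstep g (v - fval_c v τ) F) x :=
      abs_of_pos (h1.pos x)
    rw [e]
    exact h3

theorem fval_bx3 (h : Adm C F) (hg : 0 < g) (hg1 : g ≤ 1) (hv : 0 ≤ v)
    (hD : ∀ x, |F x - (|x|)| ≤ D) : first_Bc (fun τ x => x * fval_f g v F 3 τ x) := by
  refine ⟨?_, C * Real.exp (2 * g * v) * (4 * (D + v / 2)), fun τ x => ?_⟩
  · exact continuous_snd.mul (fval_f_cont h hg 3)
  · obtain ⟨h1, h2⟩ := fval_adm h hg hg1 hv hD τ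
    exact fval_x3 h1 (fval_C_nonneg h1) h2 x

theorem fval_P (h : Adm C F) (hg : 0 < g) (hg1 : g ≤ 1) (hv : 0 ≤ v)
    (hD : ∀ x, |F x - (|x|)| ≤ D) :
    first_P v (fval_p g v F) (fun τ x => x * fval_f g v F 2 τ x)
      (fun τ x => fval_f g v F 2 τ x + x * fval_f g v F 3 τ x)
      (fun τ x => -(x * (1 / 2 * fval_f g v F 3 τ x
        + g * (fval_f g v F 1 τ x * fval_f g v F 2 τ x)))
        + 1 / 2 * (fval_f g v F 2 τ x + g * fval_f g v F 1 τ x ^ 2)) := by
  have b1 := fval_f_bc (v := v) h hg 0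
  have b2 := fval_f_bc (v := v) h hg 1
  have x2 := fval_bx2 h hg hg1 hv hD
  have x3 := fval_bx3 h hg hg1 hv hD
  refine ⟨fun s x => ?_, fun s x => ?_, fun s hs x => ?_, fval_b0 h hg hg1 hv hD, x2,
    b2.add x3, ?_⟩
  · refine (((hasDerivAt_id x).mul (fval_f_x h hg 1 s x)).sub
      (fval_f_x h hg 0 s x)).congr_deriv ?_
    simp only [id]
    ring
  · refine ((hasDerivAt_id x).mul (fval_f_x h hg 2 s x)).congr_deriv ?_
    simp only [id]
    ring
  · have e : (fun s => fval_p g v F s x) =ᶠ[𝓝 s]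
        fun s => x * first_f g v F 1 s x - first_f g v F 0 s x := by
      filter_upwards [Ioo_mem_nhds hs.1 hs.2] with t ht
      unfold fval_p fval_f
      rw [fval_c_eq (Ioo_subset_Icc_self ht)]
    refine HasDerivAt.congr_of_eventuallyEq ?_ e
    have h1 := first_comp (fj_s1 h.smb hg (s := v - s) (by linarith [hs.2]) x)
    have h2 := first_comp (fj_s0 h.smb hg (s := v - s) (by linarith [hs.2]) x)
    refine ((h1.const_mul x).sub h2).congr_deriv ?_
    unfold fval_f
    rw [fval_c_eq (Ioo_subset_Icc_self hs)]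
    unfold first_f
    ring
  · have := ((x3.smul (-(1 / 2))).add ((b1.mul x2).smul (-g))).add
      ((b2.add ((b1.mul b1).smul g)).smul (1 / 2))
    convert this using 3
    ring

theorem fval_tlt_deriv (h : Adm C F) (hg : 0 < g) (hg1 : g ≤ 1) (hv : 0 ≤ v)
    (hD : ∀ x, |F x - (|x|)| ≤ D) (y : ℝ) {τ : ℝ} (hτ : τ ∈ Ioo 0 v) :
    HasDerivAt (fun τ => tlt g τ (gstep g (v - τ) F) (fval_p g v F τ) y)
      (tlt g τ (gstep g (v - τ) F) (fun x => first_f g v F 2 τ x
        + g / 2 * first_f g v F 1 τ x ^ 2) y) τ := by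
  refine (blk_tlt_deriv h hg (fval_P h hg hg1 hv hD) y hτ).congr_deriv ?_
  congr 1
  funext x
  unfold fval_f
  rw [fval_c_eq (Ioo_subset_Icc_self hτ)]
  ring

end FAM

/-! ### One block -/

section BLOCK

variable {n l : ℕ} {m r : ℕ → ℝ}

/-- `x F' - F` at the level `l` -/
noncomputable def fval_ps (n : ℕ) (m r : ℕ → ℝ) (l : ℕ) (x : ℝ) : ℝ :=
  x * iteratedDeriv 1 (Fl n m r l) x - Fl n m r l x

theorem fval_Bt_eq (hm : Exponents n m) (hr : Path n r) (hl : l < n) {t : ℝ}
    (ht : t ∈ Icc 0 (r (l + 1) - r l)) :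
    Ee n m r l (tlt (m (l + 1)) t (Gb n m r l t)
      (fun x => iteratedDeriv 2 (Gb n m r l t) x
        + m (l + 1) / 2 * iteratedDeriv 1 (Gb n m r l t) x ^ 2)) =
      Ab n m r l t + m (l + 1) / 2 * Rb n m r l t := by
  obtain ⟨g0, g1⟩ := sp7_exp_of hm l hl
  obtain ⟨C, hC⟩ := fl_good hm hr (show l + 1 ≤ n from hl)
  have hG := first_adm hC.adm g0 g1 ht
  have hE := adm_ec hG
  have c2 := nest_cb2 hG
  have c1 := sp7_cb_sq (nest_cb1 hG)
  have e1 : tlt (m (l + 1)) t (Gb n m r l t)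
      (fun x => iteratedDeriv 2 (Gb n m r l t) x
        + m (l + 1) / 2 * iteratedDeriv 1 (Gb n m r l t) x ^ 2) =
      fun y => tlt (m (l + 1)) t (Gb n m r l t) (iteratedDeriv 2 (Gb n m r l t)) y
        + m (l + 1) / 2 * tlt (m (l + 1)) t (Gb n m r l t)
          (fun x => iteratedDeriv 1 (Gb n m r l t) x ^ 2) y := by
    funext y
    obtain ⟨k2, K2, hK2⟩ := c2
    obtain ⟨k1, K1, hK1⟩ := nest_cb_smul (m (l + 1) / 2) c1
    rw [← tlt_const_mul]
    exact hE.sm.tlt_add k2 hK2 k1 hK1 _ _ y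
  have k2 : Sp7Cb (tlt (m (l + 1)) t (Gb n m r l t) (iteratedDeriv 2 (Gb n m r l t))) :=
    sp7_cb_tlt hE c2 _ _
  have k1 : Sp7Cb (tlt (m (l + 1)) t (Gb n m r l t)
      (fun x => iteratedDeriv 1 (Gb n m r l t) x ^ 2)) := sp7_cb_tlt hE c1 _ _
  rw [e1, ee_add hm hr hl.le k2 (nest_cb_smul _ k1), ee_smul]
  rfl

theorem fval_block (hm : Exponents n m) (hr : Path n r) (hl : l < n) :
    ∫ t in (0 : ℝ)..(r (l + 1) - r l), (Ab n m r l t + m (l + 1) / 2 * Rb n m r l t) =
      Ee n m r (l + 1) (fval_ps n m r (l + 1)) - Ee n m r l (fval_ps n m r l) := by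
  obtain ⟨g0, g1⟩ := sp7_exp_of hm l hl
  obtain ⟨C, hC⟩ := fl_good hm hr (show l + 1 ≤ n from hl)
  have hD := fval_fl hm hr (show l + 1 ≤ n from hl)
  have hv : 0 ≤ r (l + 1) - r l := sub_nonneg.2 (hr.2 l hl)
  set v := r (l + 1) - r l with hvdef
  set g := m (l + 1) with hgdef
  set F := Fl n m r (l + 1) with hFdef
  have hF := hC.adm
  have hb0 := fval_b0 hF g0 g1 hv hD
  have hP := fval_P hF g0 g1 hv hD
  have hsm : ∀ t ∈ Icc 0 v, Ec (gstep g (v - t) F) (iteratedDeriv 1 (gstep g (v - t) F))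
      (iteratedDeriv 2 (gstep g (v - t) F)) := fun t ht => adm_ec (first_adm hF g0 g1 ht)
  have b1 := first_f_bc hF g0 v 0
  have b2 := first_f_bc hF g0 v 1
  have hq : first_Bc (fun t x => first_f g v F 2 t x + g / 2 * first_f g v F 1 t x ^ 2) := by
    have := b2.add ((b1.mul b1).smul (g / 2))
    convert this using 3
    ring
  have hI : Ioo 0 v ⊆ Icc 0 v := Ioo_subset_Icc_self
  obtain ⟨-, B0, hB0⟩ := hb0
  have hq' := hq
  obtain ⟨-, B1, hB1⟩ := hq'
  have hd : ∀ t ∈ Ioo 0 v, HasDerivAt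
      (fun t => Ee n m r l (fun y => tlt g t (gstep g (v - t) F) (fval_p g v F t) y))
      (Ee n m r l (fun y => tlt g t (gstep g (v - t) F) (fun x => first_f g v F 2 t x
        + g / 2 * first_f g v F 1 t x ^ 2) y)) t := by
    intro t ht
    refine ee_deriv hm hr hl.le (a := 0) (b := v)
      (f := fun t y => tlt g t (gstep g (v - t) F) (fval_p g v F t) y)
      (f' := fun t y => tlt g t (gstep g (v - t) F) (fun x => first_f g v F 2 t x
        + g / 2 * first_f g v F 1 t x ^ 2) y)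
      (fun t ht y => fval_tlt_deriv hF g0 g1 hv hD y ht) ?_ ?_ ⟨max B0 B1, ?_⟩ ht
    · intro t ht
      exact (hsm t (hI ht)).sm.tlt_cont ((fval_b0 hF g0 g1 hv hD).slice t) (hB0 t) g t
    · intro t ht
      exact (hsm t (hI ht)).sm.tlt_cont (hq.slice t) (hB1 t) g t
    · intro t ht y
      constructor
      · exact ((hsm t (hI ht)).sm.abs_tlt_le ((fval_b0 hF g0 g1 hv hD).slice t) (hB0 t)
          g t y).trans (le_max_left _ _)
      · exact ((hsm t (hI ht)).sm.abs_tlt_le (hq.slice t) (hB1 t) g t y).trans (le_max_right _ _)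
  have hc : ContinuousOn
      (fun t => Ee n m r l (fun y => tlt g t (gstep g (v - t) F) (fval_p g v F t) y))
      (Icc 0 v) := by
    refine ee_contOn hm hr hl.le
      (f := fun t y => tlt g t (gstep g (v - t) F) (fval_p g v F t) y) ?_ ?_ ⟨B0, ?_⟩
    · intro y
      exact blk_tlt_cont hF g0 (fval_b0 hF g0 g1 hv hD) g y
    · intro t ht
      exact (hsm t ht).sm.tlt_cont ((fval_b0 hF g0 g1 hv hD).slice t) (hB0 t) g t
    · intro t ht y
      exact (hsm t ht).sm.abs_tlt_le ((fval_b0 hF g0 g1 hv hD).slice t) (hB0 t) g t y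
  have hint : IntervalIntegrable (fun t => Ab n m r l t + g / 2 * Rb n m r l t) volume 0 v := by
    refine ContinuousOn.intervalIntegrable_of_Icc hv ?_
    exact (Ab_cont hm hr hl).add (continuousOn_const.mul (Rb_cont hm hr hl))
  have h1 := intervalIntegral.integral_eq_sub_of_hasDerivAt_of_le hv hc
    (f' := fun t => Ab n m r l t + g / 2 * Rb n m r l t)
    (fun t ht => by
      refine (hd t ht).congr_deriv ?_
      exact fval_Bt_eq hm hr hl (hI ht)) hint
  rw [h1]
  congr 1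
  · rw [ee_succ hl]
    congr 1
    funext y
    rw [sub_self, gstep_zero g0.ne']
    congr 1
    funext x
    unfold fval_p fval_f fval_ps first_f fj
    rw [fval_c_eq ⟨hv, le_rfl⟩, sub_self, gstep_zero g0.ne', iteratedDeriv_zero]
  · congr 1
    funext y
    rw [sp3_tlt_triv le_rfl]
    unfold fval_p fval_f fval_ps first_f fj
    rw [fval_c_eq ⟨le_rfl, hv⟩, sub_zero, iteratedDeriv_zero, fl_succ hl]

end BLOCK

/-! ### The identity -/

section VALUE

theorem fval_abel (m r : ℕ → ℝ) (k : ℕ) :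
    ∑ l ∈ Finset.range (k + 1), (m (l + 1) - m l) * r l ^ 2 =
      m (k + 1) * r k ^ 2 - m 0 * r 0 ^ 2 -
        ∑ l ∈ Finset.range k, m (l + 1) * (r (l + 1) ^ 2 - r l ^ 2) := by
  induction k with
  | zero => simp; ring
  | succ k ih =>
    rw [Finset.sum_range_succ, ih, Finset.sum_range_succ _ k]
    ring

theorem fval_int_lin (a v c : ℝ) :
    ∫ t in (0 : ℝ)..v, c * (a + t) = c * ((a + v) ^ 2 - a ^ 2) / 2 := by
  have h : ∀ t ∈ uIcc 0 v, HasDerivAt (fun t => c * (a + t) ^ 2 / 2) (c * (a + t)) t := by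
    intro t _
    have h1 := (((hasDerivAt_id t).const_add a).pow 2).const_mul c |>.div_const 2
    refine h1.congr_deriv ?_
    simp only [id]
    ring
  rw [intervalIntegral.integral_eq_sub_of_hasDerivAt h
    (Continuous.intervalIntegrable (by fun_prop) _ _)]
  ring

theorem value_id {b : ℝ} (hb : 0 < b) {n : ℕ} {m r : ℕ → ℝ} (hm : Exponents n m)
    (hr : Path n r) (h0 : r 0 = 0) : SKr b n m r =
      (∑ l ∈ Finset.range n, ∫ t in (0 : ℝ)..(r (l + 1) - r l), Ab n m r l t)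
      + Ee n m r n (fun x => lc x - x * Real.tanh x) + (b ^ 2 - r n) ^ 2 / (4 * b ^ 2)
      + ∑ l ∈ Finset.range n, ∫ t in (0 : ℝ)..(r (l + 1) - r l),
          m (l + 1) / 2 * (Rb n m r l t - (r l + t) / b ^ 2) := by
  have h1 : ∑ l ∈ Finset.range n, ∫ t in (0 : ℝ)..(r (l + 1) - r l),
      (Ab n m r l t + m (l + 1) / 2 * Rb n m r l t) =
      Ee n m r n (fval_ps n m r n) - Ee n m r 0 (fval_ps n m r 0) := by
    rw [← Finset.sum_range_sub (fun l => Ee n m r l (fval_ps n m r l))]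
    exact Finset.sum_congr rfl fun l hl => fval_block hm hr (Finset.mem_range.1 hl)
  have h2 : Ee n m r 0 (fval_ps n m r 0) = -cascade m r n lc 0 := by
    rw [ee_zero h0, fval_ps, zero_mul, zero_sub, fl_zero]
  have h3 : Ee n m r n (fval_ps n m r n) = -Ee n m r n (fun x => lc x - x * Real.tanh x) := by
    rw [neg_eq_neg_one_mul, ← ee_smul]
    congr 1
    funext x
    unfold fval_ps
    rw [fl_last, adm_lc_it1]
    ring
  have h4 : spinPart n m r = cascade m r n lc 0 - r n / 2 := by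
    unfold spinPart
    rw [h0, Real.sqrt_zero]
    simp only [zero_mul, integral_const, probReal_univ, one_smul]
    rfl
  have h5 : ∀ l ∈ Finset.range n, ∫ t in (0 : ℝ)..(r (l + 1) - r l),
      m (l + 1) / 2 * (Rb n m r l t - (r l + t) / b ^ 2) =
      (∫ t in (0 : ℝ)..(r (l + 1) - r l), (Ab n m r l t + m (l + 1) / 2 * Rb n m r l t))
       - (∫ t in (0 : ℝ)..(r (l + 1) - r l), Ab n m r l t)
       - m (l + 1) * (r (l + 1) ^ 2 - r l ^ 2) / (4 * b ^ 2) := by
    intro l hl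
    have hl' := Finset.mem_range.1 hl
    have hv := sub_nonneg.2 (hr.2 l hl')
    have i1 : IntervalIntegrable (Ab n m r l) volume 0 (r (l + 1) - r l) :=
      (Ab_cont hm hr hl').intervalIntegrable_of_Icc hv
    have i2 : IntervalIntegrable (fun t => m (l + 1) / 2 * Rb n m r l t) volume 0
        (r (l + 1) - r l) :=
      (continuousOn_const.mul (Rb_cont hm hr hl')).intervalIntegrable_of_Icc hv
    have i3 : IntervalIntegrable (fun t => m (l + 1) / (2 * b ^ 2) * (r l + t)) volume 0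
        (r (l + 1) - r l) := Continuous.intervalIntegrable (by fun_prop) _ _
    rw [intervalIntegral.integral_add i1 i2]
    have e : ∫ t in (0 : ℝ)..(r (l + 1) - r l),
          m (l + 1) / 2 * (Rb n m r l t - (r l + t) / b ^ 2) =
        ∫ t in (0 : ℝ)..(r (l + 1) - r l),
          (m (l + 1) / 2 * Rb n m r l t - m (l + 1) / (2 * b ^ 2) * (r l + t)) := by
      congr 1
      funext t
      field_simp
    rw [e, intervalIntegral.integral_sub i2 i3, fval_int_lin]
    field_simp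
    ring
  rw [SKr, h4, fval_abel, Finset.sum_congr rfl h5, Finset.sum_sub_distrib,
    Finset.sum_sub_distrib, h1, h2, h3, ← Finset.sum_div, hm.1, hm.2.1, h0]
  field_simp
  ring

/-! ### The bounds -/

theorem fval_path {n : ℕ} {r : ℕ → ℝ} (hr : Path n r) {i j : ℕ} (hij : i ≤ j) (hj : j ≤ n) :
    r i ≤ r j := by
  induction j, hij using Nat.le_induction with
  | base => exact le_rfl
  | succ j hij ih => exact (ih (by omega)).trans (hr.2 j (by omega))

theorem fval_sqrt {b M : ℝ} (hb : 0 < b) (hM : 0 ≤ M) : 1 / b - √M ≤ b * |M - 1 / b ^ 2| := by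
  set s := √M with hsdef
  have hs : 0 ≤ s := Real.sqrt_nonneg M
  have hM' : s ^ 2 = M := Real.sq_sqrt hM
  rcases le_total (1 / b) s with h | h
  · have : 0 ≤ b * |M - 1 / b ^ 2| := by positivity
    linarith
  · have h1 : 1 / b ^ 2 - M ≤ |M - 1 / b ^ 2| := by
      rw [abs_sub_comm]
      exact le_abs_self _
    have h2 : b * (1 / b ^ 2 - M) = (1 / b - s) * (1 + b * s) := by
      rw [← hM']
      field_simp
      ring
    have h3 : (1 / b - s) * 1 ≤ (1 / b - s) * (1 + b * s) :=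
      mul_le_mul_of_nonneg_left (by nlinarith [mul_nonneg hb.le hs]) (sub_nonneg.2 h)
    have h4 := mul_le_mul_of_nonneg_left h1 hb.le
    linarith

variable {b : ℝ} {n : ℕ} {m r : ℕ → ℝ}

theorem fval_R (hb : 0 < b) (hm : Exponents n m) (hmin : IsMin b n m r) {l : ℕ} (hl : l < n)
    {t : ℝ} (ht : t ∈ Icc 0 (r (l + 1) - r l)) :
    |Rb n m r l t - (r l + t) / b ^ 2| ≤
      ∫ s in (0 : ℝ)..(r (l + 1) - r l), |Mb n m r l s - 1 / b ^ 2| := by
  have hr : Path n r := hmin.1.2.1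
  have hfix := stat_fix hb hm hmin.1 hmin.2 l hl.le
  have hcR := Rb_cont hm hr hl
  have hcM := Mb_cont hm hr hl
  have hsub : Icc 0 t ⊆ Icc 0 (r (l + 1) - r l) := Icc_subset_Icc_right ht.2
  have h1 : ∫ s in (0 : ℝ)..t, (Mb n m r l s - 1 / b ^ 2) =
      (Rb n m r l t - (r l + t) / b ^ 2) - (Rb n m r l 0 - (r l + 0) / b ^ 2) := by
    refine intervalIntegral.integral_eq_sub_of_hasDerivAt_of_le ht.1
      (f := fun s => Rb n m r l s - (r l + s) / b ^ 2) ?_ ?_ ?_
    · exact (hcR.mono hsub).sub (Continuous.continuousOn (by fun_prop))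
    · intro s hs
      have := Rb_deriv hm hr hl (t := s) ⟨hs.1, hs.2.trans_le ht.2⟩
      exact this.sub (((hasDerivAt_id s).const_add (r l)).div_const (b ^ 2))
    · exact ((hcM.mono hsub).sub continuousOn_const).intervalIntegrable_of_Icc ht.1
  have h2 : Rb n m r l 0 - (r l + 0) / b ^ 2 = 0 := by
    rw [Rb_zero hm hr hl, add_zero, hfix]
    field_simp
    ring
  rw [h2, sub_zero] at h1
  rw [← h1]
  have h3 : |∫ s in (0 : ℝ)..t, (Mb n m r l s - 1 / b ^ 2)| ≤
      ∫ s in (0 : ℝ)..t, |Mb n m r l s - 1 / b ^ 2| :=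
    intervalIntegral.abs_integral_le_integral_abs ht.1
  refine h3.trans (intervalIntegral.integral_mono_interval le_rfl ht.1 ht.2
    (ae_of_all _ fun _ => abs_nonneg _) ?_)
  exact (hcM.sub continuousOn_const).abs.intervalIntegrable_of_Icc (ht.1.trans ht.2)

theorem fval_S2 (hb : 0 < b) (hm : Exponents n m) (hmin : IsMin b n m r) :
    ∑ l ∈ Finset.range n, ∫ t in (0 : ℝ)..(r (l + 1) - r l),
        m (l + 1) / 2 * (Rb n m r l t - (r l + t) / b ^ 2) ≤
      b ^ 2 / 2 * ∑ l ∈ Finset.range n, ∫ t in (0 : ℝ)..(r (l + 1) - r l),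
        |Mb n m r l t - 1 / b ^ 2| := by
  have hr : Path n r := hmin.1.2.1
  rw [Finset.mul_sum]
  refine Finset.sum_le_sum fun l hl => ?_
  have hl' := Finset.mem_range.1 hl
  obtain ⟨g0, g1⟩ := sp7_exp_of hm l hl'
  have hv := sub_nonneg.2 (hr.2 l hl')
  set δ := ∫ t in (0 : ℝ)..(r (l + 1) - r l), |Mb n m r l t - 1 / b ^ 2| with hδ
  have hδ0 : 0 ≤ δ := intervalIntegral.integral_nonneg hv fun _ _ => abs_nonneg _
  have h1 : ∫ t in (0 : ℝ)..(r (l + 1) - r l),
      m (l + 1) / 2 * (Rb n m r l t - (r l + t) / b ^ 2) ≤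
      ∫ _ in (0 : ℝ)..(r (l + 1) - r l), δ / 2 := by
    refine intervalIntegral.integral_mono_on hv ?_ ?_ ?_
    · refine ContinuousOn.intervalIntegrable_of_Icc hv ?_
      exact continuousOn_const.mul
        ((Rb_cont hm hr hl').sub (Continuous.continuousOn (by fun_prop)))
    · exact _root_.intervalIntegrable_const
    · intro t ht
      have h2 := fval_R hb hm hmin hl' ht
      have h3 := (le_abs_self _).trans h2
      have h4 : m (l + 1) / 2 * (Rb n m r l t - (r l + t) / b ^ 2) ≤ m (l + 1) / 2 * δ :=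
        mul_le_mul_of_nonneg_left h3 (by linarith)
      nlinarith
  rw [intervalIntegral.integral_const, smul_eq_mul, sub_zero] at h1
  have h5 : r (l + 1) - r l ≤ b ^ 2 := by
    have h6 := fval_path hr (show l + 1 ≤ n from hl') le_rfl
    have h7 := fval_path hr (Nat.zero_le l) hl'.le
    have h8 := hmin.1.2.2
    have h9 := hmin.1.1
    linarith
  have h6 := mul_le_mul_of_nonneg_right h5 (show 0 ≤ δ / 2 by linarith)
  linarith

theorem fval_SA (hb : 0 < b) (hm : Exponents n m) (hr : Path n r) :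
    (∑ l ∈ Finset.range n, ∫ t in (0 : ℝ)..(r (l + 1) - r l), Ab n m r l t) / b ≤
      (∑ l ∈ Finset.range n, ∫ t in (0 : ℝ)..(r (l + 1) - r l),
          √(Mb n m r l t) * Ab n m r l t) +
        b * ∑ l ∈ Finset.range n, ∫ t in (0 : ℝ)..(r (l + 1) - r l),
          |Mb n m r l t - 1 / b ^ 2| := by
  rw [Finset.sum_div, Finset.mul_sum, ← Finset.sum_add_distrib]
  refine Finset.sum_le_sum fun l hl => ?_
  have hl' := Finset.mem_range.1 hl
  have hv := sub_nonneg.2 (hr.2 l hl')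
  have hcM := Mb_cont hm hr hl'
  have hcA := Ab_cont hm hr hl'
  have i1 : IntervalIntegrable (fun t => √(Mb n m r l t) * Ab n m r l t) volume 0
      (r (l + 1) - r l) :=
    ((Real.continuous_sqrt.comp_continuousOn hcM).mul hcA).intervalIntegrable_of_Icc hv
  have i2 : IntervalIntegrable (fun t => b * |Mb n m r l t - 1 / b ^ 2|) volume 0
      (r (l + 1) - r l) :=
    (continuousOn_const.mul (hcM.sub continuousOn_const).abs).intervalIntegrable_of_Icc hv
  rw [← intervalIntegral.integral_div, ← intervalIntegral.integral_const_mul,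
    ← intervalIntegral.integral_add i1 i2]
  refine intervalIntegral.integral_mono_on hv ?_ (i1.add i2) ?_
  · exact (hcA.div_const b).intervalIntegrable_of_Icc hv
  · intro t ht
    obtain ⟨a0, a1⟩ := Ab_mem hm hr hl' ht
    obtain ⟨m0, m1⟩ := Mb_mem hm hr hl' ht
    have h1 := fval_sqrt hb m0
    have h2 := mul_le_mul_of_nonneg_right h1 a0
    have h3 : 0 ≤ b * |Mb n m r l t - 1 / b ^ 2| := by positivity
    have h4 := mul_le_mul_of_nonneg_left a1 h3
    have h5 : Ab n m r l t / b = 1 / b * Ab n m r l t := by ring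
    rw [h5]
    linarith

theorem fval_last (hm : Exponents n m) (hr : Path n r) :
    Ee n m r n (fun x => lc x - x * Real.tanh x) ≤ 0 := by
  have hA := good_lc.adm
  have hl0 : lc 0 = 0 := by simp [lc]
  have h1 : ∀ x, lc x - x * Real.tanh x ≤ 0 := by
    intro x
    have := fval_tan hA x
    rw [adm_lc_it1, hl0] at this
    linarith
  have h2 : ∀ x, |lc x - x * Real.tanh x| ≤ Real.log 2 := by
    intro x
    have := fval_psi hA fval_lc x
    rwa [adm_lc_it1, abs_sub_comm] at this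
  have hc : Continuous fun x => lc x - x * Real.tanh x := by
    have h3 := (nest_cb1 hA).1
    rw [adm_lc_it1] at h3
    exact hA.smb.smooth.continuous.sub (continuous_id.mul h3)
  have h3 := ee_mono hm hr le_rfl (ψ := fun x => lc x - x * Real.tanh x) (φ := fun _ => 0)
    ⟨hc, _, h2⟩ ⟨continuous_const, 0, fun _ => by simp⟩ h1
  rwa [ee_const hm hr le_rfl] at h3

end VALUE

end Vale.Agent.P367.Cl
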