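import Vale.Agent.P367.Cl.FDefs
import Vale.Agent.P146.Gap.Comp

/-!
# P367, classical half: composition of tilted averages, integrals of nested averages
-/

open MeasureTheory ProbabilityTheory Filter Topology Set

namespace Vale.Agent.P367.Cl

open Vale.Agent.P157.Par
open Vale.Agent.P146.Gap
open Vale.Agent.P146.Pw2

section COMP

variable {C g v s : ℝ} {F ψ : ℝ → ℝ}

lemma fvar1_exp_gstep (hF : Adm C F) (hg : 0 < g) (s y : ℝ) :
    Real.exp (g * gstep g s F y) = ∫ w, Real.exp (g * F (y + √s * w)) ∂(gaussianReal 0 1) := by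
  have h := (ex_ec hF).sm.int_exp_pos g s y
  unfold gstep
  rw [← mul_assoc, mul_one_div_cancel hg.ne', one_mul, Real.exp_log h]

/-- the numerator of the tilted average -/
lemma fvar1_num (hF : Adm C F) (hg : 0 < g) (s y : ℝ) (ψ : ℝ → ℝ) :
    tlt g s F ψ y * Real.exp (g * gstep g s F y) =
      ∫ w, ψ (y + √s * w) * Real.exp (g * F (y + √s * w)) ∂(gaussianReal 0 1) := by
  have h := (ex_ec hF).sm.int_exp_pos g s y
  rw [fvar1_exp_gstep hF hg]
  unfold tlt
  rw [div_mul_cancel₀ _ h.ne']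

/-- Composition of tilted averages. -/
theorem tlt_comp (hF : Adm C F) (hg : 0 < g) (hv : 0 ≤ v) (hs : 0 ≤ s) (hψ : Sp7Cb ψ) (x : ℝ) :
    tlt g v (gstep g s F) (tlt g s F ψ) x = tlt g (v + s) F ψ x := by
  obtain ⟨hc, K, hK⟩ := hψ
  have hS := (ex_ec hF).sm
  have hFc := hS.cont
  have h1 : ∫ z, tlt g s F ψ (x + √v * z) * Real.exp (g * gstep g s F (x + √v * z))
      ∂(gaussianReal 0 1) = ∫ z, ψ (x + √(v + s) * z) * Real.exp (g * F (x + √(v + s) * z))
      ∂(gaussianReal 0 1) := by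
    simp only [fvar1_num hF hg]
    have := comp_conv (h := fun u => ψ (x + u) * Real.exp (g * F (x + u)))
      (by fun_prop : Continuous fun u => ψ (x + u) * Real.exp (g * F (x + u))).measurable hv hs
      (hS.integrable hc hK g (v + s) x)
    simpa only [add_assoc] using this
  have h2 : ∫ z, Real.exp (g * gstep g s F (x + √v * z)) ∂(gaussianReal 0 1) =
      ∫ z, Real.exp (g * F (x + √(v + s) * z)) ∂(gaussianReal 0 1) := by
    simp only [fvar1_exp_gstep hF hg]
    have := comp_conv (h := fun u => Real.exp (g * F (x + u)))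
      (by fun_prop : Continuous fun u => Real.exp (g * F (x + u))).measurable hv hs
      (hS.integrable_exp g (v + s) x)
    simpa only [add_assoc] using this
  have e1 : tlt g v (gstep g s F) (tlt g s F ψ) x =
      (∫ z, tlt g s F ψ (x + √v * z) * Real.exp (g * gstep g s F (x + √v * z))
      ∂(gaussianReal 0 1)) / ∫ z, Real.exp (g * gstep g s F (x + √v * z))
      ∂(gaussianReal 0 1) := rfl
  rw [e1, h1, h2]
  rfl

end COMP

section INT

lemma fvar1_swap {T : ℝ} (hT : 0 ≤ T) {f : ℝ → ℝ → ℝ}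
    (hc : ContinuousOn (fun p : ℝ × ℝ => f p.1 p.2) (Icc 0 T ×ˢ univ)) {B : ℝ}
    (hB : ∀ t ∈ Icc 0 T, ∀ x, |f t x| ≤ B) {w : ℝ → ℝ} (hw : Continuous w)
    (hwi : Integrable w (gaussianReal 0 1)) :
    ∫ z, (∫ t in (0 : ℝ)..T, f t z) * w z ∂(gaussianReal 0 1) =
      ∫ t in (0 : ℝ)..T, ∫ z, f t z * w z ∂(gaussianReal 0 1) := by
  set c : ℝ → ℝ := fun t => max 0 (min t T) with hcd
  have hc0 : Continuous c := by fun_prop
  have hcm : ∀ t, c t ∈ Icc 0 T := fun t => ⟨le_max_left _ _, max_le hT (min_le_right _ _)⟩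
  have hce : ∀ t ∈ Icc 0 T, c t = t := fun t ht => by
    simp only [hcd]
    rw [min_eq_left ht.2, max_eq_right ht.1]
  have hcf : Continuous (fun p : ℝ × ℝ => f (c p.1) p.2) :=
    hc.comp_continuous (f := fun p : ℝ × ℝ => ((c p.1, p.2) : ℝ × ℝ)) (by fun_prop)
      (fun p => ⟨hcm p.1, mem_univ _⟩)
  have e1 : ∀ z, (∫ t in (0 : ℝ)..T, f t z) * w z = ∫ t in (0 : ℝ)..T, f (c t) z * w z := by
    intro z
    rw [intervalIntegral.integral_mul_const]
    congr 1
    refine intervalIntegral.integral_congr fun t ht => ?_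
    rw [uIcc_of_le hT] at ht
    simp only [hce t ht]
  have e2 : ∫ t in (0 : ℝ)..T, ∫ z, f t z * w z ∂(gaussianReal 0 1) =
      ∫ t in (0 : ℝ)..T, ∫ z, f (c t) z * w z ∂(gaussianReal 0 1) := by
    refine intervalIntegral.integral_congr fun t ht => ?_
    rw [uIcc_of_le hT] at ht
    simp only [hce t ht]
  simp only [e1]
  rw [e2]
  simp only [intervalIntegral.integral_of_le hT]
  refine integral_integral_swap ?_
  have hb : Integrable (fun p : ℝ × ℝ => B * |w p.1|)
      ((gaussianReal 0 1).prod (volume.restrict (Ioc 0 T))) :=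
    (hwi.abs.const_mul B).comp_fst _
  refine hb.mono' ?_ (Eventually.of_forall fun p => ?_)
  · have : Continuous (Function.uncurry fun z t => f (c t) z * w z) := by
      have h3 : Continuous (fun p : ℝ × ℝ => f (c p.2) p.1) := hcf.comp continuous_swap
      exact h3.mul (hw.comp continuous_fst)
    exact this.aestronglyMeasurable
  · simp only [Function.uncurry]
    rw [Real.norm_eq_abs, abs_mul]
    exact mul_le_mul_of_nonneg_right (hB _ (hcm _) _) (abs_nonneg _)

lemma fvar1_tlt_cont {F M D : ℝ → ℝ} (h : Ec F M D) {T : ℝ} {φ : ℝ → ℝ → ℝ}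
    (hc : ContinuousOn (fun p : ℝ × ℝ => φ p.1 p.2) (Icc 0 T ×ˢ univ)) {B : ℝ}
    (hB : ∀ t ∈ Icc 0 T, ∀ x, |φ t x| ≤ B) (g v : ℝ) :
    ContinuousOn (fun p : ℝ × ℝ => tlt g v F (φ p.1) p.2) (Icc 0 T ×ˢ univ) := by
  have h1 := (sp5_fam_const h 0 T).tlt_cont hc hB g v 0
  simpa only [mul_zero, add_zero] using h1

lemma fvar1_slice {T : ℝ} {φ : ℝ → ℝ → ℝ}
    (hc : ContinuousOn (fun p : ℝ × ℝ => φ p.1 p.2) (Icc 0 T ×ˢ univ)) {t : ℝ}
    (ht : t ∈ Icc 0 T) : Continuous (φ t) :=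
  hc.comp_continuous (f := fun x : ℝ => ((t, x) : ℝ × ℝ)) (by fun_prop)
    (fun _ => ⟨ht, mem_univ _⟩)

lemma fvar1_tlt_int {F M D : ℝ → ℝ} (h : Ec F M D) {T : ℝ} (hT : 0 ≤ T) {φ : ℝ → ℝ → ℝ}
    (hc : ContinuousOn (fun p : ℝ × ℝ => φ p.1 p.2) (Icc 0 T ×ˢ univ)) {B : ℝ}
    (hB : ∀ t ∈ Icc 0 T, ∀ x, |φ t x| ≤ B) (g v y : ℝ) :
    tlt g v F (fun x => ∫ t in (0 : ℝ)..T, φ t x) y = ∫ t in (0 : ℝ)..T, tlt g v F (φ t) y := by
  have hF := h.sm.cont
  have h1 := fvar1_swap hT (f := fun t z => φ t (y + √v * z))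
    (hc.comp (f := fun p : ℝ × ℝ => ((p.1, y + √v * p.2) : ℝ × ℝ)) (by fun_prop)
      (fun p hp => ⟨hp.1, mem_univ _⟩)) (fun t ht z => hB t ht _)
    (w := fun z => Real.exp (g * F (y + √v * z))) (by fun_prop) (h.sm.integrable_exp g v y)
  unfold tlt
  rw [intervalIntegral.integral_div, h1]

/-- Integrals of nested averages. -/
theorem chn_integral {m r : ℕ → ℝ} {l : ℕ} (hm : Sp7Exp m l) {F M D : ℝ → ℝ} (h : Ec F M D)
    {T : ℝ} (hT : 0 ≤ T) {φ : ℝ → ℝ → ℝ}
    (hc : ContinuousOn (fun p : ℝ × ℝ => φ p.1 p.2) (Icc 0 T ×ˢ univ)) {B : ℝ}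
    (hB : ∀ t ∈ Icc 0 T, ∀ x, |φ t x| ≤ B) :
    ContinuousOn (fun t => chn m r l F (φ t)) (Icc 0 T) ∧
      chn m r l F (fun x => ∫ t in (0 : ℝ)..T, φ t x) = ∫ t in (0 : ℝ)..T, chn m r l F (φ t) := by
  induction l generalizing F M D φ with
  | zero =>
    simp only [chn_zero_def]
    constructor
    · refine continuousOn_of_dominated (bound := fun _ => B) (fun t ht => ?_) (fun t ht => ?_)
        (integrable_const _) ?_
      · have := fvar1_slice hc ht
        exact (by fun_prop : Continuous fun z : ℝ => φ t (√(r 0) * z)).aestronglyMeasurable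
      · exact Eventually.of_forall fun z => by rw [Real.norm_eq_abs]; exact hB t ht _
      · refine Eventually.of_forall fun z => ?_
        exact hc.comp (f := fun t : ℝ => ((t, √(r 0) * z) : ℝ × ℝ)) (by fun_prop)
          (fun t ht => ⟨ht, mem_univ _⟩)
    · have h1 := fvar1_swap hT (f := fun t z => φ t (√(r 0) * z))
        (hc.comp (f := fun p : ℝ × ℝ => ((p.1, √(r 0) * p.2) : ℝ × ℝ)) (by fun_prop)
          (fun p hp => ⟨hp.1, mem_univ _⟩)) (fun t ht z => hB t ht _)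
        (w := fun _ => 1) continuous_const (integrable_const _)
      simpa only [mul_one] using h1
  | succ l ih =>
    obtain ⟨hm0, hm1⟩ := hm l (Nat.lt_succ_self l)
    have h1 := ih (sp7_exp_down hm) (h.step hm0 hm1 (r (l + 1) - r l))
      (φ := fun t => tlt (m (l + 1)) (r (l + 1) - r l) F (φ t))
      (fvar1_tlt_cont h hc hB _ _)
      (fun t ht x => h.sm.abs_tlt_le (fvar1_slice hc ht) (hB t ht) _ _ x)
    simp only [chn_succ_def]
    refine ⟨h1.1, ?_⟩
    rw [← h1.2]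
    congr 1
    funext y
    exact fvar1_tlt_int h hT hc hB _ _ y

end INT

end Vale.Agent.P367.Cl
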