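import Vale.Agent.P367.Cl.FVar1
import Vale.Agent.P146.Pw2.T1Long

/-!
# P367, classical half: change of the function and of the exponent in nested averages
-/

open MeasureTheory ProbabilityTheory Filter Topology Set

namespace Vale.Agent.P367.Cl

open Vale.Agent.P157.Par
open Vale.Agent.P146.Gap
open Vale.Agent.P146.Pw2

lemma fvd_tlt_nonneg {C : ℝ} {F ψ : ℝ → ℝ} (hF : Adm C F) (hψ : Sp7Cb ψ) (h0 : ∀ x, 0 ≤ ψ x)
    (g v x : ℝ) : 0 ≤ tlt g v F ψ x := by
  obtain ⟨hc, K, hK⟩ := hψ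
  have h1 := (ex_ec hF).sm.tlt_mono (g := fun _ => (0 : ℝ)) (g' := ψ) continuous_const (K := 0)
    (fun _ => by simp) hc hK h0 g v x
  rwa [(ex_ec hF).sm.tlt_const] at h1

lemma fvd_cb_exp {C C' η : ℝ} {G H ψ : ℝ → ℝ} (hG : Adm C G) (hH : Adm C' H)
    (hη : ∀ x, |G x - H x| ≤ η) (hψ : Sp7Cb ψ) (a : ℝ) :
    Sp7Cb (fun x => Real.exp (a * (G x - H x)) * ψ x) := by
  obtain ⟨hc, K, hK⟩ := hψ
  have c1 := (ex_ec hG).sm.cont
  have c2 := (ex_ec hH).sm.cont
  refine ⟨by fun_prop, Real.exp (|a| * η) * K, fun x => ?_⟩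
  rw [abs_mul, abs_of_pos (Real.exp_pos _)]
  refine mul_le_mul (Real.exp_le_exp.2 ?_) (hK x) (abs_nonneg _) (Real.exp_pos _).le
  calc a * (G x - H x) ≤ |a * (G x - H x)| := le_abs_self _
    _ = |a| * |G x - H x| := abs_mul _ _
    _ ≤ |a| * η := mul_le_mul_of_nonneg_left (hη x) (abs_nonneg a)

lemma fvd_tlt_change {C C' g : ℝ} {G H : ℝ → ℝ} (hG : Adm C G) (hH : Adm C' H) (hg : 0 < g)
    (v : ℝ) (ψ : ℝ → ℝ) (x : ℝ) :
    tlt g v G (fun y => Real.exp (-g * (G y - H y)) * ψ y) x =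
      Real.exp (-g * (gstep g v G x - gstep g v H x)) * tlt g v H ψ x := by
  have h1 := fvar1_num hG hg v x (fun y => Real.exp (-g * (G y - H y)) * ψ y)
  have h2 := fvar1_num hH hg v x ψ
  have h3 : ∫ w, Real.exp (-g * (G (x + √v * w) - H (x + √v * w))) * ψ (x + √v * w) *
      Real.exp (g * G (x + √v * w)) ∂(gaussianReal 0 1) =
      ∫ w, ψ (x + √v * w) * Real.exp (g * H (x + √v * w)) ∂(gaussianReal 0 1) := by
    refine integral_congr_ae (ae_of_all _ fun w => ?_)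
    simp only []
    have e : Real.exp (g * H (x + √v * w)) = Real.exp (-g * (G (x + √v * w) - H (x + √v * w))) *
        Real.exp (g * G (x + √v * w)) := by
      rw [← Real.exp_add]
      congr 1
      ring
    rw [e]
    ring
  rw [h3, ← h2] at h1
  have h4 : Real.exp (-g * (gstep g v G x - gstep g v H x)) * Real.exp (g * gstep g v G x) =
      Real.exp (g * gstep g v H x) := by
    rw [← Real.exp_add]
    congr 1
    ring
  have h5 := (Real.exp_pos (g * gstep g v G x)).ne'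
  refine mul_right_cancel₀ h5 ?_
  rw [h1, ← h4]
  ring

lemma fvd_chn_aux {m r : ℕ → ℝ} {l : ℕ} {C C' η : ℝ} {G H ψ : ℝ → ℝ} (h0 : m 0 = 0)
    (hm : Sp7Exp m l) (hmm : ∀ i < l, m i ≤ m (i + 1)) (hG : Adm C G) (hH : Adm C' H)
    (hr : ∀ i < l, r i ≤ r (i + 1)) (hη : ∀ x, |G x - H x| ≤ η) (hψ : Sp7Cb ψ)
    (hψ0 : ∀ x, 0 ≤ ψ x) :
    chn m r l G (fun x => Real.exp (-m l * (G x - H x)) * ψ x) ≤
      Real.exp (m l * η) * chn m r l H ψ := by
  induction l generalizing G H ψ C C' with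
  | zero => rw [chn_zero_def, chn_zero_def, h0]; simp
  | succ l ih =>
    obtain ⟨g0, g1⟩ := hm l (Nat.lt_succ_self l)
    have hv : 0 ≤ r (l + 1) - r l := sub_nonneg.2 (hr l (Nat.lt_succ_self l))
    have hG1 := hG.step g0 g1 hv
    have hH1 := hH.step g0 g1 hv
    have hη1 := gstep_nonexp hG hH g0 (r (l + 1) - r l) hη
    have hml := hmm l (Nat.lt_succ_self l)
    have hm' : Sp7Exp m l := fun i hi => hm i (by omega)
    have cφ : Sp7Cb (tlt (m (l + 1)) (r (l + 1) - r l) H ψ) := sp7_cb_tlt (ex_ec hH) hψ _ _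
    have hφ0 := fvd_tlt_nonneg hH hψ hψ0 (m (l + 1)) (r (l + 1) - r l)
    have h1 := ih hm' (fun i hi => hmm i (by omega)) hG1 hH1 (fun i hi => hr i (by omega)) hη1
      cφ hφ0
    rw [chn_succ_def, chn_succ_def]
    have e : tlt (m (l + 1)) (r (l + 1) - r l) G
        (fun x => Real.exp (-m (l + 1) * (G x - H x)) * ψ x) =
        fun x => Real.exp (-m (l + 1) * (gstep (m (l + 1)) (r (l + 1) - r l) G x -
          gstep (m (l + 1)) (r (l + 1) - r l) H x)) * tlt (m (l + 1)) (r (l + 1) - r l) H ψ x :=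
      funext fun x => fvd_tlt_change hG hH g0 _ ψ x
    rw [e]
    set G1 := gstep (m (l + 1)) (r (l + 1) - r l) G
    set H1 := gstep (m (l + 1)) (r (l + 1) - r l) H
    set φ := tlt (m (l + 1)) (r (l + 1) - r l) H ψ
    have h2 : ∀ x, Real.exp (-m (l + 1) * (G1 x - H1 x)) * φ x ≤
        Real.exp ((m (l + 1) - m l) * η) * (Real.exp (-m l * (G1 x - H1 x)) * φ x) := by
      intro x
      rw [← mul_assoc, ← Real.exp_add]
      refine mul_le_mul_of_nonneg_right (Real.exp_le_exp.2 ?_) (hφ0 x)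
      have h3 := (abs_le.1 (hη1 x)).1
      have h4 : 0 ≤ (m (l + 1) - m l) * (G1 x - H1 x + η) :=
        mul_nonneg (sub_nonneg.2 hml) (by linarith)
      nlinarith
    have h3 := sp7_chn_mono m r l hm' (ex_ec hG1) (fvd_cb_exp hG1 hH1 hη1 cφ (-m (l + 1)))
      (long_cb_smul (fvd_cb_exp hG1 hH1 hη1 cφ (-m l)) (Real.exp ((m (l + 1) - m l) * η))) h2
    rw [long_chn_smul] at h3
    refine h3.trans ?_
    have h4 := mul_le_mul_of_nonneg_left h1 (Real.exp_pos ((m (l + 1) - m l) * η)).le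
    refine h4.trans (le_of_eq ?_)
    rw [← mul_assoc, ← Real.exp_add]
    congr 2
    ring

/-- Change of the function at the top level of a nested average. -/
theorem fvd_chn_change {m r : ℕ → ℝ} {l : ℕ} {C C' η : ℝ} {G H ψ : ℝ → ℝ} (h0 : m 0 = 0)
    (hm : Sp7Exp m l) (hmm : ∀ i < l, m i ≤ m (i + 1)) (hG : Adm C G) (hH : Adm C' H)
    (hr : ∀ i < l, r i ≤ r (i + 1)) (hη : ∀ x, |G x - H x| ≤ η) (hψ : Sp7Cb ψ)
    (hψ0 : ∀ x, 0 ≤ ψ x) : chn m r l G ψ ≤ Real.exp (2 * η) * chn m r l H ψ := by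
  have hη0 : 0 ≤ η := (abs_nonneg _).trans (hη 0)
  have hl01 : 0 ≤ m l ∧ m l ≤ 1 := by
    rcases Nat.eq_zero_or_pos l with h | h
    · subst h; rw [h0]; exact ⟨le_rfl, zero_le_one⟩
    · obtain ⟨k, rfl⟩ := Nat.exists_eq_add_of_le' h
      exact ⟨(hm k (Nat.lt_succ_self k)).1.le, (hm k (Nat.lt_succ_self k)).2⟩
  have h1 := fvd_chn_aux h0 hm hmm hG hH hr hη (fvd_cb_exp hG hH hη hψ (m l))
    (fun x => mul_nonneg (Real.exp_pos _).le (hψ0 x))
  have e : (fun x => Real.exp (-m l * (G x - H x)) * (Real.exp (m l * (G x - H x)) * ψ x)) = ψ := by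
    funext x
    rw [← mul_assoc, ← Real.exp_add, neg_mul, neg_add_cancel, Real.exp_zero, one_mul]
  rw [e] at h1
  have hψc : 0 ≤ chn m r l H ψ := by
    have h2 := sp7_chn_mono m r l hm (ex_ec hH) (sp7_cb_const 0) hψ hψ0
    rwa [sp7_chn_const m r l hm (ex_ec hH)] at h2
  have h2 : chn m r l H (fun x => Real.exp (m l * (G x - H x)) * ψ x) ≤
      Real.exp (m l * η) * chn m r l H ψ := by
    rw [← long_chn_smul]
    refine sp7_chn_mono m r l hm (ex_ec hH) (fvd_cb_exp hG hH hη hψ (m l)) (long_cb_smul hψ _)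
      fun x => mul_le_mul_of_nonneg_right (Real.exp_le_exp.2 ?_) (hψ0 x)
    exact mul_le_mul_of_nonneg_left ((le_abs_self _).trans (hη x)) hl01.1
  refine h1.trans ((mul_le_mul_of_nonneg_left h2 (Real.exp_pos _).le).trans ?_)
  rw [← mul_assoc, ← Real.exp_add]
  refine mul_le_mul_of_nonneg_right (Real.exp_le_exp.2 ?_) hψc
  nlinarith [hl01.2]

lemma fvd_int1 (c : ℝ) : Integrable (fun z : ℝ => |z| * Real.exp (c * |z|)) (gaussianReal 0 1) := by
  refine ((sp2_integrable_exp_abs (1 + c))).mono' (by fun_prop)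
    (Eventually.of_forall fun z => ?_)
  rw [Real.norm_eq_abs, abs_of_nonneg (by positivity), add_mul, one_mul, Real.exp_add]
  refine mul_le_mul_of_nonneg_right ?_ (Real.exp_pos _).le
  have := Real.add_one_le_exp |z|
  linarith

lemma fvd_int2 (c : ℝ) : Integrable (fun z : ℝ => |z| ^ 2 * Real.exp (c * |z|))
    (gaussianReal 0 1) := by
  refine ((sp2_integrable_exp_abs (1 + c)).const_mul 2).mono' (by fun_prop)
    (Eventually.of_forall fun z => ?_)
  rw [Real.norm_eq_abs, abs_of_nonneg (by positivity), add_mul, one_mul, Real.exp_add]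
  have h1 := Real.pow_div_factorial_le_exp |z| (abs_nonneg z) 2
  have h2 : ((Nat.factorial 2 : ℕ) : ℝ) = 2 := by norm_num [Nat.factorial]
  rw [h2, div_le_iff₀ (by norm_num)] at h1
  calc |z| ^ 2 * Real.exp (c * |z|) ≤ (Real.exp |z| * 2) * Real.exp (c * |z|) :=
        mul_le_mul_of_nonneg_right h1 (Real.exp_pos _).le
    _ = _ := by ring

lemma fvd_exp_sub {a b c : ℝ} (ha : a ≤ c) (hb : b ≤ c) :
    |Real.exp a - Real.exp b| ≤ |a - b| * Real.exp c := by
  wlog h : b ≤ a generalizing a b with H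
  · rw [abs_sub_comm, abs_sub_comm a b]
    exact H hb ha (le_of_not_ge h)
  rw [abs_of_nonneg (sub_nonneg.2 (Real.exp_le_exp.2 h)), abs_of_nonneg (sub_nonneg.2 h)]
  have h1 := Real.add_one_le_exp (-(a - b))
  have h2 : Real.exp b = Real.exp a * Real.exp (-(a - b)) := by
    rw [← Real.exp_add]; congr 1; ring
  calc Real.exp a - Real.exp b = Real.exp a * (1 - Real.exp (-(a - b))) := by rw [h2]; ring
    _ ≤ Real.exp c * (a - b) := by
        refine mul_le_mul (Real.exp_le_exp.2 ha) (by linarith) ?_ (Real.exp_pos _).le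
        have : Real.exp (-(a - b)) ≤ 1 := Real.exp_le_one_iff.2 (by linarith)
        linarith
    _ = _ := mul_comm _ _

lemma fvd_tangent {F M D : ℝ → ℝ} (hE : Ec F M D) (x y : ℝ) : M x * (y - x) ≤ F y - F x := by
  rcases lt_trichotomy x y with h | h | h
  · obtain ⟨c, hc, he⟩ := exists_hasDerivAt_eq_slope F M h hE.sm.cont.continuousOn
      (fun c _ => hE.d1 c)
    have h1 := hE.mono hc.1.le
    rw [he, le_div_iff₀ (sub_pos.2 h)] at h1
    exact h1
  · subst h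
    simp
  · obtain ⟨c, hc, he⟩ := exists_hasDerivAt_eq_slope F M h hE.sm.cont.continuousOn
      (fun c _ => hE.d1 c)
    have h1 := hE.mono hc.2.le
    rw [he, div_le_iff₀ (sub_pos.2 h)] at h1
    linarith

/-- Change of the tilt exponent, at every point. -/
theorem fvd_tilt (S : ℝ) : ∃ K : ℝ, 0 ≤ K ∧ ∀ (C g₁ g₂ : ℝ) (F : ℝ → ℝ), Adm C F → 0 < g₁ →
    g₁ ≤ g₂ → g₂ ≤ 1 → ∀ τ ∈ Icc 0 S, ∀ x,
      |tlt g₂ τ F (fun y => iteratedDeriv 1 F y ^ 2) x -
        tlt g₁ τ F (fun y => iteratedDeriv 1 F y ^ 2) x| ≤ K * (g₂ - g₁) * τ := by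
  set I₁ := ∫ z, |z| * Real.exp (√S * |z|) ∂(gaussianReal 0 1) with hI₁
  set I₂ := ∫ z, |z| ^ 2 * Real.exp (√S * |z|) ∂(gaussianReal 0 1) with hI₂
  have hI₁0 : 0 ≤ I₁ := integral_nonneg fun z => by positivity
  have hI₂0 : 0 ≤ I₂ := integral_nonneg fun z => by positivity
  refine ⟨2 * (I₂ + I₁ * I₁), by positivity, ?_⟩
  intro C g₁ g₂ F h hg hgg hg2 τ hτ x
  have hE := ex_ec h
  have hS := hE.sm
  have hg1 : g₁ ≤ 1 := hgg.trans hg2
  set M := iteratedDeriv 1 F with hM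
  set D := iteratedDeriv 2 F with hD
  set w : ℝ → ℝ := fun y => F y + -(F x) with hw
  have hw1 : ∀ y, |w y| ≤ |y - x| := fun y => by
    have := hS.lip y x
    rw [one_mul] at this
    simpa only [hw, ← sub_eq_add_neg] using this
  have hwS : Sm 1 1 w M D :=
    ⟨fun x => by simpa [hw] using (hE.d1 x).add_const (-(F x)), hE.d2, hE.cD, hE.sm.bM, hE.sm.bD⟩
  have hMc : Continuous M := hS.cont1
  have hwc : Continuous w := hwS.cont
  set ψ : ℝ → ℝ := fun y => M y ^ 2 - M x ^ 2 with hψ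
  have hψb : ∀ y, |ψ y| ≤ 2 * |y - x| := fun y => by
    have h1 := convex_univ.norm_image_sub_le_of_norm_hasDerivWithin_le (f := M) (f' := D)
      (s := Set.univ) (C := 1) (fun x _ => (hE.d2 x).hasDerivWithinAt) (fun x _ => hE.sm.bD x)
      (mem_univ x) (mem_univ y)
    rw [Real.norm_eq_abs, Real.norm_eq_abs, one_mul] at h1
    have h2 : ψ y = (M y + M x) * (M y - M x) := by simp only [hψ]; ring
    rw [h2, abs_mul]
    have h3 : |M y + M x| ≤ 2 := by
      refine (abs_add_le _ _).trans ?_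
      have := hE.abs_M y
      have := hE.abs_M x
      linarith
    exact mul_le_mul h3 h1 (abs_nonneg _) (by norm_num)
  have hψ1 : ∀ y, |ψ y| ≤ 1 := fun y => by
    have h1 := pow_le_one₀ (abs_nonneg _) (hE.abs_M y) (n := 2)
    have h2 := pow_le_one₀ (abs_nonneg _) (hE.abs_M x) (n := 2)
    rw [sq_abs] at h1 h2
    rw [abs_le]
    simp only [hψ]
    constructor <;> nlinarith [sq_nonneg (M y), sq_nonneg (M x)]
  have hψc : Continuous ψ := by fun_prop
  have hM2b : ∀ _ : ℝ, |M x ^ 2| ≤ 1 := fun _ => by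
    rw [abs_pow]; exact pow_le_one₀ (abs_nonneg _) (hE.abs_M x)
  -- reduction to `w` and `ψ`
  have e : ∀ g : ℝ, tlt g τ F (fun y => M y ^ 2) x = tlt g τ w ψ x + M x ^ 2 := by
    intro g
    have h1 : (fun y => M y ^ 2) = fun y => ψ y + M x ^ 2 := by
      funext y
      simp only [hψ]
      ring
    rw [h1, hS.tlt_add hψc hψ1 continuous_const (hM2b), hS.tlt_const, ← sp5_tlt_add_const g τ (-(F x)) F ψ x]
  rw [e, e]
  have hτ0 : 0 ≤ τ := hτ.1
  have hst : √τ ≤ √S := Real.sqrt_le_sqrt hτ.2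
  have hs0 := Real.sqrt_nonneg τ
  have hyx : ∀ z, |x + √τ * z - x| = √τ * |z| := fun z => by
    rw [add_sub_cancel_left, abs_mul, abs_of_nonneg hs0]
  have hwz : ∀ z, |w (x + √τ * z)| ≤ √τ * |z| := fun z => (hw1 _).trans (hyx z).le
  have hψz : ∀ z, |ψ (x + √τ * z)| ≤ 2 * (√τ * |z|) := fun z =>
    (hψb _).trans (by rw [hyx])
  have hwe : ∀ g, 0 ≤ g → g ≤ 1 → ∀ z, g * w (x + √τ * z) ≤ √S * |z| := by
    intro g h0 h1 z
    calc g * w (x + √τ * z) ≤ |g * w (x + √τ * z)| := le_abs_self _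
      _ = g * |w (x + √τ * z)| := by rw [abs_mul, abs_of_nonneg h0]
      _ ≤ 1 * (√τ * |z|) := mul_le_mul h1 (hwz z) (abs_nonneg _) zero_le_one
      _ ≤ √S * |z| := by rw [one_mul]; exact mul_le_mul_of_nonneg_right hst (abs_nonneg _)
  have hd0 : 0 ≤ g₂ - g₁ := sub_nonneg.2 hgg
  have hee : ∀ z, |Real.exp (g₂ * w (x + √τ * z)) - Real.exp (g₁ * w (x + √τ * z))| ≤
      (g₂ - g₁) * (√τ * |z|) * Real.exp (√S * |z|) := by
    intro z
    refine (fvd_exp_sub (hwe g₂ (hg.le.trans hgg) hg2 z) (hwe g₁ hg.le hg1 z)).trans ?_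
    refine mul_le_mul_of_nonneg_right ?_ (Real.exp_pos _).le
    rw [← sub_mul, abs_mul, abs_of_nonneg hd0]
    exact mul_le_mul_of_nonneg_left (hwz z) hd0
  -- lower bound of the denominators
  have hZ : ∀ g, 0 < g → g ≤ 1 → 1 ≤ ∫ z, Real.exp (g * w (x + √τ * z)) ∂(gaussianReal 0 1) := by
    intro g h0 h1
    have i3 : Integrable (fun z : ℝ => z) (gaussianReal 0 1) := by
      have := (fvd_int1 0)
      refine this.mono' (by fun_prop) (ae_of_all _ fun z => ?_)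
      simp
    have i2 : Integrable (fun z : ℝ => 1 + g * M x * √τ * z) (gaussianReal 0 1) :=
      (integrable_const _).add (i3.const_mul _)
    have h2 : ∫ z, (1 + g * M x * √τ * z) ∂(gaussianReal 0 1) = 1 := by
      rw [integral_add (integrable_const _) (i3.const_mul _), integral_const_mul]
      have h3 : ∫ z : ℝ, z ∂(gaussianReal 0 1) = 0 := integral_id_gaussianReal
      rw [h3]
      simp
    rw [← h2]
    refine integral_mono i2 (hwS.integrable_exp g τ x) fun z => ?_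
    simp only []
    have h3 := Real.add_one_le_exp (g * w (x + √τ * z))
    have h4 := mul_le_mul_of_nonneg_left (fvd_tangent hE x (x + √τ * z)) h0.le
    have e1 : g * (M x * (x + √τ * z - x)) = g * M x * √τ * z := by ring
    have e2 : g * (F (x + √τ * z) - F x) = g * w (x + √τ * z) := by simp only [hw]; ring
    rw [e1, e2] at h4
    linarith
  have i1 : ∀ g, Integrable (fun z => ψ (x + √τ * z) * Real.exp (g * w (x + √τ * z)))
      (gaussianReal 0 1) := fun g => hwS.integrable hψc hψ1 g τ x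
  have i0 : ∀ g, Integrable (fun z => Real.exp (g * w (x + √τ * z))) (gaussianReal 0 1) :=
    fun g => hwS.integrable_exp g τ x
  unfold tlt
  set A₂ := ∫ z, ψ (x + √τ * z) * Real.exp (g₂ * w (x + √τ * z)) ∂(gaussianReal 0 1)
  set A₁ := ∫ z, ψ (x + √τ * z) * Real.exp (g₁ * w (x + √τ * z)) ∂(gaussianReal 0 1)
  set Z₂ := ∫ z, Real.exp (g₂ * w (x + √τ * z)) ∂(gaussianReal 0 1)
  set Z₁ := ∫ z, Real.exp (g₁ * w (x + √τ * z)) ∂(gaussianReal 0 1)
  have hZ₂ : 1 ≤ Z₂ := hZ g₂ (hg.trans_le hgg) hg2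
  have hZ₁ : 1 ≤ Z₁ := hZ g₁ hg hg1
  have hZZ : |Z₂ - Z₁| ≤ (g₂ - g₁) * √τ * I₁ := by
    have h1 : Z₂ - Z₁ = ∫ z, (Real.exp (g₂ * w (x + √τ * z)) - Real.exp (g₁ * w (x + √τ * z)))
        ∂(gaussianReal 0 1) := (integral_sub (i0 g₂) (i0 g₁)).symm
    rw [h1, ← Real.norm_eq_abs]
    refine (norm_integral_le_of_norm_le ((fvd_int1 (√S)).const_mul ((g₂ - g₁) * √τ))
      (ae_of_all _ fun z => ?_)).trans (by rw [integral_const_mul])
    rw [Real.norm_eq_abs]
    refine (hee z).trans (le_of_eq ?_)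
    ring
  have hAA : |A₂ - A₁| ≤ 2 * (g₂ - g₁) * τ * I₂ := by
    have h1 : A₂ - A₁ = ∫ z, (ψ (x + √τ * z) * Real.exp (g₂ * w (x + √τ * z)) -
        ψ (x + √τ * z) * Real.exp (g₁ * w (x + √τ * z))) ∂(gaussianReal 0 1) :=
      (integral_sub (i1 g₂) (i1 g₁)).symm
    rw [h1, ← Real.norm_eq_abs]
    refine (norm_integral_le_of_norm_le ((fvd_int2 (√S)).const_mul (2 * (g₂ - g₁) * τ))
      (ae_of_all _ fun z => ?_)).trans (by rw [integral_const_mul])
    rw [Real.norm_eq_abs, ← mul_sub, abs_mul]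
    refine (mul_le_mul (hψz z) (hee z) (abs_nonneg _) (by positivity)).trans (le_of_eq ?_)
    have : √τ * √τ = τ := Real.mul_self_sqrt hτ0
    calc 2 * (√τ * |z|) * ((g₂ - g₁) * (√τ * |z|) * Real.exp (√S * |z|)) =
        2 * (g₂ - g₁) * (√τ * √τ) * (|z| ^ 2 * Real.exp (√S * |z|)) := by ring
      _ = _ := by rw [this]
  have hA₁ : |A₁| ≤ 2 * √τ * I₁ := by
    rw [← Real.norm_eq_abs]
    refine (norm_integral_le_of_norm_le ((fvd_int1 (√S)).const_mul (2 * √τ))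
      (ae_of_all _ fun z => ?_)).trans (by rw [integral_const_mul])
    rw [Real.norm_eq_abs, abs_mul, abs_of_pos (Real.exp_pos _)]
    refine (mul_le_mul (hψz z) (Real.exp_le_exp.2 (hwe g₁ hg.le hg1 z)) (Real.exp_pos _).le
      (by positivity)).trans (le_of_eq ?_)
    ring
  have hsplit : A₂ / Z₂ + M x ^ 2 - (A₁ / Z₁ + M x ^ 2) =
      (A₂ - A₁) / Z₂ + A₁ * (Z₁ - Z₂) / (Z₁ * Z₂) := by
    have h1 : Z₂ ≠ 0 := by positivity
    have h2 : Z₁ ≠ 0 := by positivity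
    field_simp
    ring
  rw [hsplit]
  have k1 : |(A₂ - A₁) / Z₂| ≤ 2 * (g₂ - g₁) * τ * I₂ := by
    rw [abs_div, abs_of_pos (by linarith : 0 < Z₂)]
    exact (div_le_self (abs_nonneg _) hZ₂).trans hAA
  have k2 : |A₁ * (Z₁ - Z₂) / (Z₁ * Z₂)| ≤ 2 * √τ * I₁ * ((g₂ - g₁) * √τ * I₁) := by
    have hZZ1 : 1 ≤ Z₁ * Z₂ := by nlinarith
    rw [abs_div, abs_of_pos (by linarith : 0 < Z₁ * Z₂), abs_mul, abs_sub_comm Z₁ Z₂]
    refine (div_le_self (by positivity) hZZ1).trans ?_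
    exact mul_le_mul hA₁ hZZ (abs_nonneg _) (by positivity)
  refine (abs_add_le _ _).trans ((add_le_add k1 k2).trans (le_of_eq ?_))
  have : √τ * √τ = τ := Real.mul_self_sqrt hτ0
  calc 2 * (g₂ - g₁) * τ * I₂ + 2 * √τ * I₁ * ((g₂ - g₁) * √τ * I₁) =
      2 * (g₂ - g₁) * τ * I₂ + 2 * (√τ * √τ) * (g₂ - g₁) * (I₁ * I₁) := by ring
    _ = _ := by rw [this]; ring

end Vale.Agent.P367.Cl
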